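import Vale.Agent.P247C.T6

/-!
# P247, block C, row DEC: decomposition into irreducible curves
-/

set_option linter.all false

open scoped Manifold ContDiff Topology
open Set MeasureTheory Filter Metric

noncomputable section

namespace Vale.Agent.P247C

open Vale.Agent.P247.SCY Vale.Agent.P247.SCY.HS Vale.Agent.P247X
open Vale.Agent.P247.H821 (isPreconnected_punct)

variable {X : Type} [Cl4 X] {J : EndF X} {T : Form X 2 → ℝ} {K U : Set X} {x : X} {N : ℕ}
  {u : Fin N → ℂ → X} {k : Fin N → ℕ}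

theorem not_suppT {x : X} (hx : x ∉ suppT T) : ∃ V ∈ 𝓝 x, ∀ φ, Cont φ → SuppIn φ V → T φ = 0 := by
  by_contra hn
  push Not at hn
  exact hx hn

theorem isClosed_suppT (T : Form X 2 → ℝ) : IsClosed (suppT T) := by
  rw [← isOpen_compl_iff, isOpen_iff_mem_nhds]
  intro x hx
  obtain ⟨V, hV, h⟩ := not_suppT hx
  filter_upwards [eventually_mem_nhds_iff.2 hV] with y hy hy'
  obtain ⟨φ, h1, h2, h3⟩ := hy' V hy
  exact h3 (h φ h1 h2)

theorem brs_sub (h : BrsX J K x N u U) (A : Finset (Fin N)) (hA : A.Nonempty) {K' : Set X}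
    (hm : ∀ l ∈ A, ∀ z ∈ ball (0 : ℂ) 2, u l z ∈ K')
    (hc : ∀ y ∈ U, y ∈ K' → ∃ l ∈ A, ∃ z ∈ ball (0 : ℂ) 1, u l z = y) :
    BrsX J K' x A.card (fun m => u (A.orderEmbOfFin rfl m)) U :=
  ⟨hA.card_pos, h.opn, h.memU, fun _ => h.smooth _, fun _ => h.hol _, fun _ => h.zero _,
    fun _ => h.imm _, fun a b z hz w hw e => (h.inj _ _ z hz w hw e).imp_left fun h1 =>
      ⟨(A.orderEmbOfFin rfl).injective h1.1, h1.2⟩, fun _ => h.far _,
    fun m => hm _ (A.orderEmbOfFin_mem rfl m), fun y hy hy' => by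
      obtain ⟨l, hl, z, hz, e⟩ := hc y hy hy'
      obtain ⟨m, rfl⟩ : l ∈ range (A.orderEmbOfFin rfl) := by rwa [Finset.range_orderEmbOfFin]
      exact ⟨m, z, hz, e⟩⟩

/-- the regular part -/
def RegS (J : EndF X) (K : Set X) : Set X := {x | x ∈ K ∧ RegPt J K x}

/-- the multiplicity at a regular point -/
def Mult (J : EndF X) (T : Form X 2 → ℝ) (K : Set X) (y : X) (n : ℕ) : Prop :=
  ∃ (v : Fin 1 → ℂ → X) (V : Set X), BrsX J K y 1 v V ∧
    ∀ φ, Cont φ → SuppIn φ V → T φ = n * brX (v 0) φ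

/-- punctured branches -/
def pbr (v : ℂ → X) : Set X := v '' (ball 0 2 \ {0})

theorem one_punct : (1 : ℂ) ∈ ball (0 : ℂ) 2 \ {0} := ⟨by simp, one_ne_zero⟩

/-- branch structures whose punctured branches consist of regular points -/
structure GoodB (J : EndF X) (T : Form X 2 → ℝ) (K : Set X) (x : X) (N : ℕ) (u : Fin N → ℂ → X)
    (k : Fin N → ℕ) (U : Set X) : Prop where
  brs : BrsX J K x N u U
  one : ∀ l, 1 ≤ k l
  eq : ∀ φ, Cont φ → SuppIn φ U → T φ = ∑ l, (k l : ℝ) * brX (u l) φ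
  reg : ∀ l, ∀ y ∈ pbr (u l), y ∈ RegS J K ∧ Mult J T K y (k l)

theorem exists_good (h : LocStrX J T x) : ∃ (N : ℕ) (u : Fin N → ℂ → X) (k : Fin N → ℕ)
    (U : Set X), GoodB J T (suppT T) x N u k U := by
  obtain ⟨N, u, k, U, hb, h1, h2⟩ := h
  obtain ⟨r, V, hr, hr1, hV, h3, h4, h5⟩ := hb.shrink univ_mem
  refine ⟨N, _, k, V, h3, h1, fun φ hφ hs => ?_, ?_⟩
  · rw [h2 φ hφ (SuppIn_mono hs fun y hy => (hV hy).2)]
    exact Finset.sum_congr rfl fun l _ => by rw [h5 φ hs l]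
  rintro l _ ⟨w, hw, rfl⟩
  have a1 : 0 + r * w ∈ ball (0 : ℂ) 2 :=
    ball_subset_ball (by linarith) ((aff_mem (z₀ := 0) hr).2 hw.1)
  have a2 : 0 + r * w ≠ 0 := fun e => hw.2 (aff_inj 0 hr (by simpa using e))
  have a3 := (h4 l w hw.1).2
  obtain ⟨s, W, -, hW, h6, -, h7⟩ := hb.recenter' a1 a2 a3 univ_mem
  refine ⟨⟨hb.mem l _ a1, hb.regPt a1 a2 a3⟩, _, W, h6, fun φ hφ hs => ?_⟩
  rw [h2 φ hφ (SuppIn_mono hs fun y hy => (hW hy).2), Finset.sum_eq_single l
    (fun l' _ hl => by rw [(h7 φ hs).2 l' hl, mul_zero]) (by simp), (h7 φ hs).1]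

theorem mult_uniq (hJ : ∀ x v, J x (J x v) = -v) {a : Form X 2} (ha : Cont a)
    (hp : ∀ x v, v ≠ 0 → 0 < a x ![v, J x v]) {y : X} {n n' : ℕ} (h : Mult J T K y n)
    (h' : Mult J T K y n') : n = n' := by
  obtain ⟨v, V, h1, h2⟩ := h
  obtain ⟨v', V', h1', h2'⟩ := h'
  obtain ⟨L, W, ho, hy, hW, -, h3⟩ := repar_brX hJ h1 h1'
  obtain ⟨χ, c1, -, c2, c3⟩ := exists_test h1 ha hp (ho.mem_nhds hy)
  have c4 := suppIn_fsmul c2 a
  have c5 := cont_fsmul c1.continuous ha
  have e := (h2 _ c5 (SuppIn_mono c4 fun y hy => (hW hy).1)).symm.trans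
    (h2' _ c5 (SuppIn_mono c4 fun y hy => (hW hy).2))
  rw [← Subsingleton.elim (L 0) 0, ← h3 _ c4 0, Subsingleton.elim (L 0) 0] at e
  exact_mod_cast mul_right_cancel₀ (c3 0).ne' e

theorem mem_comp {S : Set X} {y₀ y : X} (hy : y ∈ S)
    (h : y ∈ closure (connectedComponentIn S y₀)) : y ∈ connectedComponentIn S y₀ := by
  obtain ⟨y₁, h1⟩ := closure_nonempty_iff.1 ⟨y, h⟩
  have h2 : IsPreconnected (insert y (connectedComponentIn S y₀)) :=
    isPreconnected_connectedComponentIn.subset_closure (subset_insert _ _)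
      (insert_subset h subset_closure)
  rw [connectedComponentIn_eq h1]
  exact h2.subset_connectedComponentIn (Or.inr h1)
    (insert_subset hy (connectedComponentIn_subset _ _)) (Or.inl rfl)

namespace GoodB

variable (h : GoodB J T K x N u k U)
include h

theorem pre (l : Fin N) : IsPreconnected (pbr (u l)) :=
  (isPreconnected_punct two_pos).image _ ((h.brs.smooth l).continuousOn.mono diff_subset)

theorem sub_of_mem {l : Fin N} {y₀ y : X} (hy : y ∈ closure (pbr (u l)))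
    (hC : y ∈ connectedComponentIn (RegS J K) y₀) :
    pbr (u l) ⊆ connectedComponentIn (RegS J K) y₀ := by
  have h2 : IsPreconnected (insert y (pbr (u l))) :=
    (h.pre l).subset_closure (subset_insert _ _) (insert_subset hy subset_closure)
  rw [connectedComponentIn_eq hC]
  exact (subset_insert _ _).trans (h2.subset_connectedComponentIn (Or.inl rfl)
    (insert_subset (connectedComponentIn_subset _ _ hC) fun y hy => (h.reg l y hy).1))

theorem mem_cl (l : Fin N) {z : ℂ} (hz : z ∈ ball (0 : ℂ) 2) : u l z ∈ closure (pbr (u l)) := by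
  by_cases h0 : z = 0
  · rw [h0, h.brs.zero]
    exact h.brs.mem_closure l two_pos
  · exact subset_closure ⟨z, ⟨hz, h0⟩, rfl⟩

theorem cov1 {y₀ y : X} (hy : y ∈ U) (hC : y ∈ connectedComponentIn (RegS J K) y₀) :
    ∃ l, pbr (u l) ⊆ connectedComponentIn (RegS J K) y₀ ∧ ∃ z ∈ ball (0 : ℂ) 1, u l z = y := by
  obtain ⟨l, z, hz, rfl⟩ := h.brs.cov y hy (connectedComponentIn_subset _ _ hC).1
  exact ⟨l, h.sub_of_mem (h.mem_cl l (b12 hz)) hC, z, hz, rfl⟩

theorem cov2 (hK : IsClosed K) {y₀ y : X} (hy : y ∈ U)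
    (hC : y ∈ closure (connectedComponentIn (RegS J K) y₀)) :
    ∃ l, pbr (u l) ⊆ connectedComponentIn (RegS J K) y₀ ∧ ∃ z ∈ ball (0 : ℂ) 1, u l z = y := by
  by_cases e : y = x
  · obtain ⟨y', h1, h2⟩ := mem_closure_iff.1 hC U h.brs.opn hy
    obtain ⟨l, h3, -⟩ := h.cov1 h1 h2
    exact ⟨l, h3, 0, mem_ball_self one_pos, (h.brs.zero l).trans e.symm⟩
  · have h1 : y ∈ K := closure_minimal (fun y hy => (connectedComponentIn_subset _ _ hy).1) hK hC
    exact h.cov1 hy (mem_comp ⟨h1, h.brs.regPt_of_ne hy h1 e⟩ hC)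

open Classical in
theorem brs_comp (hK : IsClosed K) {y₀ : X}
    (hx : x ∈ closure (connectedComponentIn (RegS J K) y₀)) :
    BrsX J (closure (connectedComponentIn (RegS J K) y₀)) x _ (fun m => u ((Finset.univ.filter
      fun l => pbr (u l) ⊆ connectedComponentIn (RegS J K) y₀).orderEmbOfFin rfl m)) U := by
  obtain ⟨l, hl, -⟩ := h.cov2 hK h.brs.memU hx
  refine brs_sub h.brs _ ⟨l, by simpa using hl⟩ (fun l hl z hz =>
    closure_mono (by simpa using hl) (h.mem_cl l hz)) fun y hy hy' => ?_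
  obtain ⟨l, hl, h1⟩ := h.cov2 hK hy hy'
  exact ⟨l, by simpa using hl, h1⟩

open Classical in
theorem eq_comp (hJ : ∀ x v, J x (J x v) = -v) (hK : IsClosed K) {y₀ : X} {S : Form X 2 → ℝ}
    (hS : Cyc J (closure (connectedComponentIn (RegS J K) y₀)) S) {φ : Form X 2} (hφ : Cont φ)
    (hs : SuppIn φ U) : S φ = ∑ l, if pbr (u l) ⊆ connectedComponentIn (RegS J K) y₀ then
      brX (u l) φ else 0 := by
  rw [← Finset.sum_filter]
  by_cases hx : x ∈ closure (connectedComponentIn (RegS J K) y₀)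
  · rw [hS.comp hJ (h.brs_comp hK hx) φ hφ hs]
    conv_rhs => rw [← Finset.map_orderEmbOfFin_univ (Finset.univ.filter _) rfl, Finset.sum_map]
    rfl
  · have h1 : ∀ l, ¬ pbr (u l) ⊆ connectedComponentIn (RegS J K) y₀ := fun l hl =>
      hx (closure_mono hl (h.brs.mem_closure l two_pos))
    rw [Finset.filter_false_of_mem fun l _ => h1 l, Finset.sum_empty]
    refine hS.off φ hφ (SuppIn_mono hs fun y hy hy' => ?_)
    obtain ⟨l, hl, -⟩ := h.cov2 hK hy hy'
    exact h1 l hl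

end GoodB

theorem dec_aux (hJ : ∀ x v, J x (J x v) = -v) {a : Form X 2} (ha : Cont a)
    (hp : ∀ x v, v ≠ 0 → 0 < a x ![v, J x v]) (hT : LinC T)
    (hl : ∀ x ∈ suppT T, LocStrX J T x) : ∃ (m : ℕ) (K : Fin m → Irr J) (k : Fin m → ℕ),
      (∀ i, 1 ≤ k i) ∧ suppT T = ⋃ i, (K i).K ∧ ∀ φ, Cont φ → T φ = ∑ i, (k i : ℝ) * (K i).T φ := by
  classical
  have hK := isClosed_suppT T
  have hg := fun x hx => exists_good (hl x hx)
  set K := suppT T with hKdef
  set R := RegS J K with hR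
  -- multiplicities
  have h1 : ∀ y ∈ R, ∃ n, 1 ≤ n ∧ ∀ᶠ y' in 𝓝[R] y, Mult J T K y' n := fun y hy => by
    obtain ⟨N, u, k, U, h⟩ := hg y hy.1
    obtain rfl := (regPt_one hJ h.brs hy.2).1
    refine ⟨k 0, h.one 0, ?_⟩
    filter_upwards [nhdsWithin_le_nhds (h.brs.opn.mem_nhds h.brs.memU), self_mem_nhdsWithin]
      with y' h2 h3
    obtain ⟨l, z, hz, rfl⟩ := h.brs.cov y' h2 h3.1
    by_cases h0 : z = 0
    · rw [h0, h.brs.zero]
      exact ⟨u, U, h.brs, fun φ a b => by rw [h.eq φ a b, Fin.sum_univ_one]⟩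
    · rw [Subsingleton.elim 0 l]
      exact (h.reg l _ ⟨z, ⟨b12 hz, h0⟩, rfl⟩).2
  choose! κ hκ1 hκ using h1
  have hκ0 : ∀ y ∈ R, Mult J T K y (κ y) := fun y hy => (hκ y hy).self_of_nhdsWithin hy
  have hκc : ContinuousOn κ R := fun y hy => by
    refine (continuousWithinAt_const (b := κ y)).congr_of_eventuallyEq ?_ rfl
    filter_upwards [hκ y hy, self_mem_nhdsWithin] with y' h2 h3
    exact mult_uniq hJ ha hp (hκ0 y' h3) h2
  -- finitely many components
  have hfin : (connectedComponentIn R '' R).Finite := by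
    choose! N u k U h using hg
    obtain ⟨t, ht, hc⟩ := hK.isCompact.elim_nhds_subcover U fun x hx =>
      (h x hx).brs.opn.mem_nhds (h x hx).brs.memU
    refine (t.finite_toSet.biUnion fun x _ =>
      finite_range fun l => connectedComponentIn R (u x l 1)).subset ?_
    rintro _ ⟨y, hy, rfl⟩
    obtain ⟨x, hx, hyx⟩ := mem_iUnion₂.1 (hc hy.1)
    obtain ⟨l, hl, -⟩ := (h x (ht x hx)).cov1 hyx (mem_connectedComponentIn hy)
    exact mem_biUnion hx ⟨l, (connectedComponentIn_eq (hl ⟨1, one_punct, rfl⟩)).symm⟩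
  haveI := hfin.to_subtype
  set e := (Finite.equivFin (connectedComponentIn R '' R)).symm
  choose p hp1 hp2 using fun i => (e i).2
  have hcl : ∀ y, closure (connectedComponentIn R y) ⊆ K := fun y =>
    closure_minimal (fun y hy => (connectedComponentIn_subset _ _ hy).1) hK
  have h2 : ∀ i, ∃ S, Cyc J (closure (connectedComponentIn R (p i))) S := fun i =>
    exists_cyc hJ isClosed_closure.isCompact fun x hx => by
      obtain ⟨N, u, k, U, h⟩ := hg x (hcl _ hx)
      exact ⟨_, _, U, h.brs_comp hK hx⟩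
  choose S hS using h2
  have hidx : ∀ y ∈ R, ∃ i, y ∈ connectedComponentIn R (p i) ∧
      ∀ j, y ∈ connectedComponentIn R (p j) → j = i := fun y hy => by
    obtain ⟨i, hi⟩ := e.surjective ⟨_, y, hy, rfl⟩
    refine ⟨i, by rw [hp2, hi]; exact mem_connectedComponentIn hy, fun j hj => e.injective ?_⟩
    rw [hi]
    exact Subtype.ext ((hp2 j).symm.trans (connectedComponentIn_eq hj))
  refine ⟨_, fun i => ⟨closure (connectedComponentIn R (p i)), (hS i).cpt,
    ⟨p i, subset_closure (mem_connectedComponentIn (hp1 i))⟩, S i, (hS i).lin, (hS i).off,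
    (hS i).loc, (isPreconnected_connectedComponentIn (x := p i) (F := R)).subset_closure
      (fun y hy => ⟨subset_closure hy, ?_⟩) fun y hy => hy.1⟩, fun i => κ (p i),
    fun i => hκ1 _ (hp1 i), Subset.antisymm (fun x hx => ?_) (iUnion_subset fun i => hcl _),
    fun φ hφ => ?_⟩
  · have hyR := connectedComponentIn_subset _ _ hy
    obtain ⟨N, u, k, U, h⟩ := hg y hyR.1
    obtain ⟨rfl, h3⟩ := regPt_one hJ h.brs hyR.2
    obtain ⟨l, hl, -⟩ := h.cov1 h.brs.memU hy
    exact ⟨u, U, { h.brs with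
      mem := fun l' z hz => closure_mono hl (Subsingleton.elim l l' ▸ h.mem_cl l hz)
      cov := fun y' a b => h.brs.cov y' a (hcl _ b) }, h3 0⟩
  · obtain ⟨N, u, k, U, h⟩ := hg x hx
    have h3 : u ⟨0, h.brs.posN⟩ 1 ∈ pbr (u ⟨0, h.brs.posN⟩) := ⟨1, one_punct, rfl⟩
    obtain ⟨i, hi, -⟩ := hidx _ (h.reg _ _ h3).1
    exact mem_iUnion.2 ⟨i, closure_mono (h.sub_of_mem (subset_closure h3) hi)
      (h.brs.mem_closure _ two_pos)⟩
  refine lin_ext hT (lin_fsum _ _ fun i _ => (hS i).lin) hφ fun x => ?_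
  by_cases hx : x ∈ K
  · obtain ⟨N, u, k, U, h⟩ := hg x hx
    refine ⟨U, h.brs.opn.mem_nhds h.brs.memU, fun χ c1 _ c2 => ?_⟩
    have c4 := suppIn_fsmul c2 φ
    have c5 := cont_fsmul c1.continuous hφ
    show _ = ∑ i, (κ (p i) : ℝ) * S i _
    simp only [h.eq_comp hJ hK (hS _) c5 c4, Finset.mul_sum]
    rw [h.eq _ c5 c4, Finset.sum_comm]
    refine Finset.sum_congr rfl fun l _ => ?_
    have h3 : u l 1 ∈ pbr (u l) := ⟨1, one_punct, rfl⟩
    obtain ⟨i, hi, hi'⟩ := hidx _ (h.reg _ _ h3).1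
    rw [Finset.sum_eq_single i (fun j _ hj => by
      rw [if_neg fun h4 => hj (hi' j (h4 h3)), mul_zero]) (fun h => absurd (Finset.mem_univ _) h),
      if_pos (h.sub_of_mem (subset_closure h3) hi),
      isPreconnected_connectedComponentIn.constant (hκc.mono (connectedComponentIn_subset _ _))
        (mem_connectedComponentIn (hp1 i)) hi,
      mult_uniq hJ ha hp (hκ0 _ (h.reg _ _ h3).1) (h.reg _ _ h3).2]
  · obtain ⟨V, hV, h0⟩ := not_suppT hx
    refine ⟨V ∩ Kᶜ, inter_mem hV (hK.isOpen_compl.mem_nhds hx), fun χ c1 _ c2 => ?_⟩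
    have c4 := suppIn_fsmul c2 φ
    have c5 := cont_fsmul c1.continuous hφ
    rw [h0 _ c5 (SuppIn_mono c4 inter_subset_left)]
    exact (Finset.sum_eq_zero fun i _ => by
      rw [(hS i).off _ c5 (SuppIn_mono c4 fun y hy h => hy.2 (hcl _ h)), mul_zero]).symm

theorem dec : DEC_statement := fun X _ μ _ w hw T hT hl =>
  dec_aux (jw_sq hw) (hyp_sc hw 2).cont (fun x _ hv => jw_pos hw x hv) hT.toLinC hl

end Vale.Agent.P247C
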