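import Vale.Agent.P247C.T6

/-!
# P247, block C, row EMB: spheres and tori are irreducible curves
-/

set_option linter.all false

open scoped Manifold ContDiff Topology Pointwise
open Set MeasureTheory Filter Metric

noncomputable section

namespace Vale.Agent.P247C

open Vale.Agent.P247.SCY Vale.Agent.P247.SCY.HS Vale.Agent.P247X

variable {X : Type} [Cl4 X] {J : EndF X}

theorem brs_of_imm {u : ℂ → X} (hu : ContMDiff 𝓘(ℝ, ℂ) (𝓡 4) ∞ u) (hJ : ∀ z, JAt J u z)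
    (hi : ∀ z, dm u z 1 ≠ 0) {z₀ : ℂ} {s : ℝ} (hs : 0 < s) (hinj : InjOn u (ball z₀ (2 * s)))
    {K F : Set X} (hK : ∀ z, u z ∈ K) (hF : IsClosed F) (h0 : u z₀ ∉ F)
    (far : ∀ z ∈ ball z₀ (2 * s), z ∉ ball z₀ s → u z ∈ F)
    (cov : ∀ y ∈ K, y ∉ F → ∃ z ∈ ball z₀ s, u z = y) :
    BrsX J K (u z₀) 1 (fun _ w => u (z₀ + s * w)) Fᶜ ∧ dm (fun w => u (z₀ + s * w)) 0 1 ≠ 0 := by
  have md : ∀ z, MDifferentiableAt 𝓘(ℝ, ℂ) (𝓡 4) u z := fun z => (hu z).mdifferentiableAt (by simp)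
  have him : ∀ w, dm (fun w => u (z₀ + s * w)) w 1 ≠ 0 := fun w => by
    rw [dm_aff (md _)]
    exact smul_ne_zero hs.ne' (hi _)
  refine ⟨⟨one_pos, hF.isOpen_compl, h0, fun _ => (hu.comp (cmd_aff z₀ s)).contMDiffOn,
    fun _ w _ => jat_aff (md _) (hJ _), fun _ => by simp, fun _ w _ _ => him w,
    fun a b w hw w' hw' e => Or.inl ⟨Subsingleton.elim _ _,
      aff_inj z₀ hs (hinj ((aff_mem hs).2 hw) ((aff_mem hs).2 hw') e)⟩,
    fun _ w hw h1 h2 => h2 (far _ ((aff_mem hs).2 hw) fun h3 => ?_), fun _ w _ => hK _,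
    fun y hy hyK => ?_⟩, him 0⟩
  · have h4 := (aff_mem (z₀ := z₀) (r := 1) hs).1 (by rw [one_mul]; exact h3)
    exact absurd (mem_ball_zero_iff.1 h4) (not_lt.2 h1)
  · obtain ⟨z, hz, rfl⟩ := cov y hyK hy
    rw [← one_mul s, ← aff_image z₀ hs] at hz
    obtain ⟨w, hw, rfl⟩ := hz
    exact ⟨0, w, hw, rfl⟩

theorem lin_int {u : ℂ → X} {ν : Measure ℂ} (h : ∀ φ, Cont φ → Integrable (pull2 φ u) ν) :
    LinC fun φ => ∫ z, pull2 φ u z ∂ν where
  add φ ψ hφ hψ := by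
    rw [← integral_add (h φ hφ) (h ψ hψ)]
    rfl
  smul c φ _ := by
    rw [← integral_const_mul]
    rfl

theorem int_bdd {u : ℂ → X} (hu : ContMDiff 𝓘(ℝ, ℂ) (𝓡 4) ∞ u) {φ : Form X 2} (hφ : Cont φ)
    (R : ℝ) : IntegrableOn (pull2 φ u) (closedBall 0 R) :=
  ((contOn_pull2 hφ isOpen_univ hu.contMDiffOn).mono (subset_univ _)).integrableOn_compact
    (isCompact_closedBall 0 R)

/-! ## Spheres -/

/-- exchange of the two charts -/
def swp (S : Sph J) : Sph J where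
  u := S.v
  v := S.u
  u_smooth := S.v_smooth
  v_smooth := S.u_smooth
  glue z hz := by rw [S.glue _ (inv_ne_zero hz), inv_inv]
  inj z w e := by
    by_cases hz : z = 0 <;> by_cases hw : w = 0
    · rw [hz, hw]
    · exact absurd ⟨_, by rw [← S.glue w hw, ← e, hz]⟩ S.inf
    · exact absurd ⟨_, by rw [← S.glue z hz, e, hw]⟩ S.inf
    · rw [S.glue z hz, S.glue w hw] at e
      exact inv_injective (S.inj e)
  inf := by
    rintro ⟨z, e⟩
    by_cases hz : z = 0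
    · exact S.inf ⟨0, by rw [← e, hz]⟩
    · rw [S.glue z hz] at e
      exact inv_ne_zero hz (S.inj e)
  u_imm := S.v_imm
  v_imm := S.u_imm
  u_hol := S.v_hol
  v_hol := S.u_hol

theorem v_mem (S : Sph J) (z : ℂ) : S.v z ∈ S.set := by
  by_cases hz : z = 0
  · exact Or.inl (by rw [hz])
  · exact Or.inr ⟨_, (S.glue z hz).symm⟩

theorem swp_set (S : Sph J) : (swp S).set = S.set := by
  refine Subset.antisymm ?_ ?_
  · rintro _ (rfl | ⟨z, rfl⟩)
    exacts [Or.inr ⟨0, rfl⟩, v_mem S z]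
  · rintro _ (rfl | ⟨z, rfl⟩)
    exacts [Or.inr ⟨0, rfl⟩, v_mem (swp S) z]

theorem pull2_v (S : Sph J) (φ : Form X 2) {z : ℂ} (hz : z ≠ 0) :
    pull2 φ (fun w => S.u w⁻¹) z = pull2 φ S.v z :=
  pull2_congr (by filter_upwards [isOpen_ne.mem_nhds hz] with w hw using (S.glue w hw).symm)

theorem swp_int (S : Sph J) (φ : Form X 2) : (swp S).int φ = S.int φ := by
  have h1 := int_comp φ (u := S.u) (s := {0}ᶜ) (measurableSet_singleton (0 : ℂ)).compl
    (fun z hz => hasDerivAt_inv hz) inv_injective.injOn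
    fun z _ => (S.u_smooth _).mdifferentiableAt (by simp)
  have h2 : (fun z : ℂ => z⁻¹) '' {0}ᶜ = {0}ᶜ := by
    ext z
    exact ⟨by rintro ⟨w, hw, rfl⟩; exact inv_ne_zero hw, fun hz => ⟨z⁻¹, inv_ne_zero hz, inv_inv z⟩⟩
  rw [h2, setIntegral_congr_fun (measurableSet_singleton (0 : ℂ)).compl fun z hz => pull2_v S φ hz,
    restrict_compl_singleton] at h1
  exact h1.symm

theorem sph_integrable (S : Sph J) {φ : Form X 2} (hφ : Cont φ) : Integrable (pull2 φ S.u) := by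
  have h0 : MeasurableSet (closedBall (0 : ℂ) 1 \ {0}) :=
    measurableSet_closedBall.diff (measurableSet_singleton _)
  have h1 := (integrableOn_comp φ (u := S.u) h0 (fun z hz => hasDerivAt_inv hz.2)
    inv_injective.injOn fun z _ => (S.u_smooth _).mdifferentiableAt (by simp)).2
    (((int_bdd S.v_smooth hφ 1).mono_set diff_subset).congr_fun
      (fun z hz => (pull2_v S φ hz.2).symm) h0)
  rw [← integrableOn_univ]
  refine ((int_bdd S.u_smooth hφ 1).union h1).mono_set fun z _ => ?_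
  rcases le_or_gt ‖z‖ 1 with h | h
  · exact Or.inl (mem_closedBall_zero_iff.2 h)
  · refine Or.inr ⟨z⁻¹, ⟨mem_closedBall_zero_iff.2 ?_, inv_ne_zero ?_⟩, inv_inv z⟩
    · rw [norm_inv]; exact inv_le_one_of_one_le₀ h.le
    · rintro rfl
      rw [norm_zero] at h; linarith

theorem sph_far (S : Sph J) {R : ℝ} (hR : 0 < R) {z : ℂ} (hz : R < ‖z‖) :
    S.u z ∈ S.v '' closedBall 0 R⁻¹ := by
  have h0 : z ≠ 0 := norm_pos_iff.1 (hR.trans hz)
  refine ⟨z⁻¹, mem_closedBall_zero_iff.2 ?_, by rw [S.glue _ (inv_ne_zero h0), inv_inv]⟩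
  rw [norm_inv]
  exact inv_anti₀ hR hz.le

theorem sph_loc (S : Sph J) (z₀ : ℂ) : ∃ (u : Fin 1 → ℂ → X) (U : Set X),
    BrsX J S.set (S.u z₀) 1 u U ∧ dm (u 0) 0 1 ≠ 0 ∧ Comp S.int u U := by
  set R : ℝ := ‖z₀‖ + 2 with hR
  have hR0 : 0 < R := by positivity
  set F : Set X := S.u '' (closedBall 0 R \ ball z₀ (1 : ℝ)) ∪ S.v '' closedBall 0 R⁻¹ with hF
  have h1 : ∀ z, z ∉ ball z₀ (1 : ℝ) → S.u z ∈ F := fun z hz => by
    rcases le_or_gt ‖z‖ R with h | h
    exacts [Or.inl ⟨z, ⟨mem_closedBall_zero_iff.2 h, hz⟩, rfl⟩, Or.inr (sph_far S hR0 h)]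
  obtain ⟨h2, h3⟩ := brs_of_imm S.u_smooth S.u_hol S.u_imm (z₀ := z₀) one_pos S.inj.injOn
    (K := S.set) (F := F) (fun z => Or.inr ⟨z, rfl⟩)
    ((((isCompact_closedBall 0 R).diff isOpen_ball).image S.u_smooth.continuous).union
      ((isCompact_closedBall _ _).image S.v_smooth.continuous)).isClosed (by
      rintro (⟨z, hz, e⟩ | ⟨z, hz, e⟩)
      · exact hz.2 (S.inj e ▸ mem_ball_self one_pos)
      · by_cases h0 : z = 0
        · exact S.inf ⟨z₀, by rw [← e, h0]⟩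
        · rw [S.glue z h0] at e
          have h4 := inv_anti₀ (norm_pos_iff.2 h0) (mem_closedBall_zero_iff.1 hz)
          rw [inv_inv, ← norm_inv, S.inj e] at h4
          linarith) (fun z _ hz => h1 z hz) (by
      rintro _ (rfl | ⟨z, rfl⟩) hy
      · exact absurd (Or.inr ⟨0, mem_closedBall_self (inv_pos.2 hR0).le, rfl⟩) hy
      · exact ⟨z, by_contra fun h => hy (h1 z h), rfl⟩)
  refine ⟨_, _, h2, h3, fun φ _ hs => ?_⟩
  rw [Fin.sum_univ_one, ← int_aff φ one_pos fun z _ => (S.u_smooth z).mdifferentiableAt (by simp)]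
  exact (setIntegral_eq_integral_of_forall_compl_eq_zero fun z hz =>
    pull2_zero (SuppIn_zero hs fun e => e (h1 z hz))).symm

theorem sph_loc' (S : Sph J) {x : X} (hx : x ∈ S.set) : ∃ (u : Fin 1 → ℂ → X) (U : Set X),
    BrsX J S.set x 1 u U ∧ dm (u 0) 0 1 ≠ 0 ∧ Comp S.int u U := by
  rcases hx with rfl | ⟨z, rfl⟩
  · have h := sph_loc (swp S) 0
    rwa [swp_set, funext (swp_int S)] at h
  · exact sph_loc S z

theorem sph_eq (S : Sph J) : S.set = range S.u ∪ range S.v := Subset.antisymm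
  (by rintro _ (rfl | h); exacts [Or.inr ⟨0, rfl⟩, Or.inl h])
  (by rintro _ (h | ⟨z, rfl⟩); exacts [Or.inr h, v_mem S z])

/-- the curve of a sphere -/
def sphIrr (S : Sph J) : Irr J where
  K := S.set
  cpt := by
    have e : S.set = S.u '' closedBall 0 1 ∪ S.v '' closedBall 0 1⁻¹ := by
      refine Subset.antisymm ?_ ?_
      · rintro _ (rfl | ⟨z, rfl⟩)
        · exact Or.inr ⟨0, mem_closedBall_self (by norm_num), rfl⟩
        · rcases le_or_gt ‖z‖ 1 with h | h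
          exacts [Or.inl ⟨z, mem_closedBall_zero_iff.2 h, rfl⟩, Or.inr (sph_far S one_pos h)]
      · rintro _ (⟨z, -, rfl⟩ | ⟨z, -, rfl⟩)
        exacts [Or.inr ⟨z, rfl⟩, v_mem S z]
    rw [e]
    exact ((isCompact_closedBall _ _).image S.u_smooth.continuous).union
      ((isCompact_closedBall _ _).image S.v_smooth.continuous)
  ne := ⟨_, Or.inl rfl⟩
  T := S.int
  lin := lin_int fun _ => sph_integrable S
  off φ _ hs := integral_eq_zero_of_ae (Eventually.of_forall fun z =>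
    pull2_zero (SuppIn_zero hs fun e => e (Or.inr ⟨z, rfl⟩)))
  loc x hx := by
    obtain ⟨u, U, h1, -, h2⟩ := sph_loc' S hx
    exact ⟨1, u, U, h1, h2⟩
  irr := by
    have e : {x | x ∈ S.set ∧ RegPt J S.set x} = S.set := Subset.antisymm (fun x hx => hx.1)
      fun x hx => ⟨hx, by obtain ⟨u, U, h1, h2, -⟩ := sph_loc' S hx; exact ⟨u, U, h1, h2⟩⟩
    rw [e, sph_eq]
    exact (isPreconnected_range S.u_smooth.continuous).union (S.u 1) ⟨1, rfl⟩
      ⟨1, by rw [S.glue 1 one_ne_zero, inv_one]⟩ (isPreconnected_range S.v_smooth.continuous)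

/-! ## Tori -/

/-- the basis `1, τ` -/
def tb {τ : ℂ} (hτ : 0 < τ.im) : Module.Basis (Fin 2) ℝ ℂ :=
  basisOfLinearIndependentOfCardEqFinrank (b := ![1, τ]) (LinearIndependent.pair_iff.2
    fun s t h => by
      have h1 := congrArg Complex.im h
      have h2 := congrArg Complex.re h
      simp [hτ.ne'] at h1
      simp [h1] at h2
      exact ⟨h2, h1⟩) (by simp)

theorem tb_coe {τ : ℂ} (hτ : 0 < τ.im) : ⇑(tb hτ) = ![1, τ] :=
  coe_basisOfLinearIndependentOfCardEqFinrank _ _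

theorem tb_repr {τ : ℂ} (hτ : 0 < τ.im) (s t : ℝ) : ⇑((tb hτ).repr (s + t * τ)) = ![s, t] := by
  have h := (tb hτ).repr_sum_self ![s, t]
  rw [Fin.sum_univ_two, tb_coe] at h
  simpa using h

theorem para_eq {τ : ℂ} (hτ : 0 < τ.im) : para τ = ZSpan.fundamentalDomain (tb hτ) := by
  ext z
  constructor
  · rintro ⟨s, hs, t, ht, rfl⟩ i
    rw [tb_repr]
    fin_cases i
    exacts [hs, ht]
  · intro h
    refine ⟨_, h 0, _, h 1, ?_⟩
    have h1 := (tb hτ).sum_repr z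
    rw [Fin.sum_univ_two, tb_coe] at h1
    simpa using h1.symm

theorem mem_lat {τ : ℂ} (hτ : 0 < τ.im) {g : ℂ} :
    g ∈ Submodule.span ℤ (range (tb hτ)) ↔ ∃ m n : ℤ, g = m + n * τ := by
  rw [Submodule.mem_span_range_iff_exists_fun, tb_coe]
  simp only [Fin.sum_univ_two]
  exact ⟨by rintro ⟨c, rfl⟩; exact ⟨c 0, c 1, by simp⟩,
    by rintro ⟨m, n, rfl⟩; exact ⟨![m, n], by simp⟩⟩

theorem para_int {τ : ℂ} (hτ : 0 < τ.im) : ∃ q, para τ ∈ 𝓝 q := by
  refine ⟨((1 / 2 : ℝ) : ℂ) + (1 / 2 : ℝ) * τ, ?_⟩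
  rw [para_eq hτ]
  refine eventually_all.2 fun i => ((tb hτ).coord i).continuous_of_finiteDimensional.continuousAt.eventually
    (mem_of_superset (isOpen_Ioo.mem_nhds ?_) Ioo_subset_Ico_self)
  rw [Module.Basis.coord_apply, tb_repr]
  fin_cases i <;> norm_num

theorem tor_per (S : Tor J) (g : Submodule.span ℤ (range (tb S.τ_pos))) (z : ℂ) :
    S.u (g +ᵥ z) = S.u z := by
  obtain ⟨m, n, e⟩ := (mem_lat S.τ_pos).1 g.2
  rw [← S.per m n z]
  congr 1
  show (g : ℂ) + z = _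
  rw [e]; ring

theorem tor_inj (S : Tor J) {z z' : ℂ} (e : S.u z = S.u z') :
    ∃ g : Submodule.span ℤ (range (tb S.τ_pos)), g +ᵥ z = z' := by
  obtain ⟨m, n, e⟩ := S.inj z z' e
  exact ⟨⟨m + n * S.τ, (mem_lat S.τ_pos).2 ⟨m, n, rfl⟩⟩, by
    show (m + n * S.τ : ℂ) + z = z'
    rw [e]; ring⟩

theorem tor_pull (S : Tor J) (φ : Form X 2) (g : Submodule.span ℤ (range (tb S.τ_pos))) (z : ℂ) :
    pull2 φ S.u (g +ᵥ z) = pull2 φ S.u z := by
  have h := pull2_comp φ (hasF_mulC ((hasDerivAt_id z).const_add (g : ℂ)))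
    ((S.smooth _).mdifferentiableAt (by simp))
  rw [det_mulC, map_one, one_mul] at h
  exact h.symm.trans (pull2_congr (Eventually.of_forall fun w => tor_per S g w))

theorem tor_loc (S : Tor J) (z₀ : ℂ) : ∃ (u : Fin 1 → ℂ → X) (U : Set X),
    BrsX J S.set (S.u z₀) 1 u U ∧ dm (u 0) 0 1 ≠ 0 ∧ Comp S.int u U := by
  obtain ⟨q, hq⟩ := para_int S.τ_pos
  obtain ⟨δ, hδ, hq⟩ := Metric.mem_nhds_iff.1 hq
  rw [para_eq S.τ_pos] at hq
  set D := ZSpan.fundamentalDomain (tb S.τ_pos) with hD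
  set P : Set ℂ := (z₀ - q) +ᵥ D with hP
  have hmem : ∀ z, z ∈ P ↔ -(z₀ - q) + z ∈ D := fun z => mem_vadd_set_iff_neg_vadd_mem
  have hcom : ∀ (g : Submodule.span ℤ (range (tb S.τ_pos))) (z : ℂ),
      -(z₀ - q) + (g +ᵥ z) = g +ᵥ (-(z₀ - q) + z) := fun g z => add_left_comm _ (g : ℂ) z
  have hex : ∀ z, ∃! g : Submodule.span ℤ (range (tb S.τ_pos)), g +ᵥ z ∈ P := fun z => by
    simp only [hmem, hcom]
    exact ZSpan.exist_unique_vadd_mem_fundamentalDomain _ _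
  have hun : ∀ z ∈ P, ∀ g : Submodule.span ℤ (range (tb S.τ_pos)), g +ᵥ z ∈ P → g +ᵥ z = z :=
    fun z hz g hg => by rw [(hex z).unique (y₂ := 0) hg (by rwa [zero_vadd]), zero_vadd]
  have hb : ball z₀ (2 * (δ / 2)) ⊆ P := fun z hz => (hmem z).2 (hq (by
    rw [mem_ball, dist_eq_norm] at hz ⊢
    rw [show -(z₀ - q) + z - q = z - z₀ by ring]
    linarith))
  have hs := half_pos hδ
  have hb' : ball z₀ (δ / 2) ⊆ P := (ball_subset_ball (by linarith)).trans hb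
  obtain ⟨R, hR⟩ := ((ZSpan.fundamentalDomain_isBounded (tb S.τ_pos)).vadd
    (z₀ - q)).subset_closedBall 0
  set E : Set ℂ := ⋂ g : Submodule.span ℤ (range (tb S.τ_pos)), (g +ᵥ ·) ⁻¹' (ball z₀ (δ / 2))ᶜ
  have hE : IsClosed E := isClosed_iInter fun g =>
    isOpen_ball.isClosed_compl.preimage (continuous_const.add continuous_id)
  have h1 : ∀ z ∈ P, z ∉ ball z₀ (δ / 2) → S.u z ∈ S.u '' (closedBall 0 R ∩ E) := fun z hz hz' =>
    ⟨z, ⟨hR hz, mem_iInter.2 fun g hg => hz' (hun z hz g (hb' hg) ▸ hg)⟩, rfl⟩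
  obtain ⟨h2, h3⟩ := brs_of_imm S.smooth S.hol S.imm (z₀ := z₀) hs (fun z hz w hw e => by
      obtain ⟨g, rfl⟩ := tor_inj S e
      exact (hun z (hb hz) g (hb hw)).symm) (K := S.set) (fun z => ⟨z, rfl⟩)
    (((isCompact_closedBall 0 R).inter_right hE).image S.smooth.continuous).isClosed (by
      rintro ⟨z, hz, e⟩
      obtain ⟨g, e⟩ := tor_inj S e
      exact mem_iInter.1 hz.2 g (by beta_reduce; rw [e]; exact mem_ball_self hs))
    (fun z hz hz' => h1 z (hb hz) hz') (by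
      rintro _ ⟨z, rfl⟩ hy
      obtain ⟨g, hg, -⟩ := hex z
      exact ⟨g +ᵥ z, by_contra fun h => hy (tor_per S g z ▸ h1 _ hg h), tor_per S g z⟩)
  refine ⟨_, _, h2, h3, fun φ _ hφ => ?_⟩
  have h4 := ZSpan.isAddFundamentalDomain' (tb S.τ_pos) volume
  have : Countable (Submodule.span ℤ (range (tb S.τ_pos))).toAddSubgroup :=
    inferInstanceAs (Countable (Submodule.span ℤ (range (tb S.τ_pos))))
  rw [Fin.sum_univ_one, ← int_aff φ hs fun z _ => (S.smooth z).mdifferentiableAt (by simp),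
    Tor.int, para_eq S.τ_pos, h4.setIntegral_eq (h4.vadd_of_comm (z₀ - q)) (tor_pull S φ)]
  exact setIntegral_eq_of_subset_of_forall_diff_eq_zero
    ((ZSpan.fundamentalDomain_measurableSet _).const_vadd _) hb' fun z hz =>
      pull2_zero (SuppIn_zero hφ fun e => e (h1 z hz.1 hz.2))

/-- the curve of a torus -/
def torIrr (S : Tor J) : Irr J where
  K := S.set
  cpt := by
    obtain ⟨R, hR⟩ := (ZSpan.fundamentalDomain_isBounded (tb S.τ_pos)).subset_closedBall 0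
    have e : S.set = S.u '' closedBall 0 R := by
      refine Subset.antisymm ?_ (image_subset_range _ _)
      rintro _ ⟨z, rfl⟩
      obtain ⟨g, hg, -⟩ := ZSpan.exist_unique_vadd_mem_fundamentalDomain (tb S.τ_pos) z
      exact ⟨_, hR hg, tor_per S g z⟩
    rw [e]
    exact (isCompact_closedBall _ _).image S.smooth.continuous
  ne := range_nonempty _
  T := S.int
  lin := lin_int fun φ hφ => by
    obtain ⟨R, hR⟩ := (ZSpan.fundamentalDomain_isBounded (tb S.τ_pos)).subset_closedBall 0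
    rw [para_eq S.τ_pos]
    exact (int_bdd S.smooth hφ R).mono_set hR
  off φ _ hs := integral_eq_zero_of_ae (Eventually.of_forall fun z =>
    pull2_zero (SuppIn_zero hs fun e => e ⟨z, rfl⟩))
  loc x hx := by
    obtain ⟨z, rfl⟩ := hx
    obtain ⟨u, U, h1, -, h2⟩ := tor_loc S z
    exact ⟨1, u, U, h1, h2⟩
  irr := by
    have e : {x | x ∈ S.set ∧ RegPt J S.set x} = S.set := Subset.antisymm (fun x hx => hx.1)
      fun x hx => ⟨hx, by
        obtain ⟨z, rfl⟩ := hx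
        obtain ⟨u, U, h1, h2, -⟩ := tor_loc S z
        exact ⟨u, U, h1, h2⟩⟩
    rw [e]
    exact isPreconnected_range S.smooth.continuous

theorem emb : EMB_statement := fun X _ μ _ w _ =>
  ⟨fun S => ⟨sphIrr S, rfl, fun x hx => by
      obtain ⟨u, U, h1, h2, -⟩ := sph_loc' S hx
      exact ⟨u, U, h1, h2⟩, fun _ _ => rfl⟩,
    fun S => ⟨torIrr S, rfl, fun x hx => by
      obtain ⟨z, rfl⟩ := hx
      obtain ⟨u, U, h1, h2, -⟩ := tor_loc S z
      exact ⟨u, U, h1, h2⟩, fun _ _ => rfl⟩⟩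

end Vale.Agent.P247C
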