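import Vale.Agent.P247C.Deg

/-!
# P247, block C, row IRR: basic properties of irreducible curves
-/

set_option linter.all false

open scoped Manifold ContDiff Topology
open Set MeasureTheory Filter Metric

noncomputable section

namespace Vale.Agent.P247C

open Vale.Agent.P247.SCY Vale.Agent.P247.SCY.HS Vale.Agent.P247X
open Vale.Agent.P247.H74 (HasWinding)

/-- almost every member of a linear system without base points has isolated zeros -/
theorem sard0 {n : ℕ} (i : Fin n) {Ω : Set ℂ} (hΩ : IsOpen Ω) {f : Fin n → ℂ → ℂ}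
    (hf : ∀ b, ∀ z ∈ Ω, DifferentiableAt ℝ (f b) z) (h0 : ∀ z ∈ Ω, f i z ≠ 0) :
    ∀ᵐ d : Fin n → ℂ, ∀ z ∈ Ω, ∀ᶠ w in 𝓝[≠] z, ∑ b, d b * f b w ≠ 0 := by
  classical
  set G : (Fin n → ℂ) → ℂ := fun c => -(∑ b ∈ Finset.univ.erase i, c b * f b (c i)) * (f i (c i))⁻¹
  set Ψ : (Fin n → ℂ) → Fin n → ℂ := fun c => Function.update c i (G c)
  have hp : ∀ b c, DifferentiableAt ℝ (fun c : Fin n → ℂ => c b) c := fun b c =>
    differentiableAt_apply b c
  have hΨ : ∀ c : Fin n → ℂ, c i ∈ Ω → DifferentiableAt ℝ Ψ c := fun c hc => by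
    have h1 : ∀ b, DifferentiableAt ℝ (fun c : Fin n → ℂ => f b (c i)) c := fun b =>
      DifferentiableAt.comp c (hf b _ hc) (hp i c)
    have h2 : DifferentiableAt ℝ G c :=
      (DifferentiableAt.fun_sum fun b _ => (hp b c).mul (h1 b)).neg.mul ((h1 i).inv (h0 _ hc))
    refine differentiableAt_pi.2 fun b => ?_
    by_cases hb : b = i
    · subst hb
      simpa only [Ψ, Function.update_self] using h2
    · simpa only [Ψ, Function.update_of_ne hb] using hp b c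
  have key : ∀ d : Fin n → ℂ, ∀ w ∈ Ω, ∑ b, d b * f b w = 0 → Ψ (Function.update d i w) = d := by
    intro d w hw e
    have h1 : G (Function.update d i w) = d i := by
      simp only [G, Function.update_self]
      rw [Finset.sum_congr rfl fun b hb => by rw [Function.update_of_ne (Finset.ne_of_mem_erase hb)]]
      rw [← Finset.add_sum_erase _ _ (Finset.mem_univ i)] at e
      rw [← eq_neg_of_add_eq_zero_left e, mul_inv_cancel_right₀ (h0 w hw)]
    simp only [Ψ, h1, Function.update_idem, Function.update_eq_self]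
  have h1 := addHaar_image_eq_zero_of_det_fderivWithin_eq_zero (volume : Measure (Fin n → ℂ))
    (s := {c | c i ∈ Ω ∧ (fderiv ℝ Ψ c).det = 0}) (f := Ψ) (f' := fderiv ℝ Ψ)
    (fun c hc => (hΨ c hc.1).hasFDerivAt.hasFDerivWithinAt) fun c hc => hc.2
  filter_upwards [measure_eq_zero_iff_ae_notMem.1 h1] with d hd z hz
  by_cases e : ∑ b, d b * f b z = 0
  swap
  · exact nhdsWithin_le_nhds ((DifferentiableAt.fun_sum fun b _ =>
      (hf b z hz).const_mul (d b)).continuousAt.eventually_ne e)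
  have hc : Function.update d i z i ∈ Ω := by rwa [Function.update_self]
  have h2 : (fderiv ℝ Ψ (Function.update d i z)).det ≠ 0 := fun h => hd ⟨_, ⟨hc, h⟩, key d z hz e⟩
  have h3 := (hΨ _ hc).hasFDerivAt.eventually_ne (c := d)
    ⟨_, (ContinuousLinearMap.toContinuousLinearEquivOfDetNeZero _ h2).antilipschitz⟩
  have h4 : Tendsto (fun w => Function.update d i w) (𝓝[≠] z) (𝓝[≠] (Function.update d i z)) :=
    tendsto_nhdsWithin_of_tendsto_nhds_of_eventually_within _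
      ((continuous_const.update i continuous_id).continuousAt.mono_left nhdsWithin_le_nhds)
      (eventually_mem_nhdsWithin.mono fun w hw e => hw (Function.update_injective d i e))
  filter_upwards [h4.eventually h3, nhdsWithin_le_nhds (hΩ.mem_nhds hz)] with w h5 h6 e
  exact h5 (key d w h6 e)

variable {X : Type} [Cl4 X] {J : EndF X} {K : Set X}

theorem lb_ne (L : LB X) {i j : Fin L.n} {x : X} (hx : x ∈ L.U i ∩ L.U j) : L.g i j x ≠ 0 :=
  fun e => by simpa [e] using L.g_norm i j x hx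

/-- a line bundle has a section with finitely many zeros on a compact curve -/
theorem exists_sec (hK : IsCompact K)
    (hl : ∀ x ∈ K, ∃ (N : ℕ) (u : Fin N → ℂ → X) (U : Set X), BrsX J K x N u U) (L : LB X) :
    ∃ (W : Set X) (σ : Fin L.n → X → ℂ), SecOn L W σ ∧ (K \ W).Finite := by
  classical
  obtain ⟨χ, hχ⟩ := SmoothPartitionOfUnity.exists_isSubordinate (𝓡 4) (isClosed_univ (X := X))
    L.U L.opn fun x _ => mem_iUnion.2 (L.cov x)
  set s : Fin L.n → Fin L.n → X → ℂ := fun j b y => (χ b y : ℂ) * L.g j b y with hs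
  have hχ0 : ∀ b y, y ∉ L.U b → ∀ᶠ y' in 𝓝 y, χ b y' = 0 := fun b y hy =>
    notMem_tsupport_iff_eventuallyEq.1 fun h => hy (hχ b h)
  have hsm : ∀ j b, ∀ y ∈ L.U j, ContMDiffAt (𝓡 4) 𝓘(ℝ, ℂ) ∞ (s j b) y := fun j b y hy => by
    by_cases hb : y ∈ L.U b
    · have h1 : ContMDiffAt (𝓡 4) 𝓘(ℝ, ℝ × ℂ) ∞ (fun y => (χ b y, L.g j b y)) y :=
        ((χ b).contMDiff y).prodMk_space ((L.g_smooth j b).contMDiffAt
          (((L.opn j).inter (L.opn b)).mem_nhds ⟨hy, hb⟩))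
      have h2 : ContDiff ℝ ∞ fun q : ℝ × ℂ => (q.1 : ℂ) * q.2 :=
        (Complex.ofRealCLM.contDiff.comp contDiff_fst).mul contDiff_snd
      exact h2.contMDiff.contMDiffAt.comp y h1
    · exact (contMDiffAt_const (c := 0)).congr_of_eventuallyEq
        ((hχ0 b y hb).mono fun y' h => by simp [hs, h])
  have htr : ∀ i j b, ∀ y ∈ L.U i ∩ L.U j, s i b y = L.g i j y * s j b y := fun i j b y hy => by
    by_cases hb : y ∈ L.U b
    · simp only [hs]
      rw [← L.g_co i j b y ⟨hy, hb⟩]; ring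
    · simp [hs, (hχ0 b y hb).self_of_nhds]
  choose! N u U hb using hl
  obtain ⟨t, ht, hc⟩ := hK.elim_nhds_subcover U fun x hx => (hb x hx).opn.mem_nhds (hb x hx).memU
  have hU : ∀ i y, χ i y ≠ 0 → y ∈ L.U i := fun i y h => hχ i (subset_tsupport _ h)
  have h1 : ∀ᵐ d : Fin L.n → ℂ, ∀ (x : t) (l : Fin (N x)) (i : Fin L.n),
      ∀ z ∈ ball (0 : ℂ) 2 ∩ u x l ⁻¹' {y | χ i y ≠ 0},
        ∀ᶠ w in 𝓝[≠] z, ∑ b, d b * s i b (u x l w) ≠ 0 := by
    refine ae_all_iff.2 fun x => ae_all_iff.2 fun l => ae_all_iff.2 fun i => ?_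
    have h2 := hb x (ht x x.2)
    refine sard0 i ((h2.smooth l).continuousOn.isOpen_inter_preimage isOpen_ball
      (isOpen_ne_fun (χ i).contMDiff.continuous continuous_const)) (fun b z hz =>
        ((hsm i b _ (hU i _ hz.2)).comp z (h2.cmd l hz.1)).contDiffAt.differentiableAt (by simp))
      fun z hz => mul_ne_zero (Complex.ofReal_ne_zero.2 hz.2) (lb_ne L ⟨hU i _ hz.2, hU i _ hz.2⟩)
  obtain ⟨d, hd⟩ := h1.exists
  set σ : Fin L.n → X → ℂ := fun j y => ∑ b, d b * s j b y with hσ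
  have hσs : ∀ j, ∀ y ∈ L.U j, ContMDiffAt (𝓡 4) 𝓘(ℝ, ℂ) ∞ (σ j) y := fun j y hy => by
    have h2 : ContDiff ℝ ∞ fun q : Fin L.n → ℂ => ∑ b, d b * q b :=
      ContDiff.sum fun b _ => contDiff_const.mul (contDiff_apply ℝ ℂ b)
    exact h2.contMDiff.contMDiffAt.comp y (contMDiffAt_pi_space.2 fun b => hsm j b y hy)
  have hσt : ∀ i j, ∀ y ∈ L.U i ∩ L.U j, σ i y = L.g i j y * σ j y := fun i j y hy => by
    simp only [hσ, Finset.mul_sum]
    exact Finset.sum_congr rfl fun b _ => by rw [htr i j b y hy]; ring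
  set W : Set X := ⋃ j, L.U j ∩ σ j ⁻¹' {0}ᶜ with hW
  have hWo : IsOpen W := isOpen_iUnion fun j => ContinuousOn.isOpen_inter_preimage
    (fun y hy => (hσs j y hy).continuousAt.continuousWithinAt) (L.opn j) isOpen_compl_singleton
  refine ⟨W, σ, ⟨hWo, fun i y hy => (hσs i y hy.2).contMDiffWithinAt, fun i y hy => ?_,
    fun i j y hy => hσt i j y ⟨hy.1.2, hy.2⟩⟩, ?_⟩
  · obtain ⟨j, h2, h3⟩ := mem_iUnion.1 hy.1
    rw [hσt i j y ⟨hy.2, h2⟩]
    exact mul_ne_zero (lb_ne L ⟨hy.2, h2⟩) h3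
  have h2 : ∀ (x : t) (l : Fin (N x)), (closedBall (0 : ℂ) 1 ∩ u x l ⁻¹' Wᶜ).Finite := fun x l => by
    have h3 := hb x (ht x x.2)
    refine ((isCompact_closedBall 0 1).of_isClosed_subset
      (((h3.smooth l).continuousOn.mono cb12).preimage_isClosed_of_isClosed isClosed_closedBall
        hWo.isClosed_compl) inter_subset_left).finite ⟨discreteTopology_subtype_iff.2 fun z hz => ?_⟩
    obtain ⟨i, hi⟩ := χ.exists_pos_of_mem (mem_univ (u x l z))
    rw [inf_principal_eq_bot]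
    filter_upwards [hd x l i z ⟨cb12 hz.1, hi.ne'⟩, nhdsWithin_le_nhds
      ((h3.cmd l (cb12 hz.1)).continuousAt.eventually ((L.opn i).mem_nhds (hU i _ hi.ne')))]
      with w h4 h5 h6
    exact h6.2 (mem_iUnion.2 ⟨i, h5, h4⟩)
  refine (finite_iUnion fun x : t => finite_iUnion fun l => (h2 x l).image (u x l)).subset
    fun y hy => ?_
  obtain ⟨x, hx, hyx⟩ := mem_iUnion₂.1 (hc hy.1)
  obtain ⟨l, z, hz, rfl⟩ := (hb x (ht x hx)).cov y hyx hy.1
  exact mem_iUnion₂.2 ⟨⟨x, hx⟩, l, z, ⟨ball_subset_closedBall hz, hy.2⟩, rfl⟩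

/-- the degree of a line bundle on a compact curve is an integer -/
theorem Cyc.int_deg {T : Form X 2 → ℝ} (hK : Cyc J K T) (L : LB X) : ∃ n : ℤ, T L.F = n := by
  classical
  obtain ⟨W, σ, h, hfin⟩ := exists_sec hK.cpt (fun x hx => by
    obtain ⟨N, u, U, h, -⟩ := hK.loc x hx
    exact ⟨N, u, U, h⟩) L
  obtain ⟨V, hV, hVd⟩ := hfin.t2_separation
  choose c hc using L.cov
  have hl := hK.loc
  choose! N u U hb hC using hl
  have h1 : ∀ p ∈ K \ W, ∃ ρ : ℝ, 0 < ρ ∧ ρ < 1 ∧ ∀ l, (∀ z ∈ closedBall (0 : ℂ) ρ,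
      u p l z ∈ U p ∩ L.U (c p) ∩ V p) ∧ ∃ m, HasWinding (fun z => σ (c p) (u p l z)) 0 ρ m := by
    intro p hp
    have h2 := hb p hp.1
    obtain ⟨r, hr, hr1, h3⟩ := h2.in_nhds (inter_mem (inter_mem (h2.opn.mem_nhds h2.memU)
      ((L.opn _).mem_nhds (hc p))) ((hV p).2.mem_nhds (hV p).1))
    have h4 : closedBall (0 : ℂ) (r / 2) ⊆ ball 0 r := closedBall_subset_ball (half_lt_self hr)
    have h5 : ∀ l, ∀ z ∈ sphere (0 : ℂ) (r / 2), z ∈ ball (0 : ℂ) 2 ∧ u p l z ∈ W ∩ L.U (c p) := by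
      intro l z hz
      have h6 := h4 (sphere_subset_closedBall hz)
      have h7 := b12 (ball_subset_ball hr1 h6)
      refine ⟨h7, by_contra fun hn => ?_, (h3 l z h6).1.2⟩
      by_cases e : u p l z = p
      · rw [h2.eq_zero h7 e, mem_sphere, dist_self] at hz
        exact (half_pos hr).ne hz
      · exact disjoint_left.1 (hVd ⟨h2.mem l z h7, hn⟩ hp e) (hV _).1 (h3 l z h6).2
    refine ⟨r / 2, half_pos hr, by linarith, fun l => ⟨fun z hz => h3 l z (h4 hz),
      P247.H74.WWIND.W4 _ _ _ (half_pos hr) (fun z hz => ?_) fun z hz => h.ne _ _ (h5 l z hz).2⟩⟩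
    exact (((h.smooth _).contMDiffAt ((h.opn.inter (L.opn _)).mem_nhds (h5 l z hz).2)).comp z
      (h2.cmd l (h5 l z hz).1)).continuousAt.continuousWithinAt
  choose! ρ hρ hρ1 h1 using h1
  have h2 : ∀ p, ∀ l : Fin (N p), ∃ m, p ∈ K \ W →
      HasWinding (fun z => σ (c p) (u p l z)) 0 (ρ p) m := fun p l => by
    by_cases hp : p ∈ K \ W
    · obtain ⟨m, hm⟩ := (h1 p hp l).2
      exact ⟨m, fun _ => hm⟩
    · exact ⟨0, fun h => absurd h hp⟩
  choose m hm using h2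
  refine ⟨∑ p ∈ hfin.toFinset, ∑ l, m p l, ?_⟩
  push_cast
  refine deg_cyc hK h hfin.toFinset N u U ρ c m (fun p hp => ?_) (fun p hp q hq hne l l' z hz z' hz' e
    => ?_) fun x hx h3 => by_contra fun hn => ?_
  · rw [hfin.mem_toFinset] at hp
    exact ⟨hb p hp.1, hC p hp.1, hρ p hp, hρ1 p hp, fun l =>
      ⟨fun z hz => ((h1 p hp l).1 z hz).1, hm p l hp⟩⟩
  · rw [hfin.mem_toFinset] at hp hq
    exact disjoint_left.1 (hVd hp hq hne) ((h1 p hp l).1 z hz).2 (e ▸ ((h1 q hq l').1 z' hz').2)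
  · exact h3 x (hfin.mem_toFinset.2 ⟨hx, hn⟩) ⟨0, (hb x hx).posN⟩ 0 (mem_ball_self (hρ x ⟨hx, hn⟩))
      ((hb x hx).zero _).symm

theorem irr : IRR_statement := fun X _ μ _ w hw K =>
  ⟨(irr_cyc K).pcur, (irr_cyc K).strict K.ne (hyp_sc hw 2).cont fun x _ hv => jw_pos hw x hv,
    preconn_cyc (fun x hx => by
      obtain ⟨N, u, U, h, -⟩ := K.loc x hx
      exact ⟨N, u, U, h⟩) K.irr, (irr_cyc K).int_deg,
    fun K' e φ hφ => (irr_cyc K').uniq (jw_sq hw) (e ▸ irr_cyc K) hφ⟩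

end Vale.Agent.P247C
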