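import Mathlib

/-!
# P247, block C, row PLX: the approximate identity on the plane
-/

set_option linter.all false

open scoped ContDiff Topology
open Set MeasureTheory Filter Metric

noncomputable section

namespace Vale.Agent.P247C.Pl

/-- a smooth step -/
def hh (t : ℝ) : ℝ := Real.smoothTransition (2 * t - 1)

theorem hh_cd : ContDiff ℝ ∞ hh :=
  Real.smoothTransition.contDiff.comp ((contDiff_const.mul contDiff_id).sub contDiff_const)

theorem hh_zero {t : ℝ} (h : t ≤ 1 / 2) : hh t = 0 :=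
  Real.smoothTransition.zero_of_nonpos (by linarith)

theorem hh_one {t : ℝ} (h : 1 ≤ t) : hh t = 1 :=
  Real.smoothTransition.one_of_one_le (by linarith)

/-- the regularised inverse -/
def mm (t : ℝ) : ℝ := hh t / t

theorem mm_cd : ContDiff ℝ ∞ mm := contDiff_iff_contDiffAt.2 fun t => by
  by_cases h : t = 0
  · refine (contDiffAt_const (c := (0 : ℝ))).congr_of_eventuallyEq ?_
    filter_upwards [Iio_mem_nhds (show t < 1 / 2 by rw [h]; norm_num)] with y hy
    rw [mm, hh_zero (le_of_lt hy), zero_div]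
  · exact hh_cd.contDiffAt.div contDiffAt_id h

theorem mul_mm (t : ℝ) : t * mm t = hh t := by
  by_cases h : t = 0
  · rw [h, zero_mul, hh_zero (by norm_num)]
  · rw [mm, mul_div_cancel₀ _ h]

theorem mm_one {t : ℝ} (h : 1 ≤ t) : mm t = t⁻¹ := by rw [mm, hh_one h, one_div]

/-- the density -/
def ff (t : ℝ) : ℝ := 2 * deriv hh t

theorem hh_der (t : ℝ) : HasDerivAt hh (deriv hh t) t :=
  (hh_cd.differentiable (by simp) t).hasDerivAt

theorem mm_der (t : ℝ) : HasDerivAt mm (deriv mm t) t :=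
  (mm_cd.differentiable (by simp) t).hasDerivAt

theorem ff_eq (t : ℝ) : 2 * mm t + 2 * t * deriv mm t = ff t := by
  have h1 : HasDerivAt (fun t => t * mm t) (1 * mm t + t * deriv mm t) t :=
    (hasDerivAt_id' t).mul (mm_der t)
  rw [funext mul_mm] at h1
  rw [ff, h1.deriv]
  ring

theorem ff_cont : Continuous ff := continuous_const.mul (hh_cd.continuous_deriv (by simp))

theorem ff_zero {t : ℝ} (h : 1 < t) : ff t = 0 := by
  have h1 : hh =ᶠ[𝓝 t] fun _ => 1 := by
    filter_upwards [Ioi_mem_nhds h] with y hy using hh_one (le_of_lt hy)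
  rw [ff, h1.deriv_eq, deriv_const, mul_zero]

theorem ff_zero' {z : ℂ} (h : z ∉ closedBall (0 : ℂ) 1) : ff (‖z‖ ^ 2) = 0 := by
  rw [mem_closedBall_zero_iff, not_le] at h
  exact ff_zero (by nlinarith)

theorem int_ff : ∫ z : ℂ, ff (‖z‖ ^ 2) = 2 * Real.pi := by
  rw [integral_fun_norm_addHaar volume fun r => ff (r ^ 2)]
  have h1 : ∫ y in Ioi (0 : ℝ), y * ff (y ^ 2) = 1 := by
    have h2 : ∀ y ∈ Ici (0 : ℝ), HasDerivAt (fun y => hh (y ^ 2)) (y * ff (y ^ 2)) y := fun y _ => by
      have h := (hh_der (y ^ 2)).comp y (hasDerivAt_pow 2 y)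
      refine h.congr_deriv ?_
      rw [ff]
      simp
      ring
    have h3 : Integrable fun y : ℝ => y * ff (y ^ 2) := by
      refine (continuous_id.mul (ff_cont.comp (continuous_pow 2))).integrable_of_hasCompactSupport
        (HasCompactSupport.intro (isCompact_Icc (a := -1) (b := 1)) fun y hy => ?_)
      have h4 : 1 < y ^ 2 := by
        by_contra hn
        exact hy (abs_le.1 ((sq_le_one_iff_abs_le_one y).1 (not_lt.1 hn)))
      show y * ff (y ^ 2) = 0
      rw [ff_zero h4, mul_zero]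
    have h4 : Tendsto (fun y : ℝ => hh (y ^ 2)) atTop (𝓝 1) := by
      refine tendsto_const_nhds.congr' ?_
      filter_upwards [eventually_ge_atTop 1] with y hy
      exact (hh_one (by nlinarith)).symm
    rw [integral_Ioi_of_hasDerivAt_of_tendsto' h2 h3.integrableOn h4, hh_zero (by norm_num),
      sub_zero]
  simp only [Complex.finrank_real_complex, Nat.add_one_sub_one, pow_one, smul_eq_mul, h1]
  simp [Measure.real, Complex.volume_ball]

/-- the approximate identity concentrates on the first axis -/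
theorem tendsto_int {G : ℂ × ℂ → ℝ} (hG : Continuous G) (hc : HasCompactSupport G) :
    Tendsto (fun ε : ℝ => ∫ q : ℂ × ℂ, ε⁻¹ ^ 2 * ff (‖ε⁻¹ • q.2‖ ^ 2) * G q) (𝓝[>] 0)
      (𝓝 (2 * Real.pi * ∫ t, G (t, 0))) := by
  obtain ⟨R, hR⟩ := hc.isCompact.isBounded.subset_closedBall 0
  have hS : IsCompact (closedBall (0 : ℂ) R ×ˢ closedBall (0 : ℂ) 1) :=
    (isCompact_closedBall _ _).prod (isCompact_closedBall _ _)
  set Φ : ℝ → ℂ × ℂ → ℝ := fun ε q => G (q.1, ε • q.2) * ff (‖q.2‖ ^ 2) with hΦ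
  have hΦc : Continuous Φ.uncurry := by
    refine (hG.comp ?_).mul (ff_cont.comp ?_)
    · exact continuous_snd.fst.prodMk (continuous_fst.smul continuous_snd.snd)
    · exact continuous_snd.snd.norm.pow 2
  have hΦ0 : ∀ ε q, q ∉ closedBall (0 : ℂ) R ×ˢ closedBall (0 : ℂ) 1 → Φ ε q = 0 := fun ε q hq => by
    by_cases h : q.2 ∈ closedBall (0 : ℂ) 1
    · have h1 : G (q.1, ε • q.2) = 0 := by
        refine image_eq_zero_of_notMem_tsupport fun h2 => hq ⟨?_, h⟩
        have h3 := hR h2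
        rw [mem_closedBall_zero_iff] at h3 ⊢
        exact (norm_fst_le (q.1, ε • q.2)).trans h3
      simp only [hΦ, h1, zero_mul]
    · simp only [hΦ, ff_zero' h, mul_zero]
  have hΦi : ∀ ε, Integrable (Φ ε) (volume.prod volume) := fun ε =>
    (hΦc.comp (Continuous.prodMk_right ε)).integrable_of_hasCompactSupport
      (HasCompactSupport.intro hS (hΦ0 ε))
  have h1 : Continuous fun ε => ∫ q, Φ ε q := by
    refine (continuous_parametric_integral_of_continuous (μ := volume) hΦc hS).congr fun ε => ?_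
    exact setIntegral_eq_integral_of_forall_compl_eq_zero (hΦ0 ε)
  have h2 : ∫ q, Φ 0 q = 2 * Real.pi * ∫ t, G (t, 0) := by
    simp only [hΦ, zero_smul]
    rw [Measure.volume_eq_prod, integral_prod_mul (fun t => G (t, 0)) fun z : ℂ => ff (‖z‖ ^ 2),
      int_ff, mul_comm]
  rw [← h2]
  refine ((h1.tendsto 0).mono_left nhdsWithin_le_nhds).congr' ?_
  filter_upwards [self_mem_nhdsWithin] with ε hε
  have hε' : (0 : ℝ) < ε := hε
  have h3 : Integrable (fun q : ℂ × ℂ => ε⁻¹ ^ 2 * ff (‖ε⁻¹ • q.2‖ ^ 2) * G q)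
      (volume.prod volume) := by
    refine Continuous.integrable_of_hasCompactSupport ?_ hc.mul_left
    have h0 : Continuous fun q : ℂ × ℂ => ‖ε⁻¹ • q.2‖ ^ 2 := by fun_prop
    exact (continuous_const.mul (ff_cont.comp h0)).mul hG
  rw [Measure.volume_eq_prod, integral_prod _ (hΦi ε), integral_prod _ h3]
  refine integral_congr_ae (Eventually.of_forall fun t => ?_)
  have h4 := Measure.integral_comp_smul volume
    (fun z : ℂ => G (t, ε • z) * ff (‖z‖ ^ 2)) ε⁻¹
  simp only [smul_inv_smul₀ hε'.ne', Complex.finrank_real_complex, smul_eq_mul] at h4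
  simp only [hΦ, mul_assoc]
  rw [integral_const_mul]
  simp only [mul_comm (ff _)]
  rw [h4, abs_of_pos (by positivity), ← mul_assoc, mul_inv_cancel₀ (by positivity), one_mul]

/-- two vectors in cones of half-angle `π / 6` -/
theorem cone {p q P Q : ℂ} (hp : ‖p - P‖ ≤ 1 / 2 * ‖P‖) (hq : ‖q - Q‖ ≤ 1 / 2 * ‖Q‖) (hP : P ≠ 0)
    (hQ : Q ≠ 0) : 0 < ((starRingEnd ℂ) p * q * (P * (starRingEnd ℂ) Q)).re := by
  have key : ∀ {p P : ℂ}, ‖p - P‖ ≤ 1 / 2 * ‖P‖ → P ≠ 0 → ∃ a : ℂ, p = a * P ∧ 0 < a.re ∧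
      3 * a.im ^ 2 ≤ a.re ^ 2 := by
    intro p P h hP
    have h1 : ‖p / P - 1‖ ≤ 1 / 2 := by
      rw [div_sub_one hP, norm_div, div_le_iff₀ (norm_pos_iff.2 hP)]
      exact h
    have h2 : ‖p / P - 1‖ ^ 2 ≤ (1 / 2) ^ 2 := by gcongr
    rw [Complex.sq_norm, Complex.normSq_apply] at h2
    simp only [Complex.sub_re, Complex.one_re, Complex.sub_im, Complex.one_im, sub_zero] at h2
    refine ⟨p / P, (div_mul_cancel₀ p hP).symm, ?_, ?_⟩
    · nlinarith [mul_self_nonneg (p / P).im]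
    · nlinarith [sq_nonneg (2 * (p / P).re - 3 / 2)]
  obtain ⟨a, rfl, a1, a2⟩ := key hp hP
  obtain ⟨b, rfl, b1, b2⟩ := key hq hQ
  have e : (starRingEnd ℂ) (a * P) * (b * Q) * (P * (starRingEnd ℂ) Q) =
      ((Complex.normSq P * Complex.normSq Q : ℝ) : ℂ) * ((starRingEnd ℂ) a * b) := by
    rw [Complex.ofReal_mul, ← Complex.mul_conj, ← Complex.mul_conj, map_mul]
    ring
  rw [e, Complex.re_ofReal_mul]
  refine mul_pos (mul_pos (Complex.normSq_pos.2 hP) (Complex.normSq_pos.2 hQ)) ?_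
  have h1 : |3 * (a.im * b.im)| ≤ a.re * b.re := by
    refine abs_le_of_sq_le_sq' ?_ (mul_pos a1 b1).le |> abs_le.2
    have := mul_le_mul a2 b2 (by positivity) (sq_nonneg _)
    nlinarith
  have h2 := (abs_le.1 h1).1
  have h3 := mul_pos a1 b1
  simp only [Complex.mul_re, Complex.conj_re, Complex.conj_im]
  linarith

end Vale.Agent.P247C.Pl
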