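import Vale.Agent.P247C.T2

/-!
# P247, block C toolkit: topology of the branches, shrinking and recentring
-/

set_option linter.all false

open scoped Manifold ContDiff Topology
open Set MeasureTheory Filter Metric

noncomputable section

namespace Vale.Agent.P247C

open Vale.Agent.P247.SCY Vale.Agent.P247.SCY.HS Vale.Agent.P247X

variable {X : Type} [TopologicalSpace X] [ChartedSpace HS.E4 X] {J : EndF X}

theorem hasDerivAt_aff (z₀ s w : ℂ) : HasDerivAt (fun w => z₀ + s * w) s w := by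
  simpa using ((hasDerivAt_id w).const_mul s).const_add z₀

theorem dm_aff {u : ℂ → X} {z₀ w : ℂ} {s : ℝ}
    (hu : MDifferentiableAt 𝓘(ℝ, ℂ) (𝓡 4) u (z₀ + s * w)) (a : ℂ) :
    dm (fun w => u (z₀ + s * w)) w a = s • dm u (z₀ + s * w) a := by
  rw [dm_comp (hasF_mulC (hasDerivAt_aff z₀ s w)) hu, mulC_apply, mul_comm a,
    ← Complex.real_smul]
  exact map_smul (mfderiv 𝓘(ℝ, ℂ) (𝓡 4) u (z₀ + s * w)) s a

theorem jat_aff {u : ℂ → X} {z₀ w : ℂ} {s : ℝ}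
    (hu : MDifferentiableAt 𝓘(ℝ, ℂ) (𝓡 4) u (z₀ + s * w)) (h : JAt J u (z₀ + s * w)) :
    JAt J (fun w => u (z₀ + s * w)) w := by
  unfold JAt at h ⊢
  rw [dm_aff hu, dm_aff hu, h]
  exact (map_smul (J _) s _).symm

theorem cmd_aff (z₀ s : ℂ) : ContMDiff 𝓘(ℝ, ℂ) 𝓘(ℝ, ℂ) ∞ fun w : ℂ => z₀ + s * w :=
  (contDiff_const.add (contDiff_const.mul contDiff_id)).contMDiff

theorem aff_mem {z₀ w : ℂ} {s r : ℝ} (hs : 0 < s) : z₀ + s * w ∈ ball z₀ (r * s) ↔ w ∈ ball 0 r := by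
  rw [mem_ball, dist_eq_norm, add_sub_cancel_left, norm_mul, Complex.norm_real,
    Real.norm_eq_abs, abs_of_pos hs, mem_ball_zero_iff, mul_comm, mul_lt_mul_iff_left₀ hs]

theorem aff_image (z₀ : ℂ) {s : ℝ} (hs : 0 < s) (r : ℝ) :
    (fun w : ℂ => z₀ + s * w) '' ball 0 r = ball z₀ (r * s) := by
  have hsne : (s : ℂ) ≠ 0 := by exact_mod_cast hs.ne'
  ext z
  refine ⟨by rintro ⟨w, hw, rfl⟩; exact (aff_mem hs).2 hw, fun hz => ⟨(z - z₀) / s, ?_, ?_⟩⟩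
  · rw [← aff_mem (z₀ := z₀) hs, mul_div_cancel₀ _ hsne, add_sub_cancel]; exact hz
  · show z₀ + s * ((z - z₀) / s) = z
    rw [mul_div_cancel₀ _ hsne, add_sub_cancel]

theorem aff_inj (z₀ : ℂ) {s : ℝ} (hs : 0 < s) : Function.Injective fun w : ℂ => z₀ + s * w :=
  fun a b h => mul_left_cancel₀ (by exact_mod_cast hs.ne' : (s : ℂ) ≠ 0) (add_left_cancel h)

theorem pull2_zero {φ : Form X 2} {u : ℂ → X} {z : ℂ} (h : φ (u z) = 0) : pull2 φ u z = 0 := by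
  unfold pull2; rw [h]; rfl

theorem int_aff (φ : Form X 2) {u : ℂ → X} {z₀ : ℂ} {s : ℝ} (hs : 0 < s)
    (hu : ∀ z ∈ ball z₀ s, MDifferentiableAt 𝓘(ℝ, ℂ) (𝓡 4) u z) :
    ∫ z in ball z₀ s, pull2 φ u z = brX (fun w => u (z₀ + s * w)) φ := by
  have h := aff_image z₀ hs 1
  rw [one_mul] at h
  rw [← h]
  exact int_comp φ measurableSet_ball (fun z _ => hasDerivAt_aff z₀ s z) (aff_inj z₀ hs).injOn
    fun z hz => hu _ (h ▸ mem_image_of_mem _ hz)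

theorem brX_aff {φ : Form X 2} {u : ℂ → X} {z₀ : ℂ} {s : ℝ} (hs : 0 < s)
    (hsub : ball z₀ s ⊆ ball 0 1) (hu : ∀ z ∈ ball z₀ s, MDifferentiableAt 𝓘(ℝ, ℂ) (𝓡 4) u z)
    (h0 : ∀ z ∈ ball (0 : ℂ) 1, z ∉ ball z₀ s → φ (u z) = 0) :
    brX u φ = brX (fun w => u (z₀ + s * w)) φ := by
  rw [← int_aff φ hs hu]
  exact setIntegral_eq_of_subset_of_forall_diff_eq_zero measurableSet_ball hsub
    fun z hz => pull2_zero (h0 z hz.1 hz.2)

theorem brX_zero {φ : Form X 2} {u : ℂ → X} (h0 : ∀ z ∈ ball (0 : ℂ) 1, φ (u z) = 0) :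
    brX u φ = 0 := setIntegral_eq_zero_of_forall_eq_zero fun z hz => pull2_zero (h0 z hz)

theorem SuppIn_zero {k : ℕ} {φ : Form X k} {U : Set X} (h : SuppIn φ U) {x : X} (hx : x ∉ U) :
    φ x = 0 := by
  obtain ⟨C, -, h1, h2⟩ := h
  exact h2 x fun h => hx (h1 h)

theorem SuppIn_mono {k : ℕ} {φ : Form X k} {U V : Set X} (h : SuppIn φ U) (hUV : U ⊆ V) :
    SuppIn φ V := by
  obtain ⟨C, h0, h1, h2⟩ := h
  exact ⟨C, h0, h1.trans hUV, h2⟩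

/-! ## `J`-linearity of the differential -/

section jlin

variable (hJ : ∀ x v, J x (J x v) = -v) {u : ℂ → X} {z : ℂ} (h : JAt J u z)
include hJ h

theorem J_dm (a : ℂ) : J (u z) (dm u z a) = dm u z (Complex.I * a) := by
  rw [dm_expand u z a, dm_expand u z (Complex.I * a), map_add, map_smul, map_smul, h, hJ]
  simp only [Complex.mul_re, Complex.I_re, Complex.I_im, Complex.mul_im]
  module

theorem dm_inj (hne : dm u z 1 ≠ 0) {a : ℂ} (h0 : dm u z a = 0) : a = 0 := by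
  by_contra ha
  have h1 : dm u z (Complex.I * a) = 0 := by rw [← J_dm hJ h, h0, map_zero]
  have h2 : (1 : ℂ) = a⁻¹.re • a + a⁻¹.im • (Complex.I * a) := by
    rw [Complex.real_smul, Complex.real_smul, ← mul_assoc, ← add_mul, Complex.re_add_im,
      inv_mul_cancel₀ ha]
  have h3 : ∀ L : ℂ →L[ℝ] HS.E4, L a = 0 → L (Complex.I * a) = 0 → L 1 = 0 := fun L e1 e2 => by
    rw [h2, map_add, map_smul, map_smul, e1, e2, smul_zero, smul_zero, add_zero]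
  exact hne (h3 (mfderiv 𝓘(ℝ, ℂ) (𝓡 4) u z) h0 h1)

end jlin

theorem jat_comp (hJ : ∀ x v, J x (J x v) = -v) {u : ℂ → X} {ψ : ℂ → ℂ} {a z : ℂ}
    (hψ : HasDerivAt ψ a z) (hu : MDifferentiableAt 𝓘(ℝ, ℂ) (𝓡 4) u (ψ z)) (h : JAt J u (ψ z)) :
    JAt J (fun w => u (ψ w)) z := by
  unfold JAt
  rw [dm_comp (hasF_mulC hψ) hu, dm_comp (hasF_mulC hψ) hu, mulC_apply, mulC_apply, one_mul]
  exact (J_dm hJ h a).symm

theorem far_aux [T2Space X] {u : ℂ → X} {A : Set ℂ} (hA : IsCompact A) (hc : ContinuousOn u A)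
    {y : X} (hy : ∀ z ∈ A, u z ≠ y) : ∀ᶠ y' in 𝓝 y, ∀ z ∈ A, u z ≠ y' := by
  filter_upwards [(hA.image_of_continuousOn hc).isClosed.isOpen_compl.mem_nhds
    (by rintro ⟨z, hz, h⟩; exact hy z hz h : y ∉ u '' A)] with y' h z hz e
  exact h ⟨z, hz, e⟩

end Vale.Agent.P247C

namespace Vale.Agent.P247X.BrsX

open Vale.Agent.P247.SCY Vale.Agent.P247.SCY.HS Vale.Agent.P247C

variable {X : Type} [TopologicalSpace X] [ChartedSpace HS.E4 X] {J : EndF X} {K U : Set X} {x : X}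
  {N : ℕ} {u : Fin N → ℂ → X} (h : BrsX J K x N u U)
include h

theorem cmd (l : Fin N) {z : ℂ} (hz : z ∈ ball (0 : ℂ) 2) : ContMDiffAt 𝓘(ℝ, ℂ) (𝓡 4) ∞ (u l) z :=
  (h.smooth l).contMDiffAt (isOpen_ball.mem_nhds hz)

theorem md (l : Fin N) {z : ℂ} (hz : z ∈ ball (0 : ℂ) 2) :
    MDifferentiableAt 𝓘(ℝ, ℂ) (𝓡 4) (u l) z := (h.cmd l hz).mdifferentiableAt (by simp)

theorem memK : x ∈ K := h.zero ⟨0, h.posN⟩ ▸ h.mem ⟨0, h.posN⟩ 0 (mem_ball_self two_pos)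

theorem in_one {l : Fin N} {z : ℂ} (hz : z ∈ ball (0 : ℂ) 2) (hx : u l z ∈ U) :
    z ∈ ball (0 : ℂ) 1 := by
  rw [mem_ball_zero_iff]
  by_contra hn
  exact h.far l z hz (not_lt.1 hn) hx

theorem eq_zero {l : Fin N} {z : ℂ} (hz : z ∈ ball (0 : ℂ) 2) (hx : u l z = x) : z = 0 := by
  rcases h.inj l l z hz 0 (mem_ball_self two_pos) (hx.trans (h.zero l).symm) with h2 | h2
  exacts [h2.2, h2.1]

theorem injOn (l : Fin N) : InjOn (u l) (ball 0 2) := fun z hz w hw e => by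
  rcases h.inj l l z hz w hw e with h2 | h2
  exacts [h2.2, h2.1.trans h2.2.symm]

theorem mono {V : Set X} (hV : IsOpen V) (hx : x ∈ V) (hVU : V ⊆ U) : BrsX J K x N u V :=
  { h with
    opn := hV, memU := hx, far := fun l z hz h1 h2 => h.far l z hz h1 (hVU h2)
    cov := fun y hy => h.cov y (hVU hy) }

theorem in_nhds {W : Set X} (hW : W ∈ 𝓝 x) :
    ∃ r > 0, r ≤ 1 ∧ ∀ l, ∀ z ∈ ball (0 : ℂ) r, u l z ∈ W := by
  have h2 : ∀ᶠ z in 𝓝 (0 : ℂ), ∀ l, u l z ∈ W := eventually_all.2 fun l =>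
    (h.cmd l (mem_ball_self two_pos)).continuousAt.eventually (by rw [h.zero l]; exact hW)
  obtain ⟨δ, hδ, h3⟩ := Metric.eventually_nhds_iff_ball.1 h2
  exact ⟨min δ 1, lt_min hδ one_pos, min_le_right _ _, fun l z hz =>
    h3 z (ball_subset_ball (min_le_left _ _) hz) l⟩

theorem scale {r : ℝ} (hr : 0 < r) (hr1 : r ≤ 1) {V : Set X} (hV : IsOpen V) (hx : x ∈ V)
    (hVU : V ⊆ U) (hn : ∀ l, ∀ z ∈ ball (0 : ℂ) 2, u l z ∈ V → z ∈ ball (0 : ℂ) r) :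
    BrsX J K x N (fun l w => u l (0 + r * w)) V := by
  have hm : ∀ w ∈ ball (0 : ℂ) 2, 0 + r * w ∈ ball (0 : ℂ) 2 := fun w hw =>
    ball_subset_ball (by linarith) ((aff_mem (z₀ := 0) hr).2 hw)
  have h0 : ∀ w : ℂ, 0 + r * w = 0 → w = 0 := fun w hw => aff_inj 0 hr (by simpa using hw)
  refine ⟨h.posN, hV, hx, fun l => (h.smooth l).comp (cmd_aff 0 r).contMDiffOn hm,
    fun l w hw => jat_aff (h.md l (hm w hw)) (h.hol l _ (hm w hw)), fun l => by simp [h.zero],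
    fun l w hw hw0 => ?_, fun l l' w hw w' hw' e => ?_, fun l w hw h1 h2 => ?_,
    fun l w hw => h.mem l _ (hm w hw), fun y hy hK => ?_⟩
  · rw [dm_aff (h.md l (hm w hw))]
    exact smul_ne_zero hr.ne' (h.imm l _ (hm w hw) fun e => hw0 (h0 w e))
  · rcases h.inj l l' _ (hm w hw) _ (hm w' hw') e with h2 | h2
    exacts [Or.inl ⟨h2.1, aff_inj 0 hr h2.2⟩, Or.inr ⟨h0 w h2.1, h0 w' h2.2⟩]
  · have h3 := hn l _ (hm w hw) h2
    have h4 := (aff_mem (z₀ := 0) (r := 1) hr).1 (by rw [one_mul]; exact h3)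
    exact absurd (mem_ball_zero_iff.1 h4) (not_lt.2 h1)
  · obtain ⟨l, z, hz, rfl⟩ := h.cov y (hVU hy) hK
    have h3 := hn l z (b12 hz) hy
    rw [← one_mul r, ← aff_image 0 hr] at h3
    obtain ⟨w, hw, rfl⟩ := h3
    exact ⟨l, w, hw, rfl⟩

theorem brX_scale {r : ℝ} (hr : 0 < r) (hr1 : r ≤ 1) {V : Set X}
    (hn : ∀ l, ∀ z ∈ ball (0 : ℂ) 2, u l z ∈ V → z ∈ ball (0 : ℂ) r) {φ : Form X 2}
    (hφ : SuppIn φ V) (l : Fin N) : brX (u l) φ = brX (fun w => u l (0 + r * w)) φ :=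
  brX_aff hr (ball_subset_ball hr1) (fun z hz => h.md l (ball_subset_ball (by linarith) hz))
    fun z hz hz' => SuppIn_zero hφ fun h1 => hz' (hn l z (b12 hz) h1)

theorem recenter {l : Fin N} {z₀ : ℂ} {s : ℝ} (hs : 0 < s)
    (hb : ball z₀ (2 * s) ⊆ ball 0 2 \ {0}) {V : Set X} (hV : IsOpen V) (hx : u l z₀ ∈ V)
    (hVU : V ⊆ U) (hn : ∀ l', ∀ z ∈ ball (0 : ℂ) 2, u l' z ∈ V → l' = l ∧ z ∈ ball z₀ s) :
    BrsX J K (u l z₀) 1 (fun _ w => u l (z₀ + s * w)) V ∧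
      dm (fun w => u l (z₀ + s * w)) 0 1 ≠ 0 := by
  have hm : ∀ w ∈ ball (0 : ℂ) 2, z₀ + s * w ∈ ball (0 : ℂ) 2 \ {0} := fun w hw =>
    hb ((aff_mem hs).2 hw)
  have him : ∀ w ∈ ball (0 : ℂ) 2, dm (fun w => u l (z₀ + s * w)) w 1 ≠ 0 := fun w hw => by
    rw [dm_aff (h.md l (hm w hw).1)]
    exact smul_ne_zero hs.ne' (h.imm l _ (hm w hw).1 (hm w hw).2)
  refine ⟨⟨one_pos, hV, hx, fun _ => (h.smooth l).comp (cmd_aff z₀ s).contMDiffOn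
    fun w hw => (hm w hw).1, fun _ w hw => jat_aff (h.md l (hm w hw).1) (h.hol l _ (hm w hw).1),
    fun _ => by simp, fun _ w hw _ => him w hw, fun a b w hw w' hw' e => Or.inl
      ⟨Subsingleton.elim _ _, aff_inj z₀ hs (h.injOn l (hm w hw).1 (hm w' hw').1 e)⟩,
    fun _ w hw h1 h2 => ?_, fun _ w hw => h.mem l _ (hm w hw).1, fun y hy hK => ?_⟩,
    him 0 (mem_ball_self two_pos)⟩
  · have h4 := (aff_mem (z₀ := z₀) (r := 1) hs).1
      (by rw [one_mul]; exact (hn l _ (hm w hw).1 h2).2)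
    exact absurd (mem_ball_zero_iff.1 h4) (not_lt.2 h1)
  · obtain ⟨l', z, hz, rfl⟩ := h.cov y (hVU hy) hK
    obtain ⟨rfl, h3⟩ := hn l' z (b12 hz) hy
    rw [← one_mul s, ← aff_image z₀ hs] at h3
    obtain ⟨w, hw, rfl⟩ := h3
    exact ⟨0, w, hw, rfl⟩

variable [T2Space X]

/-- points close to the centre have small parameters -/
theorem near_zero {r : ℝ} (hr : 0 < r) :
    ∀ᶠ y in 𝓝 x, y ∈ U ∧ ∀ l, ∀ z ∈ ball (0 : ℂ) 2, u l z = y → z ∈ ball (0 : ℂ) r := by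
  have h1 : ∀ l, ∀ᶠ y in 𝓝 x, ∀ z ∈ closedBall (0 : ℂ) 1 \ ball 0 r, u l z ≠ y := fun l =>
    far_aux ((isCompact_closedBall 0 1).diff isOpen_ball)
      ((h.smooth l).continuousOn.mono (diff_subset.trans cb12)) fun z hz e =>
        hz.2 (by rw [h.eq_zero (cb12 hz.1) e]; exact mem_ball_self hr)
  filter_upwards [eventually_all.2 h1, h.opn.mem_nhds h.memU] with y h2 h3
  refine ⟨h3, fun l z hz e => ?_⟩
  by_contra hn
  exact h2 l z ⟨ball_subset_closedBall (h.in_one hz (e ▸ h3)), hn⟩ e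

/-- near a point off the centre there is only one branch -/
theorem near_pt {l : Fin N} {z₀ : ℂ} (hz₀ : z₀ ∈ ball (0 : ℂ) 2) (h0 : z₀ ≠ 0)
    (hx : u l z₀ ∈ U) {δ : ℝ} (hδ : 0 < δ) : ∀ᶠ y in 𝓝 (u l z₀), y ∈ U ∧
      ∀ l', ∀ z ∈ ball (0 : ℂ) 2, u l' z = y → l' = l ∧ z ∈ ball z₀ δ := by
  have h1 : ∀ l', ∀ᶠ y in 𝓝 (u l z₀), ∀ z ∈ closedBall (0 : ℂ) 1 \ {z | l' = l ∧ z ∈ ball z₀ δ},
      u l' z ≠ y := fun l' => by
    have ho : IsOpen {z | l' = l ∧ z ∈ ball z₀ δ} := isOpen_const.and isOpen_ball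
    refine far_aux ((isCompact_closedBall 0 1).diff ho)
      ((h.smooth l').continuousOn.mono (diff_subset.trans cb12)) fun z hz e => hz.2 ?_
    rcases h.inj l' l z (cb12 hz.1) z₀ hz₀ e with h2 | h2
    · exact ⟨h2.1, h2.2 ▸ mem_ball_self hδ⟩
    · exact absurd h2.2 h0
  filter_upwards [eventually_all.2 h1, h.opn.mem_nhds hx] with y h2 h3
  refine ⟨h3, fun l' z hz e => ?_⟩
  by_contra hn
  exact h2 l' z ⟨ball_subset_closedBall (h.in_one hz (e ▸ h3)), hn⟩ e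

/-- shrinking: the new discs are contained in `W ∩ U` -/
theorem shrink {W : Set X} (hW : W ∈ 𝓝 x) : ∃ (r : ℝ) (V : Set X), 0 < r ∧ r ≤ 1 ∧ V ⊆ W ∩ U ∧
    BrsX J K x N (fun l w => u l (0 + r * w)) V ∧
    (∀ l, ∀ w ∈ ball (0 : ℂ) 2, u l (0 + r * w) ∈ W ∩ U) ∧
    ∀ φ, SuppIn φ V → ∀ l, brX (u l) φ = brX (fun w => u l (0 + r * w)) φ := by
  obtain ⟨r, hr, hr1, h1⟩ := h.in_nhds (inter_mem hW (h.opn.mem_nhds h.memU))
  have hr2 : 0 < r / 2 := half_pos hr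
  obtain ⟨V, hV, ho, hx⟩ := _root_.mem_nhds_iff.1 (inter_mem hW (h.near_zero hr2))
  have hn : ∀ l, ∀ z ∈ ball (0 : ℂ) 2, u l z ∈ V → z ∈ ball (0 : ℂ) (r / 2) := fun l z hz e =>
    (hV e).2.2 l z hz rfl
  refine ⟨r / 2, V, hr2, by linarith, fun y hy => ⟨(hV hy).1, (hV hy).2.1⟩,
    h.scale hr2 (by linarith) ho hx (fun y hy => (hV hy).2.1) hn, fun l w hw => h1 l _ ?_,
    fun φ hφ l => h.brX_scale hr2 (by linarith) hn hφ l⟩
  have h2 := (aff_mem (z₀ := 0) hr2).2 hw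
  rwa [mul_div_cancel₀ _ (two_ne_zero' ℝ)] at h2

/-- recentring at a point of a punctured branch -/
theorem recenter' {l : Fin N} {z₀ : ℂ} (hz₀ : z₀ ∈ ball (0 : ℂ) 2) (h0 : z₀ ≠ 0)
    (hx : u l z₀ ∈ U) {W : Set X} (hW : W ∈ 𝓝 (u l z₀)) : ∃ (s : ℝ) (V : Set X), 0 < s ∧
    V ⊆ W ∩ U ∧ BrsX J K (u l z₀) 1 (fun _ w => u l (z₀ + s * w)) V ∧
    dm (fun w => u l (z₀ + s * w)) 0 1 ≠ 0 ∧ ∀ φ, SuppIn φ V →
      brX (u l) φ = brX (fun w => u l (z₀ + s * w)) φ ∧ ∀ l', l' ≠ l → brX (u l') φ = 0 := by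
  obtain ⟨ε, hε, h1⟩ := Metric.isOpen_iff.1 (isOpen_ball.sdiff isClosed_singleton) z₀
    (⟨h.in_one hz₀ hx, h0⟩ : z₀ ∈ ball (0 : ℂ) 1 \ {0})
  have hs : 0 < ε / 2 := half_pos hε
  obtain ⟨V, hV, ho, hxV⟩ := _root_.mem_nhds_iff.1 (inter_mem hW (h.near_pt hz₀ h0 hx hs))
  have hn : ∀ l', ∀ z ∈ ball (0 : ℂ) 2, u l' z ∈ V → l' = l ∧ z ∈ ball z₀ (ε / 2) :=
    fun l z hz e => (hV e).2.2 l z hz rfl
  have h2 := h.recenter hs (by
    rw [mul_div_cancel₀ _ (two_ne_zero' ℝ)]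
    exact h1.trans (diff_subset_diff_left b12)) ho hxV (fun y hy => (hV hy).2.1) hn
  have h3 : ball z₀ (ε / 2) ⊆ ball 0 1 :=
    (ball_subset_ball (half_le_self hε.le)).trans (h1.trans diff_subset)
  refine ⟨ε / 2, V, hs, fun y hy => ⟨(hV hy).1, (hV hy).2.1⟩, h2.1, h2.2, fun φ hφ =>
    ⟨brX_aff hs h3 (fun z hz => h.md l (b12 (h3 hz))) fun z hz hz' =>
      SuppIn_zero hφ fun e => hz' (hn l z (b12 hz) e).2, fun l' hl => brX_zero fun z hz =>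
      SuppIn_zero hφ fun e => hl (hn l' z (b12 hz) e).1⟩⟩

theorem regPt {l : Fin N} {z : ℂ} (hz : z ∈ ball (0 : ℂ) 2) (h0 : z ≠ 0) (hx : u l z ∈ U) :
    RegPt J K (u l z) := by
  obtain ⟨s, V, -, -, h1, h2, -⟩ := h.recenter' hz h0 hx univ_mem
  exact ⟨_, V, h1, h2⟩

theorem regPt_of_ne {y : X} (hy : y ∈ U) (hK : y ∈ K) (hne : y ≠ x) : RegPt J K y := by
  obtain ⟨l, z, hz, rfl⟩ := h.cov y hy hK
  exact h.regPt (b12 hz) (fun e => hne (by rw [e, h.zero])) hy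

theorem image_mem {l : Fin N} {z : ℂ} (hz : z ∈ ball (0 : ℂ) 2) (h0 : z ≠ 0) (hx : u l z ∈ U)
    {δ : ℝ} (hδ : 0 < δ) : u l '' ball z δ ∈ 𝓝[K] (u l z) := by
  filter_upwards [nhdsWithin_le_nhds (h.near_pt hz h0 hx hδ), self_mem_nhdsWithin] with y h1 hK
  obtain ⟨l', w, hw, e⟩ := h.cov y h1.1 hK
  obtain ⟨rfl, h2⟩ := h1.2 l' w (b12 hw) e
  exact ⟨w, h2, e⟩

theorem iUnion_mem {δ : ℝ} (hδ : 0 < δ) : ⋃ l, u l '' ball 0 δ ∈ 𝓝[K] x := by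
  filter_upwards [nhdsWithin_le_nhds (h.near_zero hδ), self_mem_nhdsWithin] with y h1 hK
  obtain ⟨l, w, hw, e⟩ := h.cov y h1.1 hK
  exact mem_iUnion.2 ⟨l, w, h1.2 l w (b12 hw) e, e⟩

/-- the centre is in the closure of every punctured branch -/
theorem mem_closure (l : Fin N) {r : ℝ} (hr : 0 < r) :
    x ∈ closure (u l '' (ball 0 r \ {0})) := by
  have h1 : (0 : ℂ) ∈ closure (ball (0 : ℂ) r \ {0}) := by
    rw [mem_closure_iff_frequently]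
    have h2 : ∀ᶠ z in 𝓝[≠] (0 : ℂ), z ∈ ball (0 : ℂ) r \ {0} := by
      filter_upwards [nhdsWithin_le_nhds (ball_mem_nhds 0 hr), self_mem_nhdsWithin] with z a b
      exact ⟨a, b⟩
    exact h2.frequently.filter_mono nhdsWithin_le_nhds
  rw [← h.zero l]
  exact (h.cmd l (mem_ball_self two_pos)).continuousAt.continuousWithinAt.mem_closure_image h1

end Vale.Agent.P247X.BrsX

namespace Vale.Agent.P247C

open Vale.Agent.P247.SCY Vale.Agent.P247.SCY.HS Vale.Agent.P247X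

variable {X : Type} [TopologicalSpace X] [ChartedSpace HS.E4 X] [T2Space X] {J : EndF X}

/-- the set of non-regular points of a compact curve is finite -/
theorem finite_sing {K : Set X} (hK : IsCompact K)
    (h : ∀ x ∈ K, ∃ (N : ℕ) (u : Fin N → ℂ → X) (U : Set X), BrsX J K x N u U) :
    {x | x ∈ K ∧ ¬ RegPt J K x}.Finite := by
  choose! N u U hb using h
  obtain ⟨t, ht, hc⟩ := hK.elim_nhds_subcover U fun x hx => (hb x hx).opn.mem_nhds (hb x hx).memU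
  refine t.finite_toSet.subset fun y hy => ?_
  obtain ⟨x, hx, hyx⟩ := mem_iUnion₂.1 (hc hy.1)
  by_contra hn
  exact hy.2 ((hb x (ht x hx)).regPt_of_ne hyx hy.1 fun e => hn (e ▸ hx))

theorem jw_sq {X : Type} [Cl4 X] {μ : Form X 4} {w : Tri X} (hw : Hypersymplectic μ w) (x : X)
    (v : TangentSpace (𝓡 4) x) : Jw w x (Jw w x v) = -v := Jf_sq (defAt hw) x v

theorem jw_pos {X : Type} [Cl4 X] {μ : Form X 4} {w : Tri X} (hw : Hypersymplectic μ w) (x : X)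
    {v : TangentSpace (𝓡 4) x} (hv : v ≠ 0) : 0 < w 2 x ![v, Jw w x v] :=
  Jf_tames' (defAt hw) x v hv

end Vale.Agent.P247C
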