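import Vale.Agent.P247C.Defs
import Vale.Agent.P247C.T3
import Vale.Agent.P247C.Pl0
import Vale.Agent.P247M.PInt
import Vale.Agent.P247M.LBOps
import Vale.Agent.P247Y.LocInv

/-!
# P247, block C, row CHT: adapted charts at immersed points
-/

set_option linter.all false

open scoped Manifold ContDiff Topology ComplexConjugate
open Set MeasureTheory Filter Metric Function

noncomputable section

namespace Vale.Agent.P247C

open Vale.Agent.P247X Vale.Agent.P247.SCY Vale.Agent.P247.SCY.HS Vale.Agent.P247M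

section alg

variable {α : Alt 2} {J : E4 →L[ℝ] E4}

/-- the complex bilinear form with real part `α` -/
def omA (α : Alt 2) (J : E4 →L[ℝ] E4) (a v : E4) : ℂ :=
  ((α ![a, v] : ℝ) : ℂ) - Complex.I * ((α ![a, J v] : ℝ) : ℂ)

theorem alt2_neg_right (α : Alt 2) (a v : E4) : α ![a, -v] = -α ![a, v] := by
  rw [← neg_one_smul ℝ v, alt2_smul_right, neg_one_mul]

theorem exists_ne (h : wedge α α bas ≠ 0) {a : E4} (ha : a ≠ 0) : ∃ v, α ![a, v] ≠ 0 := by
  by_contra hn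
  push Not at hn
  have e0 := (alt2_coord α a (bas 0)).symm.trans (hn _)
  have e1 := (alt2_coord α a (bas 1)).symm.trans (hn _)
  have e2 := (alt2_coord α a (bas 2)).symm.trans (hn _)
  have e3 := (alt2_coord α a (bas 3)).symm.trans (hn _)
  simp only [bas_apply] at e0 e1 e2 e3
  norm_num [Fin.ext_iff] at e0 e1 e2 e3
  refine ha ?_
  ext i
  refine mul_right_cancel₀ h ?_
  unfold wedge
  fin_cases i
  · show a 0 * _ = 0 * _
    linear_combination 2 * (α ![bas 2, bas 3] * e1 - α ![bas 1, bas 3] * e2 + α ![bas 1, bas 2] * e3)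
  · show a 1 * _ = 0 * _
    linear_combination 2 * (-α ![bas 2, bas 3] * e0 + α ![bas 0, bas 3] * e2 - α ![bas 0, bas 2] * e3)
  · show a 2 * _ = 0 * _
    linear_combination 2 * (α ![bas 1, bas 3] * e0 - α ![bas 0, bas 3] * e1 + α ![bas 0, bas 1] * e3)
  · show a 3 * _ = 0 * _
    linear_combination 2 * (-α ![bas 1, bas 2] * e0 + α ![bas 0, bas 2] * e1 - α ![bas 0, bas 1] * e2)

variable (hJ : ∀ v, J (J v) = -v) (ha : ∀ u v, α ![J u, J v] = -α ![u, v])
include hJ ha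

theorem anti_move (a v : E4) : α ![J a, v] = α ![a, J v] := by
  have h := ha a (J v)
  rw [hJ, alt2_neg_right] at h
  linarith

theorem wedge_omA (a v v' : E4) :
    wedge α α ![a, J a, v, v'] = 2 * (conj (omA α J a v) * omA α J a v').im := by
  have h0 : α ![a, J a] = 0 := by linarith [anti_move hJ ha a a, alt2_swap α a (J a)]
  simp only [wedge, omA, Matrix.cons_val_zero, Matrix.cons_val_one, Matrix.cons_val, h0,
    anti_move hJ ha a]
  simp
  ring

omit ha in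
theorem omA_J (a v : E4) : omA α J a (J v) = Complex.I * omA α J a v := by
  unfold omA
  rw [hJ, alt2_neg_right]
  apply Complex.ext <;> simp

theorem omA_left (e : ℂ) (a v : E4) :
    omA α J (e.re • a + e.im • J a) v = e * omA α J a v := by
  unfold omA
  simp only [alt2_add_left, alt2_smul_left, anti_move hJ ha a, hJ, alt2_neg_right]
  apply Complex.ext <;> simp <;> ring

end alg

theorem span_two {P Q : ℂ} (h : (conj P * Q).im ≠ 0) (t : ℂ) : ∃ a b : ℝ, a • P + b • Q = t := by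
  refine ⟨(conj t * Q).im / (conj P * Q).im, (conj P * t).im / (conj P * Q).im, ?_⟩
  apply Complex.ext
  · simp only [Complex.add_re, Complex.smul_re, smul_eq_mul]
    rw [div_mul_eq_mul_div, div_mul_eq_mul_div, ← add_div, div_eq_iff h]
    simp
    ring
  · simp only [Complex.add_im, Complex.smul_im, smul_eq_mul]
    rw [div_mul_eq_mul_div, div_mul_eq_mul_div, ← add_div, div_eq_iff h]
    simp
    ring

theorem im_conj_mul (c P Q : ℂ) :
    (conj (c * P) * (c * Q)).im = Complex.normSq c * (conj P * Q).im := by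
  simp [Complex.normSq_apply]
  ring

variable {X : Type} [Cl4 X] {μ : Form X 4} {w : Tri X}

theorem mfd_clm {F G : Type} [NormedAddCommGroup F] [NormedSpace ℝ F] [NormedAddCommGroup G]
    [NormedSpace ℝ G] (L : F →L[ℝ] G) {Φ : X → F} {x : X}
    (h : MDifferentiableAt (𝓡 4) 𝓘(ℝ, F) Φ x) (a : E4) :
    (mfderiv (𝓡 4) 𝓘(ℝ, G) (fun y => L (Φ y)) x a : G) = L (mfderiv (𝓡 4) 𝓘(ℝ, F) Φ x a) :=
  DFunLike.congr_fun (L.hasMFDerivAt.comp x h.hasMFDerivAt).mfderiv a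

theorem quot_pos (hw : Hypersymplectic μ w) (x : X) : 0 < quot μ (w 0) (w 0) x := by
  have h : 0 < quot μ (w 0) (w 0) x / 2 := (hw.posDef x).diag_pos (i := 0)
  linarith

theorem wedge_ne (hw : Hypersymplectic μ w) (x : X) : wedge (rf (w 0) x) (rf (w 0) x) bas ≠ 0 := by
  intro h
  have h1 : quot μ (w 0) (w 0) x = wedge (rf (w 0) x) (rf (w 0) x) bas / rf μ x bas := rfl
  have h2 := quot_pos hw x
  rw [h1, h, zero_div] at h2
  exact lt_irrefl _ h2

theorem mu_pos (hμ : Volume μ) (hw : Hypersymplectic μ w) (x : X) {v : Fin 4 → E4}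
    (h : 0 < wedge (rf (w 0) x) (rf (w 0) x) v) : 0 < rf μ x v := by
  have h1 : quot μ (w 0) (w 0) x = wedge (rf (w 0) x) (rf (w 0) x) bas / rf μ x bas := rfl
  have h2 : wedge (rf (w 0) x) (rf (w 0) x) v = quot μ (w 0) (w 0) x * rf μ x v := by
    rw [P247M.wedge_eq, top_apply (rf μ x), h1, ← mul_assoc, div_mul_cancel₀ _ (mu_ne hμ x)]
  rw [h2] at h
  exact (mul_pos_iff_of_pos_left (quot_pos hw x)).1 h

theorem cht : CHT := by
  intro X _ μ hμ w hw K x u U hb h1 s hs hs0 c e he hc V hV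
  have h02 : (0 : ℂ) ∈ ball (0 : ℂ) 2 := mem_ball_self two_pos
  obtain rfl : u 0 0 = x := hb.zero 0
  set x := u 0 0 with hx
  have hJ : ∀ v : E4, (Jw w x : E4 →L[ℝ] E4) ((Jw w x : E4 →L[ℝ] E4) v) = -v := jw_sq hw x
  have ha : ∀ a v : E4, rf (w 0) x ![(Jw w x : E4 →L[ℝ] E4) a, (Jw w x : E4 →L[ℝ] E4) v] =
      -rf (w 0) x ![a, v] := Jf_anti_B (defAt hw) x
  set J : E4 →L[ℝ] E4 := Jw w x
  set α := rf (w 0) x
  have hI : dP (u 0) 0 Complex.I = J (dP (u 0) 0 1) := hb.hol 0 0 h02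
  have hc' : ∀ v : E4, ‖c * dfc s x v - e * omA α J (dP (u 0) 0 1) v‖ ≤
      1 / 2 * ‖e * omA α J (dP (u 0) 0 1) v‖ := fun v => by
    have h : dP (u 0) 0 e = e.re • dP (u 0) 0 1 + e.im • dP (u 0) 0 Complex.I :=
      dm_expand (u 0) 0 e
    rw [← omA_left hJ ha, ← hI, ← h]
    exact hc v
  obtain ⟨b, hb0⟩ := exists_ne (wedge_ne hw x) (show dP (u 0) 0 1 ≠ 0 from h1)
  have hb1 : e * omA α J (dP (u 0) 0 1) b ≠ 0 := mul_ne_zero he fun h => hb0 (by
    simpa [omA] using congrArg Complex.re h)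
  have hb2 : 0 < Complex.normSq c * (conj (dfc s x b) * dfc s x (J b)).im := by
    have h2 := hc' (J b)
    rw [omA_J hJ, mul_left_comm] at h2
    have h3 := Pl.cone (hc' b) h2 hb1 (mul_ne_zero Complex.I_ne_zero hb1)
    rw [← im_conj_mul]
    set z := e * omA α J (dP (u 0) 0 1) b
    have h4 : z * conj (Complex.I * z) = -Complex.I * (Complex.normSq z : ℝ) := by
      rw [map_mul, Complex.conj_I, ← Complex.mul_conj]; ring
    rw [h4] at h3
    set y := conj (c * dfc s x b) * (c * dfc s x (J b))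
    simp at h3
    exact (mul_pos_iff_of_pos_right (Complex.normSq_pos.2 hb1)).1 h3
  have hc0 : c ≠ 0 := fun h => by simp [h] at hb2
  obtain ⟨r, U', hU', hxU', hr, hrv⟩ := P247Y.exists_retr isOpen_ball (hb.smooth 0) h02
    ((injective_iff_map_eq_zero _).2 fun a h => dm_inj (jw_sq hw) (hb.hol 0 0 h02) h1 h)
  obtain ⟨S, hS, hSo, hxS⟩ := eventually_nhds_iff.1 hs
  set Φ : X → ℂ × ℂ := fun y => (r y, s y) with hΦdef
  have hΦ : ContMDiffOn (𝓡 4) 𝓘(ℝ, ℂ × ℂ) ∞ Φ (U' ∩ S) :=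
    (hr.mono inter_subset_left).prodMk_space fun y hy => (hS y hy.2).contMDiffWithinAt
  have hΦd : MDifferentiableAt (𝓡 4) 𝓘(ℝ, ℂ × ℂ) Φ x :=
    (hΦ.contMDiffAt ((hU'.inter hSo).mem_nhds ⟨hxU', hxS⟩)).mdifferentiableAt (by simp)
  set D : E4 →L[ℝ] ℂ × ℂ := mfderiv (𝓡 4) 𝓘(ℝ, ℂ × ℂ) Φ x with hD
  have hD2 : ∀ a, (D a).2 = dfc s x a := fun a =>
    (mfd_clm (ContinuousLinearMap.snd ℝ ℂ ℂ) hΦd a).symm
  have hax : ∀ᶠ z in 𝓝 (0 : ℂ), Φ (u 0 z) = (z, 0) := by
    filter_upwards [hrv, hs0] with z a b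
    simp only [hΦdef, a, b]
  have hD1 : ∀ t, D (dP (u 0) 0 t) = (t, 0) := fun t => by
    have h2 := mfderiv_comp (0 : ℂ) hΦd (hb.md 0 h02)
    have h3 : Φ ∘ u 0 =ᶠ[𝓝 0] ContinuousLinearMap.inl ℝ ℂ ℂ := hax
    rw [h3.mfderiv_eq, ContinuousLinearMap.mfderiv_eq] at h2
    exact (DFunLike.congr_fun h2 t).symm
  have hsurj : Surjective D := fun q => by
    obtain ⟨a₁, a₂, h2⟩ := span_two (right_ne_zero_of_mul hb2.ne') q.2
    refine ⟨a₁ • b + a₂ • J b + dP (u 0) 0 (q.1 - (D (a₁ • b + a₂ • J b)).1), ?_⟩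
    rw [map_add, hD1]
    refine Prod.ext (add_sub_cancel _ _) ?_
    rw [Prod.snd_add, add_zero, map_add, map_smul, map_smul, ← h2, ← hD2, ← hD2]
    rfl
  have hbij : Bijective D := ⟨(LinearMap.injective_iff_surjective_of_finrank_eq_finrank
    (f := (D : E4 →ₗ[ℝ] ℂ × ℂ)) (by simp)).2 hsurj, hsurj⟩
  obtain ⟨E, hxE, hES, hE, hEs⟩ := P247Y.locInv (hU'.inter hSo) hΦ ⟨hxU', hxS⟩ hbij
  have hEΦ : (E : X → ℂ × ℂ) = Φ := funext hE
  have hEsm : ContMDiffOn (𝓡 4) 𝓘(ℝ, ℂ × ℂ) ∞ E E.source := hEΦ ▸ hΦ.mono hES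
  have hE0 : E x = 0 := (hE x).trans hax.self_of_nhds
  have h0T : (0 : ℂ × ℂ) ∈ E.target := hE0 ▸ E.map_source hxE
  have hΘ0 : E.symm 0 = x := hE0 ▸ E.left_inv hxE
  have hDΘ : ∀ q, D (dP E.symm 0 q) = q := fun q => by
    have h := P247Y.mfderiv_apply_symm E hEsm hEs h0T q
    have h2 : dP E.symm 0 q = mfderiv 𝓘(ℝ, ℂ × ℂ) (𝓡 4) E.symm 0 q := rfl
    rw [hD, ← hEΦ, h2, ← hΘ0]
    exact h
  have hori : 0 < pb E.symm μ 0 (fr TC) := by
    have h2 : pb E.symm μ 0 (fr TC) = rf μ x ![dP (u 0) 0 1, J (dP (u 0) 0 1),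
        dP E.symm 0 (0, 1), dP E.symm 0 (0, Complex.I)] := by
      rw [pb, hΘ0, fr_TC, ContinuousAlternatingMap.compContinuousLinearMap_apply]
      congr 1
      funext i
      fin_cases i
      · exact hbij.1 ((hDΘ _).trans (hD1 _).symm)
      · exact (hbij.1 ((hDΘ _).trans (hD1 _).symm)).trans hI
      · rfl
      · rfl
    rw [h2]
    refine mu_pos hμ hw x ?_
    rw [wedge_omA hJ ha]
    have h3 := hc' (dP E.symm 0 (0, 1))
    have h4 := hc' (dP E.symm 0 (0, Complex.I))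
    rw [← hD2, hDΘ] at h3 h4
    set P := omA α J (dP (u 0) 0 1) (dP E.symm 0 (0, 1))
    set Q := omA α J (dP (u 0) 0 1) (dP E.symm 0 (0, Complex.I))
    have h5 : ∀ {p P : ℂ}, p ≠ 0 → ‖p - P‖ ≤ 1 / 2 * ‖P‖ → P ≠ 0 := fun hp h h0 => by
      rw [h0, sub_zero, norm_zero, mul_zero] at h
      exact hp (norm_le_zero_iff.1 h)
    have h6 := Pl.cone h3 h4 (h5 (mul_ne_zero hc0 one_ne_zero) h3)
      (h5 (mul_ne_zero hc0 Complex.I_ne_zero) h4)
    have h7 : (conj (c * 1) * (c * Complex.I) * (e * P * conj (e * Q))).re =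
        Complex.normSq c * Complex.normSq e * (conj P * Q).im := by
      simp [Complex.normSq_apply]
      ring
    rw [h7] at h6
    linarith [(mul_pos_iff_of_pos_left (mul_pos (Complex.normSq_pos.2 hc0)
      (Complex.normSq_pos.2 he))).1 h6]
  have hΘc : Tendsto E.symm (𝓝 0) (𝓝 x) := hΘ0 ▸ E.continuousAt_symm h0T
  obtain ⟨δ, hδ, hδ0⟩ := eventually_nhds_iff_ball.1 hs0
  have e1 : ∀ᶠ y in 𝓝 x, y ∈ K → s y = 0 := by
    filter_upwards [eventually_nhdsWithin_iff.1 (hb.iUnion_mem hδ)] with y hy hK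
    obtain ⟨l, z, hz, rfl⟩ := mem_iUnion.1 (hy hK)
    obtain rfl : l = 0 := Subsingleton.elim _ _
    exact hδ0 z hz
  have e2 : ∀ᶠ q in 𝓝 (0 : ℂ × ℂ), 0 < pb E.symm μ q (fr TC) :=
    (((P267.H175.evL (fr TC)).continuous.comp_continuousOn
      (contDiffOn_pb E.open_target hEs hμ.smooth).continuousOn).continuousAt
        (E.open_target.mem_nhds h0T)).eventually (lt_mem_nhds hori)
  have e3 : ∀ᶠ z in 𝓝 (0 : ℂ), E.symm (z, 0) = u 0 z := by
    filter_upwards [hax, (hb.cmd 0 h02).continuousAt.eventually (E.open_source.mem_nhds hxE)]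
      with z a b
    rw [← a, ← hE, E.left_inv b]
  obtain ⟨ε, hε, h2⟩ := eventually_nhds_iff_ball.1 ((hΘc.eventually (e1.and hV)).and (e2.and
    ((continuous_fst.tendsto (0 : ℂ × ℂ)).eventually e3 |>.and (E.open_target.mem_nhds h0T))))
  have h3 := fun q (hq : q ∈ ball (0 : ℂ × ℂ) (min ε 1)) =>
    h2 q (ball_subset_ball (min_le_left _ _) hq)
  have hT : ball (0 : ℂ × ℂ) (min ε 1) ⊆ E.target := fun q hq => (h3 q hq).2.2.2
  have hs2 : ∀ q ∈ ball (0 : ℂ × ℂ) (min ε 1), s (E.symm q) = q.2 := fun q hq =>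
    congrArg Prod.snd ((hE _).symm.trans (E.right_inv (hT hq)))
  refine ⟨min ε 1, E.symm, ⟨lt_min hε one_pos, min_le_right _ _, hEs.mono hT,
    E.symm.injOn.mono hT, fun q hq => P247Y.mfderiv_bij E.symm hEs hEsm (hT hq),
    fun O hO ho => E.symm.isOpen_image_of_subset_source ho (hO.trans hT), fun t ht => ?_, hs2,
    fun q hq => ⟨fun hK => (hs2 q hq).symm.trans ((h3 q hq).1.1 hK), fun h0 => ?_⟩,
    fun q hq => ?_⟩, ?_⟩
  · exact (h3 (t, 0) (by simpa using ht)).2.2.1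
  · have h4 : q = (q.1, 0) := Prod.ext rfl h0
    rw [h4, (h3 q hq).2.2.1]
    refine hb.mem 0 _ (b12 (mem_ball_zero_iff.2 ((norm_fst_le q).trans_lt ?_)))
    exact (mem_ball_zero_iff.1 hq).trans_le (min_le_right _ _)
  · have h4 := (h3 q hq).2.1
    rw [fr_TC, pb_apply] at h4
    refine h4.trans_eq (congrArg _ ?_)
    funext i
    fin_cases i <;> rfl
  · rintro _ ⟨q, hq, rfl⟩
    exact (h3 q hq).1.2

end Vale.Agent.P247C
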