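import Vale.Agent.P247C.Th

/-!
# P247, block C, row DEG: the degree of a line bundle on a curve
-/

set_option linter.all false

open scoped Manifold ContDiff Topology
open Set MeasureTheory Filter Metric

noncomputable section

namespace Vale.Agent.P247C

open Vale.Agent.P247.SCY Vale.Agent.P247.SCY.HS Vale.Agent.P247X
open Vale.Agent.P247.H74 (HasWinding)

variable {X : Type} [Cl4 X] {J : EndF X}

theorem deg_cyc {K : Set X} {T : Form X 2 → ℝ} (hK : Cyc J K T) {L : LB X} {W : Set X}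
    {σ : Fin L.n → X → ℂ} (h : SecOn L W σ) (P : Finset X) (N : X → ℕ)
    (u : ∀ p, Fin (N p) → ℂ → X) (U : X → Set X) (ρ : X → ℝ) (c : X → Fin L.n)
    (m : ∀ p, Fin (N p) → ℤ)
    (hP : ∀ p ∈ P, BrsX J K p (N p) (u p) (U p) ∧ Comp T (u p) (U p) ∧ 0 < ρ p ∧ ρ p < 1 ∧
      ∀ l, (∀ z ∈ closedBall (0 : ℂ) (ρ p), u p l z ∈ U p ∩ L.U (c p)) ∧
        HasWinding (fun z => σ (c p) (u p l z)) 0 (ρ p) (m p l))
    (hd : ∀ p ∈ P, ∀ q ∈ P, p ≠ q → ∀ l l', ∀ z ∈ closedBall (0 : ℂ) (ρ p),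
      ∀ z' ∈ closedBall (0 : ℂ) (ρ q), u p l z ≠ u q l' z')
    (hW : ∀ x ∈ K, (∀ p ∈ P, ∀ l, ∀ z ∈ ball (0 : ℂ) (ρ p), x ≠ u p l z) → x ∈ W) :
    T L.F = ∑ p ∈ P, ∑ l, (m p l : ℝ) := by
  classical
  have hb2 : ∀ p ∈ P, closedBall (0 : ℂ) (ρ p) ⊆ ball 0 2 := fun p hp =>
    (closedBall_subset_closedBall (hP p hp).2.2.2.1.le).trans cb12
  set A : Set X := {x | x ∈ K ∧ ∀ p ∈ P, ∀ l, ∀ z ∈ ball (0 : ℂ) (ρ p), x ≠ u p l z} with hA
  have hAc : IsClosed A := by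
    rw [← isOpen_compl_iff, isOpen_iff_mem_nhds]
    intro x hx
    by_cases hxK : x ∈ K
    swap
    · exact mem_of_superset (hK.cpt.isClosed.isOpen_compl.mem_nhds hxK) fun y hy e => hy e.1
    obtain ⟨p, hp, l, z, hz, rfl⟩ : ∃ p ∈ P, ∃ l, ∃ z ∈ ball (0 : ℂ) (ρ p), x = u p l z := by
      by_contra hn
      push Not at hn
      exact hx ⟨hxK, hn⟩
    have hb := (hP p hp).1
    have h1 : (⋃ l, u p l '' ball 0 (ρ p)) ∈ 𝓝[K] (u p l z) := by
      by_cases h0 : z = 0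
      · rw [h0, hb.zero]
        exact hb.iUnion_mem (hP p hp).2.2.1
      · obtain ⟨δ, hδ, h2⟩ := Metric.isOpen_iff.1 isOpen_ball z hz
        exact mem_of_superset (hb.image_mem (hb2 p hp (ball_subset_closedBall hz)) h0
          (((hP p hp).2.2.2.2 l).1 z (ball_subset_closedBall hz)).1 hδ)
          ((image_mono h2).trans (subset_iUnion (fun l => u p l '' ball 0 (ρ p)) l))
    filter_upwards [mem_nhdsWithin_iff_eventually.1 h1] with y hy e
    obtain ⟨l', w, hw, e'⟩ := mem_iUnion.1 (hy e.1)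
    exact e.2 p hp l' w hw e'.symm
  obtain ⟨ψ, hψ, -, hs, h1⟩ := exists_bump hAc h.opn fun x hx => hW x hx.1 hx.2
  set E : X → Set X := fun p => ⋃ l, u p l '' closedBall 0 (ρ p) with hE
  have hEc : ∀ p ∈ P, IsClosed (E p) := fun p hp => isClosed_iUnion_of_finite fun l =>
    ((isCompact_closedBall _ _).image_of_continuousOn
      (((hP p hp).1.smooth l).continuousOn.mono (hb2 p hp))).isClosed
  have hχ : ∀ p ∈ P, ∃ χ : X → ℝ, ContMDiff (𝓡 4) 𝓘(ℝ, ℝ) ∞ χ ∧ tsupport χ ⊆ U p ∧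
      (∀ x ∈ E p, χ x = 1) ∧ ∀ q ∈ P, q ≠ p → ∀ x ∈ E q, χ x = 0 := fun p hp => by
    obtain ⟨χ, c1, -, c2, c3⟩ := exists_bump (hEc p hp) ((hP p hp).1.opn.inter
      ((P.erase p).finite_toSet.isClosed_biUnion fun q hq =>
        hEc q (Finset.mem_of_mem_erase hq)).isOpen_compl) (by
      intro x hx
      obtain ⟨l, z, hz, rfl⟩ := mem_iUnion.1 hx
      refine ⟨(((hP p hp).2.2.2.2 l).1 z hz).1, fun e => ?_⟩
      obtain ⟨q, hq, e⟩ := mem_iUnion₂.1 e
      obtain ⟨l', z', hz', e⟩ := mem_iUnion.1 e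
      exact hd p hp q (Finset.mem_of_mem_erase hq) (Finset.ne_of_mem_erase hq).symm l l' z hz
        z' hz' e.symm)
    exact ⟨χ, c1, c2.trans inter_subset_left, fun x hx => (c3 x hx).self_of_nhds,
      fun q hq hne x hx => image_eq_zero_of_notMem_tsupport fun e => (c2 e).2
        (mem_biUnion (Finset.mem_coe.2 (Finset.mem_erase.2 ⟨hne, hq⟩)) hx)⟩
  choose! χ c1 c2 c3 c4 using hχ
  have hβ := smooth_beta h hψ hs
  set Φ : Form X 2 := fun x => (2 * Real.pi) • L.F x + dX (fun x => ψ x • conn L σ x) x with hΦ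
  have hΦc : Cont Φ := (L.F_sc.cont.smul _).add (cont_of_smooth (smooth_dX hβ))
  have hz0 : ∀ {v : ℂ → X}, ContMDiffOn 𝓘(ℝ, ℂ) (𝓡 4) ∞ v (ball 0 2) → ∀ z ∈ ball (0 : ℂ) 2,
      v z ∈ A → pull2 Φ v z = 0 := fun hv z hz hzA =>
    pull2_Phi_zero h hψ hs isOpen_ball hv hz (h1 _ hzA)
  have hnA : ∀ y ∈ K, y ∉ A → ∃ p ∈ P, ∃ l, ∃ z ∈ ball (0 : ℂ) (ρ p), y = u p l z := by
    intro y hy hn
    by_contra hn'
    push Not at hn'
    exact hn ⟨hy, hn'⟩
  have hmE : ∀ p l, ∀ z ∈ closedBall (0 : ℂ) (ρ p), u p l z ∈ E p := fun p l z hz =>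
    mem_iUnion.2 ⟨l, z, hz, rfl⟩
  have e1 : T Φ = 2 * Real.pi * T L.F := by
    rw [hK.lin.add _ _ (L.F_sc.cont.smul _) (cont_of_smooth (smooth_dX hβ)),
      hK.lin.smul _ _ L.F_sc.cont, hK.closed_dX hβ, add_zero]
  have e2 : T Φ = ∑ p ∈ P, T fun y => χ p y • Φ y := by
    have hc : ∀ p ∈ P, Cont fun y => χ p y • Φ y := fun p hp =>
      cont_fsmul (c1 p hp).continuous hΦc
    rw [← lin_sum hK.lin P hc]
    refine hK.congr hΦc (cont_sum P hc) fun x M v V hv l z hz _ => ?_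
    have e : pull2 (fun x => ∑ p ∈ P, χ p x • Φ x) (v l) z =
        (∑ p ∈ P, χ p (v l z)) * pull2 Φ (v l) z := by
      rw [← pull2_fsmul (fun y => ∑ p ∈ P, χ p y)]
      simp only [Finset.sum_smul]
    rw [e]
    by_cases hzA : v l z ∈ A
    · rw [hz0 (hv.smooth l) z (b12 hz) hzA, mul_zero]
    · obtain ⟨p, hp, l', w, hw, e'⟩ := hnA _ (hv.mem l z (b12 hz)) hzA
      have h2 := hmE p l' w (ball_subset_closedBall hw)
      rw [e', Finset.sum_eq_single_of_mem p hp fun q hq hne => c4 q hq p hp hne.symm _ h2,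
        c3 p hp _ h2, one_mul]
  have e3 : ∀ p ∈ P, ∀ l, brX (u p l) (fun y => χ p y • Φ y) = 2 * Real.pi * m p l := by
    intro p hp l
    obtain ⟨hb, -, hρ, hρ1, hl⟩ := hP p hp
    have hout : ∀ z ∈ ball (0 : ℂ) 2, z ∉ ball (0 : ℂ) (ρ p) → ∀ l', ∀ w ∈ ball (0 : ℂ) (ρ p),
        u p l z ≠ u p l' w := fun z hz hz' l' w hw e => by
      rcases hb.inj l l' z hz w (hb2 p hp (ball_subset_closedBall hw)) e with h2 | h2
      exacts [hz' (h2.2 ▸ hw), hz' (h2.1 ▸ mem_ball_self hρ)]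
    have e4 : brX (u p l) (fun y => χ p y • Φ y) =
        ∫ z in ball (0 : ℂ) (ρ p), pull2 (fun y => χ p y • Φ y) (u p l) z := by
      refine setIntegral_eq_of_subset_of_forall_diff_eq_zero measurableSet_ball
        (ball_subset_ball hρ1.le) fun z hz => ?_
      rw [pull2_fsmul]
      by_cases hzA : u p l z ∈ A
      · rw [hz0 (hb.smooth l) z (b12 hz.1) hzA, mul_zero]
      · obtain ⟨q, hq, l', w, hw, e'⟩ := hnA _ (hb.mem l z (b12 hz.1)) hzA
        by_cases hqp : q = p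
        · subst hqp
          exact absurd e' (hout z (b12 hz.1) hz.2 l' w hw)
        · rw [e', c4 p hp q hq hqp _ (hmE q l' w (ball_subset_closedBall hw)), zero_mul]
    have hbb : ball (0 : ℂ) (ρ p) ⊆ ball 0 2 := ball_subset_closedBall.trans (hb2 p hp)
    have hj : ∀ z ∈ ball (0 : ℂ) (ρ p), u p l z ∈ L.U (c p) := fun z hz =>
      ((hl l).1 z (ball_subset_closedBall hz)).2
    rw [e4, setIntegral_congr_fun measurableSet_ball fun z hz => by
      rw [pull2_fsmul, c3 p hp _ (hmE p l z (ball_subset_closedBall hz)), one_mul,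
        pull2_Phi h hψ hs isOpen_ball (hb.smooth l) (hbb hz) (hj z hz)]]
    have ho : IsOpen (W ∩ L.U (c p) ∩ interior {y | ψ y = 1}) :=
      (h.opn.inter (L.opn _)).inter isOpen_interior
    refine int_curl_wind hρ (fun a z hz => (cd_Q h hψ hs isOpen_ball (hb.smooth l) (hbb hz)
      (hj z hz) a).contDiffWithinAt) ((hb.smooth l).continuousOn.isOpen_inter_preimage isOpen_ball
        ho) (fun z hz => ?_) (fun z hz => (((h.smooth _).contMDiffAt ((h.opn.inter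
          (L.opn _)).mem_nhds hz.2.1)).comp z (hb.cmd l hz.1)).contDiffAt.contDiffWithinAt)
      (fun z hz => h.ne _ _ hz.2.1) (fun a z hz => Q_eq h isOpen_ball (hb.smooth l) hz.1 hz.2.1
        (interior_subset hz.2.2 :) a) (hl l).2
    have h2 := sphere_subset_closedBall hz
    have h3 : u p l z ∈ A := ⟨hb.mem l z (hb2 p hp h2), fun q hq l' w hw => by
      by_cases hqp : q = p
      · subst hqp
        exact hout z (hb2 q hq h2) (fun e => (mem_ball.1 e).ne hz) l' w hw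
      · exact hd p hp q hq (Ne.symm hqp) l l' z h2 w (ball_subset_closedBall hw)⟩
    exact ⟨hb2 p hp h2, ⟨hW _ h3.1 h3.2, ((hl l).1 z h2).2⟩, mem_interior_iff_mem_nhds.2 (h1 _ h3)⟩
  have e5 : 2 * Real.pi * T L.F = 2 * Real.pi * ∑ p ∈ P, ∑ l, (m p l : ℝ) := by
    rw [← e1, e2, Finset.mul_sum]
    refine Finset.sum_congr rfl fun p hp => ?_
    rw [(hP p hp).2.1 _ (cont_fsmul (c1 p hp).continuous hΦc) (suppIn_fsmul (c2 p hp) Φ),
      Finset.mul_sum]
    exact Finset.sum_congr rfl fun l _ => e3 p hp l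
  exact mul_left_cancel₀ (by positivity) e5

theorem deg : DEG := fun X _ μ _ w _ K L W σ h1 h2 h3 h4 P N u U ρ c m hP hd hW =>
  deg_cyc (irr_cyc K) ⟨h1, h2, h3, h4⟩ P N u U ρ c m hP hd hW

end Vale.Agent.P247C
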