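import Vale.Agent.P247C.T3
import Vale.Agent.P247.H821.Repar

/-!
# P247, block C toolkit: two parametrisations of the branches at a point
-/

set_option linter.all false

open scoped Manifold ContDiff Topology
open Set MeasureTheory Filter Metric

noncomputable section

namespace Vale.Agent.P247C

open Vale.Agent.P247.SCY Vale.Agent.P247.SCY.HS Vale.Agent.P247X
open Vale.Agent.P204.Mfd (dch dsym mdiff_chart mdiff_symm)
open Vale.Agent.P247.H821 (isPreconnected_punct image_nhds)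

variable {X : Type} [TopologicalSpace X] [ChartedSpace HS.E4 X] [IsManifold (𝓡 4) ∞ X]
  {J : EndF X}

/-- a map which factors continuously through an immersion factors differentiably -/
theorem diff_of_factor {v u : ℂ → X} {φ : ℂ → ℂ} {z₀ : ℂ}
    (hv : ContMDiffAt 𝓘(ℝ, ℂ) (𝓡 4) ∞ v (φ z₀)) (hi : ∀ a, dm v (φ z₀) a = 0 → a = 0)
    (hu : MDifferentiableAt 𝓘(ℝ, ℂ) (𝓡 4) u z₀) (hφ : ContinuousAt φ z₀)
    (he : ∀ᶠ z in 𝓝 z₀, u z = v (φ z)) : DifferentiableAt ℝ φ z₀ := by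
  have hc := chart_mem_atlas HS.E4 (v (φ z₀))
  have hs := mem_chart_source HS.E4 (v (φ z₀))
  set c := chartAt HS.E4 (v (φ z₀))
  set L := EuclideanSpace.equiv (Fin 4) ℝ
  have h1 := cd_chart hc hv hs
  have h2 : ContDiffAt ℝ 1 (fun z => L (c (v z))) (φ z₀) :=
    (L.contDiff.contDiffAt.comp _ h1).of_le (by simp)
  have h3 := L.hasFDerivAt.comp (φ z₀) (h1.differentiableAt (by simp)).hasFDerivAt
  obtain ⟨P, δ, hδ, hP⟩ := P247.H690.END.exists_local_left' h2 h3 fun a ha => by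
    have h4 : fderiv ℝ (fun y => c (v y)) (φ z₀) a = 0 := L.injective (ha.trans (map_zero L).symm)
    rw [fderiv_chart hc (hv.mdifferentiableAt (by simp)) hs] at h4
    have h5 := dsym_dch hc (c.map_source hs) (dm v (φ z₀) a)
    rw [c.left_inv hs] at h5
    exact hi a (h5.symm.trans ((congrArg (dsym c _) h4).trans (map_zero _)))
  have h4 : φ =ᶠ[𝓝 z₀] fun z => P (L (c (u z))) := by
    filter_upwards [he, hφ.eventually (ball_mem_nhds _ hδ)] with z h5 h6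
    rw [h5, (hP _ h6).1]
  have h5 : u z₀ = v (φ z₀) := he.self_of_nhds
  have h6 : DifferentiableAt ℝ (fun z => c (u z)) z₀ :=
    ((mdiff_chart hc (h5 ▸ hs)).comp z₀ hu).differentiableAt
  have h7 : DifferentiableAt ℝ P (L (c (u z₀))) := h5 ▸ (hP _ (mem_ball_self hδ)).2
  exact (DifferentiableAt.comp z₀ h7 (L.differentiableAt.comp z₀ h6)).congr_of_eventuallyEq h4

theorem dm_congr {u v : ℂ → X} {z : ℂ} (h : u =ᶠ[𝓝 z] v) (a : ℂ) :
    (dm u z a : HS.E4) = dm v z a := DFunLike.congr_fun h.mfderiv_eq a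

variable (hJ : ∀ x v, J x (J x v) = -v)
include hJ

/-- a `J`-holomorphic map which factors continuously through a `J`-holomorphic immersion factors
holomorphically -/
theorem hol_of_factor {v u : ℂ → X} {φ : ℂ → ℂ} {z₀ : ℂ}
    (hv : ContMDiffAt 𝓘(ℝ, ℂ) (𝓡 4) ∞ v (φ z₀)) (hvJ : JAt J v (φ z₀)) (hi : dm v (φ z₀) 1 ≠ 0)
    (hu : MDifferentiableAt 𝓘(ℝ, ℂ) (𝓡 4) u z₀) (huJ : JAt J u z₀) (hφ : ContinuousAt φ z₀)
    (he : ∀ᶠ z in 𝓝 z₀, u z = v (φ z)) : DifferentiableAt ℂ φ z₀ := by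
  have h3 := diff_of_factor hv (fun a => dm_inj hJ hvJ hi) hu hφ he
  rw [differentiableAt_complex_iff_differentiableAt_real]
  refine ⟨h3, ?_⟩
  have h6 : ∀ a, (dm u z₀ a : HS.E4) = dm v (φ z₀) (fderiv ℝ φ z₀ a) := fun a =>
    (dm_congr he a).trans (dm_comp h3.hasFDerivAt (hv.mdifferentiableAt (by simp)) a)
  have h7 : ∀ {x x' : X}, x = x' → ∀ a : HS.E4, (J x a : HS.E4) = J x' a := by
    rintro x _ rfl a; rfl
  have h8 : (dm v (φ z₀) (fderiv ℝ φ z₀ Complex.I) : HS.E4) =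
      dm v (φ z₀) (Complex.I * fderiv ℝ φ z₀ 1) :=
    (h6 _).symm.trans (huJ.trans ((h7 he.self_of_nhds _).trans
      ((congrArg (J (v (φ z₀))) (h6 1)).trans (J_dm hJ hvJ _))))
  rw [smul_eq_mul]
  refine sub_eq_zero.1 (dm_inj hJ hvJ hi ?_)
  exact (map_sub (mfderiv 𝓘(ℝ, ℂ) (𝓡 4) v (φ z₀)) _ _).trans (sub_eq_zero.2 h8)

variable [T2Space X] {K U U' : Set X} {x : X} {N N' : ℕ} {u : Fin N → ℂ → X} {u' : Fin N' → ℂ → X}

/-- a `J`-disc through `x` inside `K` is a holomorphic reparametrisation of a branch -/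
theorem repar_disc (h' : BrsX J K x N' u' U') {v : ℂ → X} {ρ : ℝ} (hρ : 0 < ρ)
    (hv : ContMDiffOn 𝓘(ℝ, ℂ) (𝓡 4) ∞ v (ball 0 ρ)) (hvJ : ∀ z ∈ ball (0 : ℂ) ρ, JAt J v z)
    (hv0 : v 0 = x) (hne : ∀ z ∈ ball (0 : ℂ) ρ, v z = x → z = 0)
    (hK : ∀ z ∈ ball (0 : ℂ) ρ, v z ∈ K) :
    ∃ l', ∃ r > 0, r ≤ ρ ∧ ∃ φ : ℂ → ℂ, DifferentiableOn ℂ φ (ball 0 r) ∧ φ 0 = 0 ∧
      (∀ z ∈ ball (0 : ℂ) r, φ z ∈ ball (0 : ℂ) 1) ∧ ∀ z ∈ ball (0 : ℂ) r, v z = u' l' (φ z) := by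
  have hva : ∀ z ∈ ball (0 : ℂ) ρ, ContMDiffAt 𝓘(ℝ, ℂ) (𝓡 4) ∞ v z := fun z hz =>
    hv.contMDiffAt (isOpen_ball.mem_nhds hz)
  obtain ⟨r, hr, hin'⟩ := Metric.eventually_nhds_iff_ball.1
    (((hva 0 (mem_ball_self hρ)).continuousAt.eventually
      (hv0 ▸ h'.opn.mem_nhds h'.memU : U' ∈ 𝓝 (v 0))).and (closedBall_mem_nhds 0 (half_pos hρ)))
  have hin : ∀ z ∈ ball (0 : ℂ) r, v z ∈ U' := fun z hz => (hin' z hz).1
  have hr2 : ball (0 : ℂ) r ⊆ ball 0 ρ := fun z hz =>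
    closedBall_subset_ball (half_lt_self hρ) (hin' z hz).2
  have h0r : (0 : ℂ) ∈ ball (0 : ℂ) r := mem_ball_self hr
  have hex : ∀ z : ℂ, ∃ l' w, z ∈ ball (0 : ℂ) r → (w ∈ ball (0 : ℂ) 1 ∧ u' l' w = v z) := by
    intro z
    by_cases hz : z ∈ ball (0 : ℂ) r
    · obtain ⟨l', w, hw, hwz⟩ := h'.cov (v z) (hin z hz) (hK z (hr2 hz))
      exact ⟨l', w, fun _ => ⟨hw, hwz⟩⟩
    · exact ⟨⟨0, h'.posN⟩, 0, fun h => absurd h hz⟩
  choose L φ hφ using hex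
  have hφ0 : φ 0 = 0 := h'.eq_zero (b12 (hφ 0 h0r).1) ((hφ 0 h0r).2.trans hv0)
  have hφne : ∀ z ∈ ball (0 : ℂ) r, z ≠ 0 → φ z ≠ 0 := fun z hz hz0 h1 =>
    hz0 (hne z (hr2 hz) (by rw [← (hφ z hz).2, h1, h'.zero]))
  have hloc : ∀ z₀ ∈ ball (0 : ℂ) r, z₀ ≠ 0 → ∀ δ > 0,
      ∀ᶠ z in 𝓝 z₀, z ∈ ball (0 : ℂ) r ∧ L z = L z₀ ∧ φ z ∈ ball (φ z₀) δ := by
    intro z₀ hz₀ h0 δ hδ
    obtain ⟨hm, he⟩ := hφ z₀ hz₀
    have h1 := h'.near_pt (b12 hm) (hφne z₀ hz₀ h0) (he ▸ hin z₀ hz₀) hδ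
    rw [he] at h1
    filter_upwards [isOpen_ball.mem_nhds hz₀, (hva z₀ (hr2 hz₀)).continuousAt.eventually h1]
      with z hz hzy
    exact ⟨hz, hzy.2 _ _ (b12 (hφ z hz).1) (hφ z hz).2⟩
  have hLc : ContinuousOn L (ball (0 : ℂ) r \ {0}) := by
    rintro z₀ ⟨hz₀, h0⟩
    have h1 : L =ᶠ[𝓝 z₀] fun _ => L z₀ := by
      filter_upwards [hloc z₀ hz₀ h0 1 one_pos] with z hz using hz.2.1
    exact (continuousAt_const.congr h1.symm).continuousWithinAt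
  have hhalf : (((r / 2 : ℝ) : ℂ)) ∈ ball (0 : ℂ) r \ {0} := by
    refine ⟨?_, fun h => (half_pos hr).ne' (Complex.ofReal_eq_zero.1 h)⟩
    rw [mem_ball_zero_iff, Complex.norm_real, Real.norm_eq_abs, abs_of_pos (half_pos hr)]
    exact half_lt_self hr
  set l' : Fin N' := L ((r / 2 : ℝ) : ℂ)
  have hval : ∀ z ∈ ball (0 : ℂ) r, v z = u' l' (φ z) := by
    intro z hz
    by_cases h0 : z = 0
    · rw [h0, hφ0, hv0, h'.zero]
    · have e : L z = l' := (isPreconnected_punct hr).constant hLc ⟨hz, h0⟩ hhalf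
      rw [← e]
      exact (hφ z hz).2.symm
  have hrρ : min r ρ ≤ ρ := min_le_right _ _
  have hsub : ball (0 : ℂ) (min r ρ) ⊆ ball 0 r := ball_subset_ball (min_le_left _ _)
  refine ⟨l', min r ρ, lt_min hr hρ, hrρ, φ, DifferentiableOn.mono ?_ hsub, hφ0,
    fun z hz => (hφ z (hsub hz)).1, fun z hz => hval z (hsub hz)⟩
  rw [← Complex.differentiableOn_compl_singleton_and_continuousAt_iff (isOpen_ball.mem_nhds h0r)]
  refine ⟨?_, ?_⟩
  · rintro z₀ ⟨hz₀, h0⟩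
    have hm2 := b12 (hφ z₀ hz₀).1
    refine (hol_of_factor hJ (h'.cmd l' hm2) (h'.hol l' _ hm2) (h'.imm l' _ hm2 (hφne z₀ hz₀ h0))
      ((hva z₀ (hr2 hz₀)).mdifferentiableAt (by simp)) (hvJ z₀ (hr2 hz₀)) ?_
      ?_).differentiableWithinAt
    · exact Metric.continuousAt_iff'.2 fun δ hδ => (hloc z₀ hz₀ h0 δ hδ).mono fun z hz => hz.2.2
    · filter_upwards [isOpen_ball.mem_nhds hz₀] with z hz using hval z hz
  · rw [Metric.continuousAt_iff']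
    intro δ hδ
    have h1 := h'.near_zero hδ
    rw [← hv0] at h1
    filter_upwards [isOpen_ball.mem_nhds h0r, (hva 0 (hr2 h0r)).continuousAt.eventually h1]
      with z hz hzy
    rw [hφ0]
    exact hzy.2 l' (φ z) (b12 (hφ z hz).1) (hval z hz).symm

theorem repar_one (h : BrsX J K x N u U) (h' : BrsX J K x N' u' U') (l : Fin N) :
    ∃ l', ∃ r > 0, r ≤ 1 ∧ ∃ φ : ℂ → ℂ, DifferentiableOn ℂ φ (ball 0 r) ∧
      InjOn φ (ball 0 r) ∧ φ 0 = 0 ∧ (∀ z ∈ ball (0 : ℂ) r, φ z ∈ ball (0 : ℂ) 1) ∧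
      ∀ z ∈ ball (0 : ℂ) r, u l z = u' l' (φ z) := by
  obtain ⟨l', r, hr, hr1, φ, h1, h2, h3, h4⟩ := repar_disc hJ h' one_pos ((h.smooth l).mono b12)
    (fun z hz => h.hol l z (b12 hz)) (h.zero l) (fun z hz => h.eq_zero (b12 hz))
    fun z hz => h.mem l z (b12 hz)
  have hr2 : ball (0 : ℂ) r ⊆ ball 0 2 := (ball_subset_ball hr1).trans b12
  exact ⟨l', r, hr, hr1, φ, h1, fun z hz w hw e => h.injOn l (hr2 hz) (hr2 hw)
    (by rw [h4 z hz, h4 w hw, e]), h2, h3, h4⟩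

theorem repar_inj (h : BrsX J K x N u U) (h' : BrsX J K x N' u' U') :
    ∃ (L : Fin N → Fin N') (r : ℝ) (φ : Fin N → ℂ → ℂ), Function.Injective L ∧ 0 < r ∧ r ≤ 1 ∧
      ∀ l, DifferentiableOn ℂ (φ l) (ball 0 r) ∧ InjOn (φ l) (ball 0 r) ∧ φ l 0 = 0 ∧
        (∀ z ∈ ball (0 : ℂ) r, φ l z ∈ ball (0 : ℂ) 1) ∧
        ∀ z ∈ ball (0 : ℂ) r, u l z = u' (L l) (φ l z) := by
  choose L r hr hr1 φ hd hi h0 hm hv using fun l => repar_one hJ h h' l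
  obtain ⟨ρ, hρ, hρr⟩ := Metric.mem_nhds_iff.1 ((iInter_mem (f := 𝓝 (0 : ℂ))).2
    fun l => ball_mem_nhds 0 (hr l))
  have hs : ∀ l, ball (0 : ℂ) (min ρ 1) ⊆ ball 0 (r l) := fun l =>
    ((ball_subset_ball (min_le_left _ _)).trans hρr).trans (iInter_subset _ l)
  refine ⟨L, min ρ 1, φ, fun a b hab => ?_, lt_min hρ one_pos, min_le_right _ _, fun l =>
    ⟨(hd l).mono (hs l), (hi l).mono (hs l), h0 l, fun z hz => hm l z (hs l hz),
      fun z hz => hv l z (hs l hz)⟩⟩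
  have h1 := image_nhds (hr a) (hd a) (hi a) (mem_ball_self (hr a)) (s := univ) univ_mem
  have h2 := image_nhds (hr b) (hd b) (hi b) (mem_ball_self (hr b)) (s := univ) univ_mem
  rw [h0 a, univ_inter] at h1
  rw [h0 b, univ_inter] at h2
  obtain ⟨ζ, ⟨⟨z, hz, hz1⟩, ⟨w, hw, hw1⟩⟩, h5⟩ := ((nhdsWithin_le_nhds (inter_mem h1 h2) :
    _ ∈ 𝓝[≠] (0 : ℂ)) |> fun h => Filter.nonempty_of_mem (inter_mem h self_mem_nhdsWithin))
  have hr2 : ∀ c, ball (0 : ℂ) (r c) ⊆ ball 0 2 := fun c => (ball_subset_ball (hr1 c)).trans b12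
  rcases h.inj _ _ _ (hr2 a hz) _ (hr2 b hw)
    (by rw [hv a z hz, hv b w hw, hz1, hw1, hab]) with h7 | h7
  · exact h7.1
  · rw [h7.1, h0 a] at hz1
    exact absurd hz1.symm h5

theorem card_eq (h : BrsX J K x N u U) (h' : BrsX J K x N' u' U') : N = N' := by
  obtain ⟨L, -, -, hL, -⟩ := repar_inj hJ h h'
  obtain ⟨L', -, -, hL', -⟩ := repar_inj hJ h' h
  exact le_antisymm (by simpa using Fintype.card_le_of_injective L hL)
    (by simpa using Fintype.card_le_of_injective L' hL')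

/-- `REPAR` -/
theorem repar (h : BrsX J K x N u U) (h' : BrsX J K x N' u' U') :
    ∃ (L : Fin N ≃ Fin N') (r : ℝ) (φ : Fin N → ℂ → ℂ), 0 < r ∧ r ≤ 1 ∧
      ∀ l, DifferentiableOn ℂ (φ l) (ball 0 r) ∧ InjOn (φ l) (ball 0 r) ∧ φ l 0 = 0 ∧
        (∀ z ∈ ball (0 : ℂ) r, φ l z ∈ ball (0 : ℂ) 1) ∧
        ∀ z ∈ ball (0 : ℂ) r, u l z = u' (L l) (φ l z) := by
  obtain ⟨L, r, φ, hL, h1⟩ := repar_inj hJ h h'
  exact ⟨Equiv.ofBijective L ((Fintype.bijective_iff_injective_and_card L).2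
    ⟨hL, by rw [card_eq hJ h h']⟩), r, φ, h1⟩

/-- corresponding branches have the same current near the centre -/
theorem repar_brX (h : BrsX J K x N u U) (h' : BrsX J K x N' u' U') :
    ∃ (L : Fin N ≃ Fin N') (V : Set X), IsOpen V ∧ x ∈ V ∧ V ⊆ U ∩ U' ∧
      (∀ l, ∀ z ∈ ball (0 : ℂ) 2, u l z ∈ V → ∃ w ∈ ball (0 : ℂ) 1, u l z = u' (L l) w) ∧
      ∀ φ, SuppIn φ V → ∀ l, brX (u l) φ = brX (u' (L l)) φ := by
  obtain ⟨L, r, ψ, hr, hr1, hψ⟩ := repar hJ h h'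
  have h1 : ∀ l, ψ l '' ball 0 r ∈ 𝓝 (0 : ℂ) := fun l => by
    have h2 := image_nhds hr (hψ l).1 (hψ l).2.1 (mem_ball_self hr) (s := univ) univ_mem
    rwa [(hψ l).2.2.1, univ_inter] at h2
  obtain ⟨ρ, hρ, hρr⟩ := Metric.mem_nhds_iff.1 (iInter_mem.2 h1)
  obtain ⟨V, hV, ho, hx⟩ := _root_.mem_nhds_iff.1 (inter_mem (h.near_zero hr) (h'.near_zero hρ))
  have hr2 : ball (0 : ℂ) r ⊆ ball 0 1 := ball_subset_ball hr1
  refine ⟨L, V, ho, hx, fun y hy => ⟨(hV hy).1.1, (hV hy).2.1⟩, fun l z hz e => ?_,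
    fun φ hφ l => ?_⟩
  · have h2 := (hV e).1.2 l z hz rfl
    exact ⟨_, (hψ l).2.2.2.1 z h2, (hψ l).2.2.2.2 z h2⟩
  have e1 : brX (u l) φ = ∫ z in ball (0 : ℂ) r, pull2 φ (u l) z :=
    setIntegral_eq_of_subset_of_forall_diff_eq_zero measurableSet_ball hr2 fun z hz =>
      pull2_zero (SuppIn_zero hφ fun e => hz.2 ((hV e).1.2 l z (b12 hz.1) rfl))
  have e2 : brX (u' (L l)) φ = ∫ z in ψ l '' ball 0 r, pull2 φ (u' (L l)) z :=
    setIntegral_eq_of_subset_of_forall_diff_eq_zero measurableSet_ball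
      (image_subset_iff.2 (hψ l).2.2.2.1) fun z hz => pull2_zero (SuppIn_zero hφ fun e =>
        hz.2 (iInter_subset _ l (hρr ((hV e).2.2 _ z (b12 hz.1) rfl))))
  rw [e1, e2, int_comp φ measurableSet_ball (fun z hz =>
    ((hψ l).1.differentiableAt (isOpen_ball.mem_nhds hz)).hasDerivAt) (hψ l).2.1
    fun z hz => h'.md _ (b12 ((hψ l).2.2.2.1 z hz))]
  refine setIntegral_congr_fun measurableSet_ball fun z hz => pull2_congr ?_
  filter_upwards [isOpen_ball.mem_nhds hz] with y hy using (hψ l).2.2.2.2 y hy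

/-- at a regular point every branch structure has one immersed branch -/
theorem regPt_one (h : BrsX J K x N u U) (hr : RegPt J K x) : N = 1 ∧ ∀ l, dm (u l) 0 1 ≠ 0 := by
  obtain ⟨v, V, hv, h0⟩ := hr
  refine ⟨card_eq hJ h hv, fun l hl => h0 ?_⟩
  obtain ⟨L, r, φ, hr, -, hφ⟩ := repar hJ hv h
  have hL : L 0 = l := Fin.ext (by
    have h1 := (L 0).2
    have h2 := l.2
    have h3 := card_eq hJ h hv
    omega)
  obtain ⟨h1, -, h2, -, h3⟩ := hφ 0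
  have h4 : v 0 =ᶠ[𝓝 0] fun z => u l (φ 0 z) := by
    filter_upwards [ball_mem_nhds 0 hr] with z hz using hL ▸ h3 z hz
  have h5 := (h1.differentiableAt (ball_mem_nhds 0 hr)).hasDerivAt
  have h6 : ∀ a, (dm (u l) 0 a : HS.E4) = 0 := fun a => by
    have h7 := h.hol l 0 (mem_ball_self two_pos)
    unfold JAt at h7
    rw [dm_expand, h7, hl, map_zero, smul_zero, smul_zero, add_zero]
  have h7 : ∀ z, z = 0 → ∀ a, (dm (u l) z a : HS.E4) = 0 := by rintro _ rfl; exact h6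
  exact (dm_congr h4 1).trans ((dm_comp (hasF_mulC h5)
    (h.md l (by rw [h2]; exact mem_ball_self two_pos)) 1).trans (h7 _ h2 _))

end Vale.Agent.P247C
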