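import Vale.Agent.P247C.Defs
import Vale.Agent.P247C.T4

/-!
# P247, block C: rows FIN and TRA
-/

set_option linter.all false

open scoped Manifold ContDiff Topology
open Set MeasureTheory Filter Metric

noncomputable section

namespace Vale.Agent.P247C

open Vale.Agent.P247.SCY Vale.Agent.P247.SCY.HS Vale.Agent.P247X

namespace FinH

section fin

variable {X : Type} [TopologicalSpace X] [ChartedSpace HS.E4 X] [T2Space X] {J : EndF X}
  {K K' U : Set X} {x : X} {N : ℕ} {u : Fin N → ℂ → X}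

theorem jbr (h : BrsX J K x N u U) (l : Fin N) : JBr J x (u l) :=
  ⟨h.smooth l, h.hol l, h.zero l, h.injOn l⟩

theorem ev_of_brs (h : BrsX J K x N u U) {P : X → Prop} (hP : ∀ l, ∀ᶠ z in 𝓝[≠] (0 : ℂ), P (u l z)) :
    ∀ᶠ y in 𝓝[≠] x, y ∈ K → P y := by
  obtain ⟨δ, hδ, hb⟩ := Metric.eventually_nhds_iff_ball.1
    (eventually_all.2 fun l => eventually_nhdsWithin_iff.1 (hP l))
  filter_upwards [nhdsWithin_le_nhds (eventually_nhdsWithin_iff.1 (h.iUnion_mem hδ)),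
    self_mem_nhdsWithin] with y hy hne hK
  obtain ⟨l, z, hz, rfl⟩ := mem_iUnion.1 (hy hK)
  exact hb z hz l fun e => hne (by rw [show z = 0 from e, h.zero]; rfl)

theorem tendsto_brs (h : BrsX J K x N u U) (l : Fin N) : Tendsto (u l) (𝓝[≠] 0) (𝓝[≠] x) := by
  refine tendsto_nhdsWithin_iff.2 ⟨?_, ?_⟩
  · rw [← h.zero l]
    exact (h.cmd l (mem_ball_self two_pos)).continuousAt.tendsto.mono_left nhdsWithin_le_nhds
  · filter_upwards [nhdsWithin_le_nhds (ball_mem_nhds (0 : ℂ) two_pos), self_mem_nhdsWithin]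
      with z hz h0 e
    exact h0 (h.eq_zero hz e)

theorem mem_brs (h : BrsX J K x N u U) (l : Fin N) : ∀ᶠ z in 𝓝[≠] (0 : ℂ), u l z ∈ K :=
  nhdsWithin_le_nhds (mem_of_superset (ball_mem_nhds (0 : ℂ) two_pos) fun z hz => h.mem l z hz)

end fin

theorem sub_of_inf (hDI : DI) {X : Type} [Cl4 X] {μ : Form X 4} (hμ : Volume μ) {w : Tri X}
    (hw : Hypersymplectic μ w) (K K' : Irr (Jw w)) (hinf : (K.K ∩ K'.K).Infinite) :
    K'.K ⊆ K.K := by
  have hcl := K.cpt.isClosed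
  have di : ∀ x ∈ K.K, ∀ v, JBr (Jw w) x v →
      (∀ᶠ z in 𝓝[≠] (0 : ℂ), v z ∉ K.K) ∨ ∀ᶠ z in 𝓝 (0 : ℂ), v z ∈ K.K := fun x hx v hv => by
    obtain ⟨N, u, U, h, -⟩ := K.loc x hx
    exact hDI X μ hμ w hw K.K x N u U h v hv
  let A : Set X := {x | ∀ᶠ y in 𝓝[≠] x, y ∈ K'.K → y ∈ K.K}
  let B : Set X := {x | ∀ᶠ y in 𝓝[≠] x, y ∈ K'.K → y ∉ K.K}
  have hA : IsOpen A := isOpen_setOf_eventually_nhdsWithin
  have hB : IsOpen B := isOpen_setOf_eventually_nhdsWithin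
  have hne : ∃ x, (x ∈ K'.K ∧ RegPt (Jw w) K'.K x) ∧ x ∈ A := by
    obtain ⟨p, hp, hacc⟩ := hinf.exists_accPt_of_subset_isCompact (K.cpt.inter K'.cpt) subset_rfl
    obtain ⟨N, u, U, h, -⟩ := K'.loc p hp.2
    have : ∃ l, ∀ᶠ z in 𝓝 (0 : ℂ), u l z ∈ K.K := by
      by_contra hn
      push Not at hn
      have h1 := ev_of_brs h (P := fun y => y ∉ K.K) fun l =>
        (di p hp.1 _ (jbr h l)).resolve_right (by simpa using hn l)
      obtain ⟨y, hy, hy'⟩ := ((accPt_iff_frequently_nhdsNE.1 hacc).and_eventually h1).exists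
      exact hy' hy.2 hy.1
    obtain ⟨l, hl⟩ := this
    have hU : ∀ᶠ z in 𝓝[≠] (0 : ℂ), u l z ∈ U :=
      (tendsto_brs h l).eventually (nhdsWithin_le_nhds (h.opn.mem_nhds h.memU))
    obtain ⟨z, ⟨⟨h1, h2⟩, h3⟩, h4⟩ := (((hU.and (nhdsWithin_le_nhds hl.eventually_nhds)).and
      (nhdsWithin_le_nhds (ball_mem_nhds (0 : ℂ) two_pos))).and self_mem_nhdsWithin).exists
    obtain ⟨δ, hδ, hb⟩ := Metric.eventually_nhds_iff_ball.1 h2
    refine ⟨u l z, ⟨h.mem l z h3, h.regPt h3 h4 h1⟩, ?_⟩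
    filter_upwards [nhdsWithin_le_nhds (eventually_nhdsWithin_iff.1 (h.image_mem h3 h4 h1 hδ))]
      with y hy hK
    obtain ⟨t, ht, rfl⟩ := hy hK
    exact hb t ht
  have hsub : {x | x ∈ K'.K ∧ RegPt (Jw w) K'.K x} ⊆ A := by
    have := (isPreconnected_iff_subset_of_disjoint.1 K'.irr) A B hA hB ?_ ?_
    · refine this.resolve_right fun hb => ?_
      obtain ⟨x, hx, hxA⟩ := hne
      obtain ⟨u, U, h, -⟩ := hx.2
      obtain ⟨z, ⟨h1, h2⟩, h3⟩ := ((((tendsto_brs h 0).eventually hxA).and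
        ((tendsto_brs h 0).eventually (hb hx))).and (mem_brs h 0)).exists
      exact h2 h3 (h1 h3)
    · rintro x ⟨hx, u, U, h, -⟩
      by_cases hK : x ∈ K.K
      · rcases di x hK _ (jbr h 0) with h1 | h1
        · exact Or.inr (ev_of_brs h fun l => by rwa [Subsingleton.elim l 0])
        · exact Or.inl (ev_of_brs h fun l => by
            rw [Subsingleton.elim l 0]; exact nhdsWithin_le_nhds h1)
      · exact Or.inr (nhdsWithin_le_nhds
          (mem_of_superset (hcl.isOpen_compl.mem_nhds hK) fun y hy _ => hy))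
    · refine eq_empty_iff_forall_notMem.2 ?_
      rintro x ⟨⟨-, u, U, h, -⟩, hxA, hxB⟩
      obtain ⟨z, ⟨h1, h2⟩, h3⟩ := ((((tendsto_brs h 0).eventually hxA).and
        ((tendsto_brs h 0).eventually hxB)).and (mem_brs h 0)).exists
      exact h2 h3 (h1 h3)
  have hlim : ∀ {x : X} {N : ℕ} {u : Fin N → ℂ → X} {U : Set X}, BrsX (Jw w) K'.K x N u U →
      ∀ l, (∀ᶠ z in 𝓝[≠] (0 : ℂ), u l z ∈ K.K) → x ∈ K.K := fun h l hl =>
    hcl.mem_of_tendsto ((tendsto_brs h l).mono_right nhdsWithin_le_nhds) hl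
  have hreg : ∀ x, x ∈ K'.K → RegPt (Jw w) K'.K x → x ∈ K.K := fun x hx hr => by
    obtain ⟨u, U, h, -⟩ := id hr
    refine hlim h 0 ?_
    filter_upwards [(tendsto_brs h 0).eventually (hsub ⟨hx, hr⟩), mem_brs h 0] with z h1 h2
    exact h1 h2
  intro x hx
  obtain ⟨N, u, U, h, -⟩ := K'.loc x hx
  refine hlim h ⟨0, h.posN⟩ ?_
  filter_upwards [(tendsto_brs h _).eventually (nhdsWithin_le_nhds (h.opn.mem_nhds h.memU)),
    nhdsWithin_le_nhds (ball_mem_nhds (0 : ℂ) two_pos), self_mem_nhdsWithin] with z h1 h2 h3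
  exact hreg _ (h.mem _ z h2) (h.regPt h2 h3 h1)

/-! ## Linear algebra -/

section lin

variable (B : HS.E4 [⋀^Fin 2]→L[ℝ] ℝ) (J : HS.E4 →L[ℝ] HS.E4)

theorem swap (x y : HS.E4) : B ![x, y] = - B ![y, x] := by
  have := alt2_lin B y x 0 1 1 0
  simpa using this

theorem self (x : HS.E4) : B ![x, x] = 0 := by linarith [swap B x x]

/-- the second slot -/
def snd (a : HS.E4) : HS.E4 →ₗ[ℝ] ℝ where
  toFun v := B ![a, v]
  map_add' x y := by
    have : B ![x + y, a] = B ![x, a] + B ![y, a] := B.toAlternatingMap.map_vecCons_add ![a] x y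
    rw [swap B a, swap B a x, swap B a y, this]
    ring
  map_smul' r x := by
    have : B ![r • x, a] = r * B ![x, a] := B.toAlternatingMap.map_vecCons_smul ![a] r x
    rw [swap B a, swap B a x, this]
    simp

theorem snd_lin (a x y : HS.E4) (r s : ℝ) : B ![a, r • x + s • y] = r * B ![a, x] + s * B ![a, y] := by
  have := (snd B a).map_add (r • x) (s • y)
  rwa [map_smul, map_smul] at this

variable {B J} (hJ : ∀ v, J (J v) = -v) (hB : ∀ u v, B ![J u, J v] = - B ![u, v])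
include hJ hB

theorem self_J (a : HS.E4) : B ![a, J a] = 0 := by
  have h1 := hB a (J a)
  have h2 := snd_lin B (J a) a a (-1) 0
  rw [hJ, show -a = (-1 : ℝ) • a + (0 : ℝ) • a by simp, h2, swap B (J a)] at h1
  linarith

theorem span_of (hn : ∀ v, v ≠ 0 → ∃ v', B ![v, v'] ≠ 0) {a a' : HS.E4} (ha : a ≠ 0)
    (h1 : B ![a, a'] = 0) (h2 : B ![a, J a'] = 0) : ∃ r s : ℝ, a' = r • a + s • J a := by
  by_contra hc
  push Not at hc
  have hli : LinearIndependent ℝ ![a, J a, a', J a'] := by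
    rw [Fintype.linearIndependent_iff]
    intro g hg
    simp only [Fin.sum_univ_four, Matrix.cons_val_zero, Matrix.cons_val_one, Matrix.cons_val] at hg
    have hg' := congrArg J hg
    simp only [map_add, map_smul, hJ, map_zero] at hg'
    have e1 : g 2 ^ 2 + g 3 ^ 2 = 0 := by
      by_contra hne
      refine hc (-(g 2 * g 0 + g 3 * g 1) / (g 2 ^ 2 + g 3 ^ 2))
        (-(g 2 * g 1 - g 3 * g 0) / (g 2 ^ 2 + g 3 ^ 2)) ?_
      apply smul_right_injective _ hne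
      simp only [smul_add, smul_smul, mul_div_cancel₀ _ hne]
      linear_combination (norm := module) g 2 • hg - g 3 • hg'
    have e2 : g 2 = 0 := by nlinarith [sq_nonneg (g 2), sq_nonneg (g 3)]
    have e3 : g 3 = 0 := by nlinarith [sq_nonneg (g 2), sq_nonneg (g 3)]
    rw [e2, e3] at hg hg'
    have e4 : (g 0 ^ 2 + g 1 ^ 2) • a = 0 := by
      linear_combination (norm := module) g 0 • hg - g 1 • hg'
    have e5 := (smul_eq_zero.1 e4).resolve_right ha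
    intro i
    fin_cases i
    · show g 0 = 0
      nlinarith [sq_nonneg (g 0), sq_nonneg (g 1)]
    · show g 1 = 0
      nlinarith [sq_nonneg (g 0), sq_nonneg (g 1)]
    · exact e2
    · exact e3
  have hsp := hli.span_eq_top_of_card_eq_finrank' (by simp)
  obtain ⟨v, hv⟩ := hn a ha
  have : snd B a = 0 := LinearMap.ext_on_range hsp fun i => by
    fin_cases i
    exacts [self B a, self_J hJ hB a, h1, h2]
  exact hv (LinearMap.congr_fun this v)

end lin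

/-- `Jw` as an endomorphism of the model space -/
def JE {X : Type} [Cl4 X] (w : Tri X) (x : X) : HS.E4 →L[ℝ] HS.E4 := Jw w x

section tra

variable {X : Type} [Cl4 X] {μ : Form X 4} {w : Tri X} (hw : Hypersymplectic μ w)
  {K U : Set X} {p : X} {N : ℕ} {u : Fin N → ℂ → X}
include hw

theorem w0_anti (x : X) (a v : HS.E4) : w 0 x ![Jw w x a, Jw w x v] = - w 0 x ![a, v] :=
  Jf_anti_B (defAt hw) x a v

theorem w0_nondeg (x : X) (v : HS.E4) (hv : v ≠ 0) : ∃ v' : HS.E4, w 0 x ![v, v'] ≠ 0 :=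
  ⟨_, (Jf_tames' (defAt_of_triPos (tri_of_posDef hw.posDef)) x v hv).ne'⟩

/-- `OmX` is `J`-linear in the second slot -/
theorem omX_smul (x : X) (a v : HS.E4) (c : ℂ) :
    OmX w x a (c.re • v + c.im • JE w x v : HS.E4) = c * OmX w x a v := by
  have h1 : JE w x (c.re • v + c.im • JE w x v) = c.re • JE w x v + (-c.im) • v := by
    have : JE w x (JE w x v) = -v := jw_sq hw x v
    rw [map_add, map_smul, map_smul, this, smul_neg, neg_smul]
  have key : ∀ B : HS.E4 [⋀^Fin 2]→L[ℝ] ℝ,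
      ((B ![a, c.re • v + c.im • JE w x v] : ℝ) : ℂ) -
        Complex.I * ((B ![a, JE w x (c.re • v + c.im • JE w x v)] : ℝ) : ℂ) =
      c * (((B ![a, v] : ℝ) : ℂ) - Complex.I * ((B ![a, JE w x v] : ℝ) : ℂ)) := fun B => by
    rw [h1, snd_lin, snd_lin]
    conv_rhs => rw [← Complex.re_add_im c]
    push_cast
    linear_combination ((c.im : ℂ) * (B ![a, JE w x v] : ℝ)) * Complex.I_mul_I
  exact key (w 0 x)

theorem omX_self (x : X) (a : HS.E4) : OmX w x a a = 0 := by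
  have h1 := self (w 0 x) a
  have h2 := self_J (B := w 0 x) (J := Jw w x) (jw_sq hw x) (w0_anti hw x) a
  unfold OmX
  erw [h1, h2]
  simp

theorem omX_zero (x : X) {a a' : HS.E4} (ha : a ≠ 0) (h : OmX w x a a' = 0) :
    ∃ c : ℂ, a' = c.re • a + c.im • JE w x a := by
  have h1 := congrArg Complex.re h
  have h2 := congrArg Complex.im h
  simp [OmX] at h1 h2
  obtain ⟨r, s, e⟩ := span_of (B := w 0 x) (J := JE w x) (jw_sq hw x) (w0_anti hw x)
    (w0_nondeg hw x) ha h1 h2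
  exact ⟨⟨r, s⟩, e⟩

omit hw in
theorem dm_brs (h : BrsX (Jw w) K p N u U) (l : Fin N) (c : ℂ) {a : HS.E4} (ha : a = dm (u l) 0 1) :
    @Eq HS.E4 (dm (u l) 0 c) (c.re • a + c.im • JE w p a) := by
  have h1 : @Eq HS.E4 (dm (u l) 0 Complex.I) (JE w p a) := by
    rw [← h.zero l, ha]
    exact h.hol l 0 (mem_ball_self two_pos)
  rw [← h1, ha]
  exact dm_expand (u l) 0 c

omit hw in
theorem vel_line (h : BrsX (Jw w) K p N u U) (l : Fin N) (c : ℂ) :
    MDifferentiableAt 𝓘(ℝ, ℝ) (𝓡 4) (fun t : ℝ => u l (t * c)) 0 ∧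
    (mfderiv 𝓘(ℝ, ℝ) (𝓡 4) (fun t : ℝ => u l (t * c)) 0 (1 : ℝ) : HS.E4) = dm (u l) 0 c ∧
    ∀ᶠ t : ℝ in 𝓝 0, u l (t * c) ∈ K := by
  have h1 : HasFDerivAt (fun t : ℝ => (t : ℂ) * c) (ContinuousLinearMap.toSpanSingleton ℝ c) 0 := by
    have := (Complex.ofRealCLM.hasDerivAt (x := 0)).mul_const c
    simpa using this.hasFDerivAt
  have h2 : ∀ z : ℂ, z = 0 → HasMFDerivAt 𝓘(ℝ, ℂ) (𝓡 4) (u l) z (mfderiv 𝓘(ℝ, ℂ) (𝓡 4) (u l) 0) := by
    rintro _ rfl
    exact (h.md l (mem_ball_self two_pos)).hasMFDerivAt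
  have h3 := (h2 (((0 : ℝ) : ℂ) * c) (by simp)).comp 0 h1.hasMFDerivAt
  refine ⟨h3.mdifferentiableAt, ?_, ?_⟩
  · refine (DFunLike.congr_fun h3.mfderiv (1 : ℝ)).trans ?_
    show mfderiv 𝓘(ℝ, ℂ) (𝓡 4) (u l) 0 (ContinuousLinearMap.toSpanSingleton ℝ c 1) = _
    rw [ContinuousLinearMap.toSpanSingleton_apply, one_smul]
  · have : ∀ᶠ t : ℝ in 𝓝 0, (t : ℂ) * c ∈ ball (0 : ℂ) 2 :=
      h1.continuousAt.eventually (isOpen_ball.mem_nhds (by simp))
    exact this.mono fun t ht => h.mem l _ ht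

/-- the velocity of a curve in `K` is tangent -/
theorem vel_tangent {u : Fin 1 → ℂ → X} (h : BrsX (Jw w) K p 1 u U) (h0 : dm (u 0) 0 1 ≠ 0)
    {γ : ℝ → X} (hp : γ 0 = p) (hγ : MDifferentiableAt 𝓘(ℝ, ℝ) (𝓡 4) γ 0)
    (hK : ∀ᶠ t in 𝓝 (0 : ℝ), γ t ∈ K) :
    ∃ c : ℂ, (mfderiv 𝓘(ℝ, ℝ) (𝓡 4) γ 0 (1 : ℝ) : HS.E4) = dm (u 0) 0 c := by
  have h1 : ∀ t : ℝ, t = 0 → HasMFDerivAt 𝓘(ℝ, ℝ) (𝓡 4) γ t (mfderiv 𝓘(ℝ, ℝ) (𝓡 4) γ 0) := by
    rintro _ rfl
    exact hγ.hasMFDerivAt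
  have h2 := (h1 (Complex.reCLM 0) rfl).comp (0 : ℂ) Complex.reCLM.hasFDerivAt.hasMFDerivAt
  set Γ : ℂ → X := γ ∘ Complex.reCLM with hΓ
  have hΓ0 : Γ 0 = p := hp
  have hK' : ∀ᶠ z in 𝓝 (0 : ℂ), Γ z ∈ K :=
    (Complex.reCLM.continuous.tendsto' 0 0 rfl).eventually hK
  have hex : ∀ z : ℂ, ∃ t, Γ z ∈ U → Γ z ∈ K → t ∈ ball (0 : ℂ) 1 ∧ u 0 t = Γ z := fun z => by
    by_cases hz : Γ z ∈ U ∧ Γ z ∈ K
    · obtain ⟨l, t, ht, e⟩ := h.cov _ hz.1 hz.2
      exact ⟨t, fun _ _ => ⟨ht, Subsingleton.elim l 0 ▸ e⟩⟩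
    · exact ⟨0, fun a b => (hz ⟨a, b⟩).elim⟩
  choose φ hφ using hex
  have hc := h2.continuousAt
  have hφ0 : φ 0 = 0 := by
    obtain ⟨a, b⟩ := hφ 0 (hΓ0 ▸ h.memU) (hΓ0 ▸ h.memK)
    exact h.eq_zero (b12 a) (b.trans hΓ0)
  have hφc : ContinuousAt φ 0 := Metric.continuousAt_iff'.2 fun δ hδ => by
    filter_upwards [hK', hc.eventually (hΓ0 ▸ h.near_zero hδ)] with z a b
    rw [hφ0]
    exact b.2 0 (φ z) (b12 (hφ z b.1 a).1) (hφ z b.1 a).2
  have he : ∀ᶠ z in 𝓝 (0 : ℂ), Γ z = u 0 (φ z) := by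
    filter_upwards [hK', hc.eventually (hΓ0 ▸ h.opn.mem_nhds h.memU)] with z a b
    exact (hφ z b a).2.symm
  have hb : φ 0 ∈ ball (0 : ℂ) 2 := by rw [hφ0]; exact mem_ball_self two_pos
  have hd := diff_of_factor (h.cmd 0 hb)
    (fun a => dm_inj (jw_sq hw) (h.hol 0 _ hb) (by rw [hφ0]; exact h0)) h2.mdifferentiableAt hφc he
  have h7 : ∀ z, z = 0 → ∀ a, (dm (u 0) z a : HS.E4) = dm (u 0) 0 a := by rintro _ rfl a; rfl
  refine ⟨fderiv ℝ φ 0 1, ?_⟩
  refine Eq.trans ?_ (((dm_congr he 1).trans (dm_comp hd.hasFDerivAt (h.md 0 hb) 1)).trans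
    (h7 _ hφ0 _))
  exact (DFunLike.congr_fun h2.mfderiv (1 : ℂ)).symm

end tra

end FinH

open FinH in
theorem fin_of (hDI : DI) : FIN := fun X _ μ hμ w hw K K' hne => by
  by_contra hinf
  exact hne (Subset.antisymm (sub_of_inf hDI hμ hw K' K (inter_comm _ _ ▸ hinf))
    (sub_of_inf hDI hμ hw K K' hinf))

open FinH in
theorem tra : TRA := fun X _ μ hμ w hw => by
  refine ⟨fun K K' p u u' U U' h h' h0 h0' a a' ha ha' => ⟨fun hT hO => ?_, fun hO => ?_⟩,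
    fun K p N u U h hr => regPt_one (jw_sq hw) h hr⟩
  · obtain ⟨c, hc⟩ := omX_zero hw p (ha ▸ h0) hO
    obtain ⟨a1, a2, a3⟩ := vel_line h 0 c
    obtain ⟨b1, b2, b3⟩ := vel_line h' 0 1
    have e : (dm (u 0) 0 c : HS.E4) = dm (u' 0) 0 1 := (dm_brs h 0 c ha).trans (hc.symm.trans ha')
    have := hT _ _ (by simp [h.zero]) (by simp [h'.zero]) a1 b1 a3 b3 (a2.trans (e.trans b2.symm))
    exact h0' (e.symm.trans (a2.symm.trans this))
  · intro γ γ' g0 g0' d d' k k' e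
    obtain ⟨c, hc⟩ := vel_tangent hw h h0 g0 d k
    obtain ⟨c', hc'⟩ := vel_tangent hw h' h0' g0' d' k'
    have e1 : c.re • a + c.im • JE w p a = c'.re • a' + c'.im • JE w p a' :=
      (dm_brs h 0 c ha).symm.trans (hc.symm.trans (e.trans (hc'.trans (dm_brs h' 0 c' ha'))))
    have e2 := omX_smul hw p a a c
    rw [e1, omX_smul hw, omX_self hw, mul_zero] at e2
    have e3 := (mul_eq_zero.1 e2).resolve_right hO
    refine e.trans (hc'.trans ((dm_brs h' 0 c' ha').trans ?_))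
    exact (by simp [e3] : c'.re • a' + c'.im • JE w p a' = (0 : HS.E4))

end Vale.Agent.P247C
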