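import Vale.Agent.P247C.Small
import Vale.Agent.P247M.LBOps

/-!
# P247, block C, row LBC: a hermitian line bundle with connection from a cocycle
-/

set_option linter.all false

open scoped Manifold ContDiff Topology
open Set Filter Metric

noncomputable section

namespace Vale.Agent.P247C

open Vale.Agent.P247.SCY Vale.Agent.P247.SCY.HS Vale.Agent.P247X Vale.Agent.P247M
open Vale.Agent.P267.H175 (SmAt dF)
open Vale.Agent.P267

variable {X : Type} [Cl4 X]

/-- the one-form `Im (conj g * d g)` -/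
def dArg (g : X → ℂ) : RF X 1 :=
  (fun y => (g y).re • d0 (fun z => (g z).im) y) - fun y => (g y).im • d0 (fun z => (g z).re) y

theorem dArg_apply {g : X → ℂ} {x : X} (h : SmC g x) (v : E4) :
    dArg g x ![v] = ((starRingEnd ℂ) (g x) * dfc g x v).im := by
  show (g x).re * Df (fun z => (g z).im) x v - (g x).im * Df (fun z => (g z).re) x v = _
  rw [Df_re h, Df_im h, Complex.mul_im, Complex.conj_re, Complex.conj_im]
  ring

theorem smAt_dArg {g : X → ℂ} {V : Set X} (hV : IsOpen V) (h : ∀ y ∈ V, SmC g y) {x : X}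
    (hx : x ∈ V) : SmAt (dArg g) x :=
  smAt_sub (smAt_fsmul (h x hx).re (smAt_d0 hV (fun y hy => (h y hy).im) hx))
    (smAt_fsmul (h x hx).im (smAt_d0 hV (fun y hy => (h y hy).re) hx))

theorem dF_dArg {g : X → ℂ} {V : Set X} (hV : IsOpen V) (h : ∀ y ∈ V, SmC g y)
    (n : ∀ y ∈ V, ‖g y‖ = 1) {x : X} (hx : x ∈ V) : dF (dArg g) x = 0 := by
  have s1 := smAt_d0 hV (fun y hy => (h y hy).im) hx
  have s2 := smAt_d0 hV (fun y hy => (h y hy).re) hx
  have n1 : ∀ y ∈ V, (g y).re * (g y).re + (g y).im * (g y).im = 1 := fun y hy => by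
    rw [← Complex.normSq_apply, Complex.normSq_eq_norm_sq, n y hy, one_pow]
  have n2 : Df (fun y => (g y).re * (g y).re + (g y).im * (g y).im) x = 0 :=
    Df_of_const (c := 1) (by filter_upwards [hV.mem_nhds hx] with y hy using n1 y hy)
  have m1 : SmF (fun y => (g y).re * (g y).re) x := (h x hx).re.mul (h x hx).re
  have m2 : SmF (fun y => (g y).im * (g y).im) x := (h x hx).im.mul (h x hx).im
  rw [Df_add m1 m2, Df_mul (h x hx).re (h x hx).re, Df_mul (h x hx).im (h x hx).im] at n2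
  have n3 : ∀ u : E4, (g x).re * Df (fun y => (g y).re) x u + (g x).re * Df (fun y => (g y).re) x u
      + ((g x).im * Df (fun y => (g y).im) x u + (g x).im * Df (fun y => (g y).im) x u) = 0 :=
    fun u => congrArg (fun L : E4 →L[ℝ] ℝ => L u) n2
  rw [dArg, dF_sub (smAt_fsmul (h x hx).re s1) (smAt_fsmul (h x hx).im s2),
    dF_fsmul (h x hx).re s1, dF_fsmul (h x hx).im s2, dF_d0 hV (fun y hy => (h y hy).im) hx,
    dF_d0 hV (fun y hy => (h y hy).re) hx, smul_zero, smul_zero, add_zero, add_zero, sub_eq_zero]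
  refine alt2_ext fun u v => ?_
  rw [d0, d0, wd_one, wd_one]
  have a1 := n3 u
  have a2 := n3 v
  have a3 := n1 x hx
  generalize Df (fun y => (g y).re) x u = a at *
  generalize Df (fun y => (g y).re) x v = b at *
  generalize Df (fun y => (g y).im) x u = c at *
  generalize Df (fun y => (g y).im) x v = d at *
  linear_combination (-2 * (a * d - b * c)) * a3 + ((g x).re * d - (g x).im * b) * a1 +
    ((g x).im * a - (g x).re * c) * a2

theorem smC_unit {G : X → ℂ} {x : X} (h : SmC G x) (h0 : G x ≠ 0) :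
    SmC (fun y => G y / (‖G y‖ : ℂ)) x := by
  have h1 : ContDiffAt ℝ ∞ (fun z : ℂ => z / (‖z‖ : ℂ)) (G x) := by
    have h2 : ContDiffAt ℝ ∞ (fun z : ℂ => ((‖z‖⁻¹ : ℝ) : ℂ)) (G x) :=
      Complex.ofRealCLM.contDiff.contDiffAt.comp _
        ((contDiffAt_norm ℝ h0).inv (norm_ne_zero_iff.2 h0))
    have h3 : ContDiffAt ℝ ∞ (fun z : ℂ => z * ((‖z‖⁻¹ : ℝ) : ℂ)) (G x) := contDiffAt_id.mul h2
    simpa only [div_eq_mul_inv, Complex.ofReal_inv] using h3
  exact h1.comp_contMDiffAt h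

/-- a unitary cocycle carries a connection -/
theorem exists_conn {I : Type} [Fintype I] (U : I → Set X) (opn : ∀ i, IsOpen (U i))
    (cov : ∀ x, ∃ i, x ∈ U i) (g : I → I → X → ℂ) (sm : ∀ i j, ∀ x ∈ U i ∩ U j, SmC (g i j) x)
    (nm : ∀ i j, ∀ x ∈ U i ∩ U j, ‖g i j x‖ = 1)
    (co : ∀ i j k, ∀ x ∈ U i ∩ U j ∩ U k, g i j x * g j k x = g i k x) :
    ∃ A : I → RF X 1, (∀ i, ∀ x ∈ U i, SmAt (A i) x) ∧
      ∀ i j, ∀ x ∈ U i ∩ U j, A i x = A j x + dArg (g i j) x := by
  obtain ⟨ρ, hρ⟩ := SmoothPartitionOfUnity.exists_isSubordinate (𝓡 4) (isClosed_univ (X := X))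
    U opn fun y _ => mem_iUnion.2 (cov y)
  refine ⟨fun i => ∑ j, fun y => ρ j y • dArg (g i j) y, fun i x hx => smAt_sum _ fun j _ =>
    smAt_cut ((ρ j).contMDiff x) fun h => smAt_dArg ((opn i).inter (opn j)) (sm i j) ⟨hx, hρ j h⟩,
    fun i k x hx => ?_⟩
  have h1 := ρ.sum_eq_one (mem_univ x)
  rw [finsum_eq_sum_of_fintype] at h1
  have h2 : ∀ j, ρ j x • dArg (g i j) x = ρ j x • dArg (g k j) x + ρ j x • dArg (g i k) x := by
    intro j
    by_cases hj : x ∈ U j
    · rw [← smul_add]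
      congr 1
      refine alt1_ext fun v => ?_
      have h3 : g i j =ᶠ[𝓝 x] fun y => g i k y * g k j y := by
        filter_upwards [(((opn i).inter (opn k)).inter (opn j)).mem_nhds ⟨hx, hj⟩] with y hy
        exact (co i k j y hy).symm
      rw [ContinuousAlternatingMap.add_apply, dArg_apply (sm i j x ⟨hx.1, hj⟩),
        dArg_apply (sm k j x ⟨hx.2, hj⟩), dArg_apply (sm i k x hx), dfc_congr h3,
        ← co i k j x ⟨hx, hj⟩, dlog_mul (sm i k x hx) (sm k j x ⟨hx.2, hj⟩) (nm i k x hx)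
          (nm k j x ⟨hx.2, hj⟩), Complex.add_im, add_comm]
    · rw [image_eq_zero_of_notMem_tsupport fun h => hj (hρ j h), zero_smul, zero_smul, zero_smul,
        add_zero]
  simp only [Finset.sum_apply]
  rw [Finset.sum_congr rfl fun j _ => h2 j, Finset.sum_add_distrib, ← Finset.sum_smul, h1, one_smul]

theorem lbc : LBC := by
  intro X _ I _ U G opn cov sm ne co
  have sm' : ∀ i j, ∀ x ∈ U i ∩ U j, SmC (fun y => G i j y / (‖G i j y‖ : ℂ)) x := fun i j x hx =>
    smC_unit ((sm i j).contMDiffAt (((opn i).inter (opn j)).mem_nhds hx)) (ne i j x hx)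
  have nm : ∀ i j, ∀ x ∈ U i ∩ U j, ‖G i j x / (‖G i j x‖ : ℂ)‖ = 1 := fun i j x hx => by
    rw [norm_div, Complex.norm_real, norm_norm, div_self (norm_ne_zero_iff.2 (ne i j x hx))]
  have co' : ∀ i j k, ∀ x ∈ U i ∩ U j ∩ U k, G i j x / (‖G i j x‖ : ℂ) * (G j k x / (‖G j k x‖ : ℂ))
      = G i k x / (‖G i k x‖ : ℂ) := fun i j k x hx => by
    rw [← co i j k x hx, norm_mul, Complex.ofReal_mul, div_mul_div_comm]
  obtain ⟨A, hA, tr⟩ := exists_conn U opn cov (fun i j y => G i j y / (‖G i j y‖ : ℂ)) sm' nm co'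
  choose c hc using cov
  have hd : ∀ i j, ∀ x ∈ U i ∩ U j, dF (A i) x = dF (A j) x := fun i j x hx => by
    have ho := (opn i).inter (opn j)
    have h1 : A i =ᶠ[𝓝 x] A j + dArg fun y => G i j y / (‖G i j y‖ : ℂ) := by
      filter_upwards [ho.mem_nhds hx] with y hy using tr i j y hy
    rw [H175.dF_congr h1, H175.dF_add (hA j x hx.2) (smAt_dArg ho (sm' i j) hx),
      dF_dArg ho (sm' i j) (nm i j) hx, add_zero]
  set F : RF X 2 := fun x => (2 * Real.pi)⁻¹ • dF (A (c x)) x with hF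
  have hev : ∀ x, F =ᶠ[𝓝 x] (2 * Real.pi)⁻¹ • dF (A (c x)) := fun x => by
    filter_upwards [(opn (c x)).mem_nhds (hc x)] with y hy
    rw [hF, Pi.smul_apply, hd (c x) (c y) y ⟨hy, hc y⟩]
  have hsc : SC (hs F) := sc_iff.2 ⟨fun x =>
    ((H175.smAt_dF (opn (c x)) (hA _) (hc x)).smul _).congr (hev x), fun x => by
      rw [rf_hs, H175.dF_congr (hev x), H175.dF_smul, H175.dF_dF (opn (c x)) (hA _) (hc x),
        smul_zero]⟩
  refine ⟨mkLB (Fintype.equivFin I).symm U opn (fun x => ⟨c x, hc x⟩)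
    (fun i j y => G i j y / (‖G i j y‖ : ℂ)) sm' nm co' A hA (fun i j x hx v => ?_) (hs F) hsc
    (fun i x hx => ?_), Fintype.equivFin I, fun i => ?_, fun i j x _ => ?_⟩
  · rw [tr i j x hx, ContinuousAlternatingMap.add_apply, add_sub_cancel_left,
      dArg_apply (sm' i j x hx)]
  · rw [rf_hs, hF, smul_smul, mul_inv_cancel₀ Real.two_pi_pos.ne', one_smul,
      hd i (c x) x ⟨hx, hc x⟩]
  · exact congrArg U ((Fintype.equivFin I).symm_apply_apply i)
  · show G ((Fintype.equivFin I).symm (Fintype.equivFin I i))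
      ((Fintype.equivFin I).symm (Fintype.equivFin I j)) x / (‖G ((Fintype.equivFin I).symm
      (Fintype.equivFin I i)) ((Fintype.equivFin I).symm (Fintype.equivFin I j)) x‖ : ℂ) = _
    rw [Equiv.symm_apply_apply, Equiv.symm_apply_apply]

end Vale.Agent.P247C
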