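import Vale.Agent.P247C.Lf
import Vale.Agent.P247L.T3

/-!
# P247, block C: the rows LOC and DI
-/

set_option linter.all false

open scoped Manifold ContDiff Topology
open Set MeasureTheory Filter Metric

noncomputable section

namespace Vale.Agent.P247C

open Vale.Agent.P247X Vale.Agent.P247.SCY Vale.Agent.P247.SCY.HS
open Vale.Agent.P247.H74 Vale.Agent.P247.H74.CE Vale.Agent.P247.H58.LW Lo

theorem di : DI := by
  intro X _ μ hμ w hw K p N u U h v hv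
  obtain ⟨t, hp, -⟩ := P247L.TRANS X μ hμ w hw p univ univ_mem
  obtain ⟨U', V', k, a, b, ξ, δ, hU, hF, hV⟩ :=
    setup t h (v := fun _ : Fin 1 => v) (fun _ => hv) hp
  obtain ⟨h1, h2, k', a', h3⟩ := hV 0
  have h4 : Tendsto v (𝓝 0) (𝓝 p) :=
    hv.zero ▸ (hv.smooth.contMDiffAt (ball_mem_nhds 0 two_pos)).continuousAt.tendsto
  refine (hF.dich h3 h2).imp (fun e => ?_) fun ⟨l, e⟩ => ?_
  · filter_upwards [e, nhdsWithin_le_nhds (h4.eventually (zero_iff t h hp hU hF)),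
      nhdsWithin_le_nhds h1.ev] with z e1 e2 e3 e4
    exact e1 (e3.2.1 ▸ e2.2 e4)
  · obtain ⟨ε, hε, e1⟩ := Metric.eventually_nhds_iff_ball.1
      ((hU l).ev.and (ball_mem_nhds (0 : ℂ) two_pos))
    filter_upwards [e ε hε, h1.ev] with z ⟨s, e2, e3⟩ e4
    rw [t.κ.injOn e4.1 (e1 s e2).1.1 (e4.2.1.trans (e3.trans (e1 s e2).1.2.1.symm))]
    exact h.mem l s (e1 s e2).2

theorem loc : LOC := by
  intro X _ μ hμ w hw K p N u U h N' v hv hvK V hV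
  obtain ⟨t, hp, hsub⟩ := P247L.TRANS X μ hμ w hw p V hV
  obtain ⟨U', V', k, a, b, ξ, δ, hU, hF, hV'⟩ := setup t h hv hp
  choose hV1 hV0 k' a' hV2 using hV'
  set x := t.κ p with hx
  set S := SS t.D U' k a b ξ with hS
  have hxt : x ∈ t.κ.target := t.κ.map_source hp
  have hZv : ∀ j, ∀ᶠ z in 𝓝[≠] (0 : ℂ), Om t.D x (V' j z - x) b ≠ 0 := fun j => by
    obtain ⟨ξ', δ', e⟩ := exists_bd (hV2 j)
    exact hV0 j ▸ e.Z_ne
  obtain ⟨ε, hε, hev⟩ := Metric.eventually_nhds_iff_ball.1 ((eventually_all.2 fun l =>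
    (hU l).ev.and ((hF.cn l).and (eventually_nhdsWithin_iff.1 (hF.Z_ne l)))).and
    (eventually_all.2 fun j => (hV1 j).ev.and (eventually_nhdsWithin_iff.1 (hZv j))))
  have hz := zero_iff t h hp hU hF
  have hts : Tendsto t.κ.symm (𝓝 x) (𝓝 p) := t.κ.tendsto_symm hp
  have hfv : ∀ᶠ y in 𝓝 p, ∀ j, ∀ z ∈ ball (0 : ℂ) 1, v j z = y → z ∈ ball (0 : ℂ) ε :=
    eventually_all.2 fun j => far_small (hv j).smooth.continuousOn (fun z hz e =>
      (hv j).inj hz (mem_ball_self two_pos) (e.trans (hv j).zero.symm)) hε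
  have hW := (hts.eventually (hz.and ((brs_far h hε).and (hfv.and (h.opn.mem_nhds h.memU))))).and
    (hF.SS_cont.and (hF.SS_smooth.and (t.κ.open_target.mem_nhds hxt)))
  have ha₀ := hF.hab ⟨0, h.posN⟩
  obtain ⟨B, Δ, S', oB, cΔ, hΔB, hxΔ, hBW, hΔZ, sm1, sm2, hz', hev'⟩ := smoothing (S := S)
    (Z := (OmL t.D x).flip b) (Y := p2 t.D x (a ⟨0, h.posN⟩) b) (M := ∑ l, k l)
    (fun q e1 e2 => by
      rw [ContinuousLinearMap.flip_apply, OmL_apply] at e1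
      rw [vert ha₀ ((p1_zero ha₀).2 e1), e2, cm_zero])
    hW (fun q hq => hq.2.1) fun q e => hF.SS_vert ha₀ (by
      rwa [ContinuousLinearMap.flip_apply, OmL_apply] at e)
  simp only [ContinuousLinearMap.flip_apply, OmL_apply] at hΔZ sm2
  have hB : ∀ y ∈ t.κ.source ∩ t.κ ⁻¹' B, (S (t.κ y) = 0 ↔ y ∈ K) ∧
      (∀ l, ∀ z ∈ ball (0 : ℂ) 1, u l z = y → z ∈ ball (0 : ℂ) ε) ∧
      (∀ j, ∀ z ∈ ball (0 : ℂ) 1, v j z = y → z ∈ ball (0 : ℂ) ε) ∧ y ∈ U := fun y hy => by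
    have := (hBW hy.2).1
    rwa [t.κ.left_inv hy.1] at this
  have hΔ : ∀ y ∈ t.κ.symm '' Δ, y ∈ t.κ.source ∧ t.κ y ∈ Δ := by
    rintro _ ⟨q, hq, rfl⟩
    have := (hBW (hΔB hq)).2.2.2
    exact ⟨t.κ.map_target this, by rwa [t.κ.right_inv this]⟩
  have hpB : p ∈ t.κ.source ∩ t.κ ⁻¹' B := ⟨hp, hΔB hxΔ⟩
  have hpK : p ∈ K := h.zero ⟨0, h.posN⟩ ▸ h.mem _ 0 (mem_ball_self two_pos)
  have hsm : ∀ y ∈ t.κ.source, ContDiffAt ℝ ∞ S' (t.κ y) →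
      ContMDiffAt (𝓡 4) 𝓘(ℝ, ℂ) ∞ (fun y => S' (t.κ y)) y := fun y hy e =>
    e.contMDiffAt.comp y (cmk t hy)
  let Λ : Lp K p :=
    { B := t.κ.source ∩ t.κ ⁻¹' B
      Δ := t.κ.symm '' Δ
      s := fun y => S' (t.κ y)
      opn := t.κ.isOpen_inter_preimage oB
      cpt := cΔ.image_of_continuousOn
        (t.κ.continuousOn_symm.mono fun q hq => (hBW (hΔB hq)).2.2.2)
      sub := fun y hy => ⟨(hΔ y hy).1, hΔB (hΔ y hy).2⟩
      mem := ⟨x, hxΔ, t.κ.left_inv hp⟩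
      smooth := fun y hy => by
        refine (hsm y hy.1.1 ?_).contMDiffWithinAt
        by_cases e : Om t.D x (t.κ y - x) b = 0
        · exact sm2 _ (fun e1 => hy.2 ⟨_, e1, t.κ.left_inv hy.1.1⟩) e
        · exact sm1 _ ((hBW hy.1.2).2.2.1 (Or.inl e))
      zero := fun y hy => (hz' _ hy.1.2).trans (hB y hy.1).1
      only := fun y hy hK => by
        have e := hB y ⟨(hΔ y hy).1, hΔB (hΔ y hy).2⟩
        obtain ⟨l, z, e1, rfl⟩ := h.cov y e.2.2.2 hK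
        have e2 := (hev z (e.2.1 l z e1 rfl)).1 l
        by_cases e3 : z = 0
        · rw [e3, h.zero]
        · exact absurd (e2.1.2.1 ▸ hΔZ _ (hΔ _ hy).2) (e2.2.2 e3)
      zero_p := (hz' _ hpB.2).2 ((hB p hpB).1.2 hpK) }
  have hcn : ∀ l, ∀ z ∈ ball (0 : ℂ) 1, (z ≠ 0 ∨ Imm U') → u l z ∈ Λ.B →
      ContinuousAt (fun z => gf t (U' l z) * cc t.D x U' k a b ξ l z) z ∧
      gf t (U' l z) * cc t.D x U' k a b ξ l z ≠ 0 ∧
      Cn (1 / 4) w Λ.s (gf t (U' l z) * cc t.D x U' k a b ξ l z) (u l z) (dm (u l) z 1) := by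
    intro l z e1 e2 e3
    obtain ⟨⟨e4, e5, e6⟩, e7, e8⟩ := (hev z ((hB _ e3).2.1 l z e1 rfl)).1 l
    obtain ⟨e9, e10, e11⟩ := e7 e2
    refine ⟨((gf_cont t).comp (hU l).hol.1.continuous).continuousAt.mul e9,
      mul_ne_zero (gf_ne t _) e10, fun q => ?_⟩
    obtain ⟨q', rfl⟩ := (dS_bij t (t.κ.map_source e4)).2 q
    have e12 := hev' _ e3.2 ((hB _ e3).1.2 (h.mem l z (ball_subset_ball one_le_two e1)))
    have e13 : ContDiffAt ℝ ∞ S (t.κ (u l z)) :=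
      (hBW e3.2).2.2.1 (e2.imp_left fun e => e5 ▸ e8 e)
    have e14 := dfc_comp t e4 ((sm1 _ e13).differentiableAt (by simp)) q'
    have e15 : OmX w (u l z) (dm (u l) z 1) (dS t (t.κ (u l z)) q') =
        gf t (U' l z) * Om t.D (U' l z) (fderiv ℝ (U' l) z 1) q' := by
      have := omx t e4 (fderiv ℝ (U' l) z 1) q'
      rw [e5] at this ⊢
      exact (congrArg (fun r : HS.E4 => OmX w (u l z) r (dS t (U' l z) q')) (e6 1)).trans this
    show ‖_ * dfc (fun y => S' (t.κ y)) (u l z) _ - _‖ ≤ _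
    rw [e14, e15, e12.fderiv_eq, e5, mul_assoc, ← mul_sub, norm_mul, norm_mul, mul_left_comm]
    exact mul_le_mul_of_nonneg_left (e11 q') (norm_nonneg _)
  have hd : ∀ {u₀ : ℂ → X} {U₀ : ℂ → R4}, Gl t u₀ U₀ → U₀ 0 = x →
      (dm u₀ 0 1 : HS.E4) = dS t x (fderiv ℝ U₀ 0 1) := fun e1 e2 =>
    e2 ▸ e1.ev.self_of_nhds.2.2 1
  have himm : ∀ l, dm (u l) 0 1 ≠ 0 ↔ fderiv ℝ (U' l) 0 1 ≠ 0 := fun l => by
    rw [← map_ne_zero_iff (dS t x) (dS_bij t hxt).1, ← hd (hU l) (hF.zero l)]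
    exact Iff.rfl
  obtain ⟨d, d1, d2, d3⟩ := hF.wind_cc
  have htv : ∀ j, Tendsto (v j) (𝓝 0) (𝓝 p) := fun j => (hv j).zero ▸
    ((hv j).smooth.contMDiffAt (ball_mem_nhds 0 two_pos)).continuousAt.tendsto
  choose m m1 m2 m3 using fun j => hF.wind_v (hV2 j) (hV0 j) (by
    filter_upwards [hvK j, nhdsWithin_le_nhds ((htv j).eventually hz),
      nhdsWithin_le_nhds (hV1 j).ev] with z e1 e2 e3 e4
    exact e1 (e2.1 (e3.2.1 ▸ e4)))
  refine ⟨Λ, fun l z => gf t (U' l z) * cc t.D x U' k a b ξ l z, d, m, fun y hy => hsub hy.1,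
    fun l z e1 e2 e3 => hcn l z e1 (Or.inl e2) e3, ?_, d2,
    fun e => ⟨(d3 e).1, fun l => (himm l).2 ((d3 e).2 l)⟩, fun e1 e2 => ?_,
    fun j z e1 e2 e3 e4 => ?_, ?_, fun j => ⟨m2 j, (m3 j).trans (and_congr_right fun _ =>
      forall_congr' fun l => ?_)⟩⟩
  · filter_upwards [d1, self_mem_nhdsWithin] with ρ e1 hρ l
    have := WWIND.W2 _ _ 0 ρ _ _ hρ (WWIND.W3 (fun z => gf t (U' l z)) 0 ρ hρ
      ((gf_cont t).comp (hU l).hol.1.continuous).continuousOn fun z _ => gf_ne t _) (e1 l)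
    rwa [zero_add] at this
  · have e3 : Imm U' := ⟨e1, fun l => (himm l).1 (e2 l)⟩
    exact ⟨fun y hy => (hsm y hy.1 (sm1 _ ((hBW hy.2).2.2.1 (Or.inr e3)))).contMDiffWithinAt,
      fun l => hcn l 0 (mem_ball_self one_pos) (Or.inr e3) (by rw [h.zero]; exact hpB)⟩
  · have e5 := (hev z ((hB _ e3).2.2.1 j z e1 rfl)).2 j
    exact e5.2 e2 (e5.1.2.1 ▸ hΔZ _ (hΔ _ e4).2)
  · have e1 := hev' x hpB.2 ((hB p hpB).1.2 hpK)
    have e2 : ∀ j, ∀ᶠ z in 𝓝 (0 : ℂ), S (V' j z) = S' (t.κ (v j z)) := fun j => by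
      have e3 : Tendsto (V' j) (𝓝 0) (𝓝 x) := hV0 j ▸ (hV2 j).cont.tendsto 0
      filter_upwards [e3.eventually e1, (hV1 j).ev] with z e4 e5
      rw [e5.2.1, e4]
    filter_upwards [eventually_all.2 m1, ev_closedBall (eventually_all.2 e2)] with ρ e3 e4 j
    exact wind_congr (e3 j) fun z hz => e4 z (sphere_subset_closedBall hz) j
  · have e1 := omx t hp (fderiv ℝ (U' l) 0 1) (fderiv ℝ (V' j) 0 1)
    rw [← hx, ← hd (hU l) (hF.zero l), ← hd (hV1 j) (hV0 j)] at e1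
    refine ⟨fun e a₁ a₂ e2 e3 => ?_, fun e e2 => e _ _ rfl rfl ?_⟩
    · rw [e2, e3]
      exact e1 ▸ mul_ne_zero (gf_ne t _) e
    · exact e1.trans (by rw [e2, mul_zero])

end Vale.Agent.P247C
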