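import Vale.Agent.P247C.Pl1

/-!
# P247, block C, row PLX: the Poincare-Lelong formula
-/

set_option linter.all false

open scoped Manifold ContDiff Topology ComplexConjugate
open Set MeasureTheory Filter Metric Function

noncomputable section

namespace Vale.Agent.P247C

open Vale.Agent.P247X Vale.Agent.P247.SCY.HS Vale.Agent.P247M Pl
open Vale.Agent.P267.H175 (SmAt dF)
open Vale.Agent.P267

variable {X : Type} [Cl4 X] {μ : Form X 4} {w : Tri X}

theorem pair_congr_on {α α' β : Form X 2} {C : Set X} (h : ∀ x ∈ C, rf α x = rf α' x)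
    (h0 : ∀ x, x ∉ C → β x = 0) : pair μ α β = pair μ α' β := by
  rw [pair_eq, pair_eq]
  congr 1
  funext x
  by_cases hx : x ∈ C
  · exact congrArg (fun a => w22 a (rf β x)) (h x hx)
  · have h1 : rf β x = 0 := h0 x hx
    show w22 _ (rf β x) = w22 _ (rf β x)
    rw [h1, w22_zero_right, w22_zero_right]

/-- Stokes for a glued family of primitives -/
theorem pair_glue (hμ : Volume μ) (hw : Hypersymplectic μ w) {F β : Form X 2} (hβ : SC β)
    {C : Set X} (h0 : ∀ x, x ∉ C → β x = 0) {ι : Type} (S : Finset ι) {χ : ι → X → ℝ}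
    (hχ : ∀ i, ContMDiff (𝓡 4) 𝓘(ℝ, ℝ) ∞ (χ i)) (h1 : ∀ y, ∑ i ∈ S, χ i y = 1) {V : ι → Set X}
    (hV : ∀ i, IsOpen (V i)) (hsub : ∀ i, tsupport (χ i) ⊆ V i) {A l : ι → RF X 1}
    (hA : ∀ i, ∀ y ∈ V i, SmAt (A i) y) (hl : ∀ i, ∀ y ∈ V i, SmAt (l i) y) {c : ℝ}
    (hd : ∀ i, ∀ y ∈ V i, y ∈ C → dF (A i) y = c • rf F y)
    (he : ∀ i ∈ S, ∀ j ∈ S, ∀ y ∈ tsupport (χ i) ∩ tsupport (χ j) ∩ C,
      (A i - l i) y = (A j - l j) y) :
    ∑ i ∈ S, pair μ (hs fun y => χ i y • dF (l i) y) β = c * pair μ F β := by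
  have ha : ∀ i, ∀ y ∈ tsupport (χ i), SmAt (A i - l i) y := fun i y hy =>
    smAt_sub (hA i y (hsub i hy)) (hl i y (hsub i hy))
  set η : RF X 1 := ∑ i ∈ S, fun y => χ i y • (A i - l i) y with hη
  have hηs : ∀ y, SmAt η y := fun y => smAt_sum S fun i _ => smAt_cut (hχ i) (ha i) y
  have hdη : Smooth (hs (dF η)) := smooth_iff.2 (smAt_dF' hηs)
  have hγ : ∀ i, Smooth (hs fun y => χ i y • dF (l i) y) := fun i => smooth_iff.2
    (smAt_cut (hχ i) fun y hy => H175.smAt_dF (hV i) (hl i) (hsub i hy))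
  have h2 : pair μ (hs (dF η)) β = 0 := by
    have h3 : Coh (hs (dF η)) fun _ => 0 := coh_iff.2 ⟨η, hηs, (sub_zero _).symm⟩
    rw [h3.pair hμ hw hdη smooth_zero hβ, pair_zero_left]
  rw [← pair_sum_left hμ S (fun i _ => hγ i) hβ.1, ← P247M.pair_smul_left, ← zero_add (pair _ _ _),
    ← h2, ← pair_add_left hμ hdη (smooth_sum S fun i _ => hγ i) hβ.1]
  refine pair_congr_on (fun x hx => ?_) h0
  show dF η x + ∑ i ∈ S, χ i x • dF (l i) x = c • rf F x
  obtain ⟨j, hj, hj0⟩ := Finset.exists_ne_zero_of_sum_ne_zero ((h1 x).trans_ne one_ne_zero)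
  have hxj : x ∈ tsupport (χ j) := subset_tsupport _ hj0
  have h3 : ∀ i ∈ S, dF (fun y => χ i y • (A i - l i) y) x + χ i x • dF (l i) x =
      wd (Df (χ i) x) ((A j - l j) x) + χ i x • c • rf F x := fun i hi => by
    rw [dF_cut (hχ i) (ha i)]
    by_cases h : x ∈ tsupport (χ i)
    · rw [he i hi j hj x ⟨⟨h, hxj⟩, hx⟩, dF_sub (hA i x (hsub i h)) (hl i x (hsub i h)),
        hd i x (hsub i h) hx, add_assoc, ← smul_add, sub_add_cancel]
    · rw [Df_off h, wd_zero_left, wd_zero_left, image_eq_zero_of_notMem_tsupport h, zero_smul,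
        zero_smul, zero_smul, add_zero, add_zero]
  rw [hη, dF_sum S fun i _ => smAt_cut (hχ i) (ha i) x, ← Finset.sum_add_distrib,
    Finset.sum_congr rfl h3, Finset.sum_add_distrib, ← wd_sum_left, ← Df_sum S fun i _ => hχ i x,
    funext h1, Df_const, wd_zero_left, zero_add, ← Finset.sum_smul, h1, one_smul]

theorem plx : PLX := by
  intro X _ μ hμ w hw K L i₀ i₁ s Z hZ h0 h1 hs hs0 hg hloc
  refine ⟨L.F_sc, fun β₀ hβ₀ => ?_⟩
  obtain ⟨β, hβ, hcoh, C, hC, hCZ, hβ0⟩ := hZ β₀ hβ₀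
  have r1 : K.T β₀ = K.T β := by
    have h := (irr_cyc K).pcur.closed _ (smooth_sub hβ₀.1 hβ.1) hcoh
    rwa [lin_sub K.lin hβ₀.cont hβ.cont, sub_eq_zero] at h
  rw [r1, P247M.pair_comm, hcoh.pair hμ hw hβ₀.1 hβ.1 L.F_sc, P247M.pair_comm]
  have hs' : ∀ y ∈ L.U i₁, SmC s y := fun y hy => hs.contMDiffAt ((L.opn i₁).mem_nhds hy)
  have hne : ∀ y ∈ L.U i₁ ∩ L.U i₀, s y ≠ 0 := fun y hy h => by
    have h2 := L.g_norm i₁ i₀ y hy
    rw [hg y hy, h, zero_div, norm_zero] at h2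
    exact zero_ne_one h2
  let U : Option Bool → Set X := fun t => match t with
    | none => Cᶜ
    | some false => L.U i₀
    | some true => L.U i₁
  let A : Option Bool → RF X 1 := fun t => match t with
    | none => 0
    | some false => rf (L.A i₀)
    | some true => rf (L.A i₁)
  let l : Option Bool → ℝ → RF X 1 := fun t ε => match t with
    | none => 0
    | some false => 0
    | some true => lam (sc ε s)
  have hU : ∀ t, IsOpen (U t) := by
    rintro (_ | _ | _)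
    exacts [hC.isClosed.isOpen_compl, L.opn _, L.opn _]
  have hA : ∀ t, ∀ y ∈ U t, SmAt (A t) y := by
    rintro (_ | _ | _) y hy
    exacts [H175.smAt_zero y, L.smA hy, L.smA hy]
  have hl : ∀ ε t, ∀ y ∈ U t, SmAt (l t ε) y := by
    rintro ε (_ | _ | _) y hy
    exacts [H175.smAt_zero y, H175.smAt_zero y,
      smAt_lam (L.opn _) (fun z hz => smC_sc ε (hs' z hz)) hy]
  have hd : ∀ t, ∀ y ∈ U t, y ∈ C → dF (A t) y = (2 * Real.pi) • rf L.F y := by
    rintro (_ | _ | _) y hy hy'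
    exacts [(hy hy').elim, L.dFA hy, L.dFA hy]
  have he0 : ∀ D, IsCompact D → D ⊆ L.U i₁ ∩ L.U i₀ → ∀ᶠ ε in 𝓝[>] (0 : ℝ), ∀ y ∈ D,
      (rf (L.A i₁) - lam (sc ε s)) y = (rf (L.A i₀) - 0 : RF X 1) y := fun D hD hDU => by
    obtain ⟨δ, hδ, h2⟩ := hD.exists_forall_le' (f := fun y => ‖s y‖) (a := 0)
      (hs.continuousOn.mono fun y hy => (hDU hy).1).norm fun y hy => norm_pos_iff.2 (hne y (hDU hy))
    filter_upwards [Ioc_mem_nhdsGT hδ] with ε hε y hy
    have hn : ∀ z, ‖sc ε s z‖ = ε⁻¹ * ‖s z‖ := fun z => by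
      rw [sc, norm_mul, Complex.norm_real, Real.norm_eq_abs, abs_of_pos (inv_pos.2 hε.1)]
    refine alt1_ext fun v => ?_
    show rf (L.A i₁) y ![v] - lam (sc ε s) y ![v] = rf (L.A i₀) y ![v] - 0
    rw [lam_far (smC_sc ε (hs' y (hDU hy).1)) (L.smC (hDU hy)), ← L.trA (hDU hy)]
    · ring
    · filter_upwards [((L.opn i₁).inter (L.opn i₀)).mem_nhds (hDU hy)] with z hz
      rw [hg z hz, hn, sc, Complex.ofReal_mul, mul_div_mul_left]
      exact_mod_cast (inv_pos.2 hε.1).ne'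
    · rw [hn, le_inv_mul_iff₀ hε.1, mul_one]
      exact hε.2.trans (h2 y hy)
  have he : ∀ t t' D, IsCompact D → D ⊆ U t ∩ U t' ∩ C → ∀ᶠ ε in 𝓝[>] (0 : ℝ), ∀ y ∈ D,
      (A t - l t ε) y = (A t' - l t' ε) y := by
    rintro (_ | _ | _) (_ | _ | _) D hD hDU
    · exact Eventually.of_forall fun _ _ _ => rfl
    · exact Eventually.of_forall fun _ _ hy => ((hDU hy).1.1 (hDU hy).2).elim
    · exact Eventually.of_forall fun _ _ hy => ((hDU hy).1.1 (hDU hy).2).elim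
    · exact Eventually.of_forall fun _ _ hy => ((hDU hy).1.2 (hDU hy).2).elim
    · exact Eventually.of_forall fun _ _ _ => rfl
    · exact (he0 D hD fun y hy => ⟨(hDU hy).1.2, (hDU hy).1.1⟩).mono fun _ h y hy => (h y hy).symm
    · exact Eventually.of_forall fun _ _ hy => ((hDU hy).1.2 (hDU hy).2).elim
    · exact he0 D hD fun y hy => (hDU hy).1
    · exact Eventually.of_forall fun _ _ _ => rfl
  have hz : ∀ (V : Set X) (χ : X → ℝ), V ∩ C ⊆ K.Kᶜ → ContMDiff (𝓡 4) 𝓘(ℝ, ℝ) ∞ χ →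
      tsupport χ ⊆ V → Tendsto (fun _ : ℝ => pair μ (P247M.hs fun y => χ y • dF (0 : RF X 1) y) β)
        (𝓝[>] 0) (𝓝 (2 * Real.pi * K.T fun y => χ y • β y)) := fun V χ hV a b => by
    have h2 : (P247M.hs fun y => χ y • dF (0 : RF X 1) y) = fun _ => 0 := funext fun y => by
      show χ y • dF (0 : RF X 1) y = 0
      rw [dF_zero, smul_zero]
    rw [h2, pair_zero_left, K.off _ (cont_fsmul a.continuous hβ.cont)
      (SuppIn_mono (suppIn_fsmul' b ⟨C, hC, subset_rfl, hβ0⟩) hV), mul_zero]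
    exact tendsto_const_nhds
  have key : ∀ x, ∃ t, ∃ V ∈ 𝓝 x, V ⊆ U t ∧ ∀ χ : X → ℝ, ContMDiff (𝓡 4) 𝓘(ℝ, ℝ) ∞ χ →
      tsupport χ ⊆ V → Tendsto (fun ε => pair μ (P247M.hs fun y => χ y • dF (l t ε) y) β)
        (𝓝[>] 0) (𝓝 (2 * Real.pi * K.T fun y => χ y • β y)) := fun x => by
    by_cases hx : x ∈ C
    swap
    · exact ⟨none, Cᶜ, (hU none).mem_nhds hx, subset_rfl, fun χ =>
        hz _ χ fun y hy => (hy.1 hy.2).elim⟩
    by_cases hK : x ∈ K.K
    swap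
    · refine ⟨some false, L.U i₀, (L.opn _).mem_nhds (h0 x (hCZ hx) hK), subset_rfl, fun χ =>
        hz _ χ fun y hy hyK => ?_⟩
      have h2 := h1 y (hCZ hy.2) hyK
      exact hne y ⟨h2, hy.1⟩ ((hs0 y h2).2 hyK)
    have hx1 := h1 x (hCZ hx) hK
    obtain ⟨u, W, c, e, hb, hcomp, hu, he, hcn⟩ := hloc x ⟨hK, hx1⟩
    have hn := (L.opn i₁).mem_nhds hx1
    obtain ⟨r, hr, hr1, hr2⟩ := hb.in_nhds hn
    obtain ⟨δ, Θ, hΘ, hΘV⟩ := cht X μ hμ w hw K.K x u W hb hu s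
      (eventually_of_mem hn hs') (eventually_of_mem (ball_mem_nhds 0 hr) fun z hz =>
        (hs0 _ (hr2 0 z hz)).2 (hb.mem 0 z (b12 (ball_subset_ball hr1 hz)))) c e he hcn _
      (inter_mem hn (hb.opn.mem_nhds hb.memU))
    have hd1 : ball (0 : ℂ) δ ⊆ ball 0 1 := ball_subset_ball hΘ.le
    refine ⟨some true, Θ '' ball 0 δ, (hΘ.opn _ subset_rfl isOpen_ball).mem_nhds
      ⟨(0, 0), mem_ball_self hΘ.pos, (hΘ.axis 0 (mem_ball_self hΘ.pos)).trans (hb.zero 0)⟩,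
      fun y hy => (hΘV hy).1, fun χ a b => ?_⟩
    rw [hcomp _ (cont_fsmul a.continuous hβ.cont) (suppIn_fsmul (b.trans fun y hy => (hΘV hy).2) β),
      Fin.sum_univ_one, brX, setIntegral_eq_of_subset_of_forall_diff_eq_zero measurableSet_ball hd1]
    · exact loc_lim hμ hΘ (L.opn i₁) hs' (fun y hy => (hΘV hy).1) a b hβ.cont
    · intro z hz
      rw [pull2_fsmul, image_eq_zero_of_notMem_tsupport (f := χ) fun h => hz.2 ?_, zero_mul]
      obtain ⟨q, hq, hq'⟩ := b h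
      have h2 : q = (q.1, 0) := Prod.ext rfl ((hΘ.mem q hq).1 (hq' ▸ hb.mem 0 z (b12 hz.1)))
      have h3 : q.1 ∈ ball (0 : ℂ) δ :=
        mem_ball_zero_iff.2 ((norm_fst_le q).trans_lt (mem_ball_zero_iff.1 hq))
      rw [h2, hΘ.axis _ h3] at hq'
      exact hb.injOn 0 (b12 (hd1 h3)) (b12 hz.1) hq' ▸ h3
  choose t V hV hVU hlim using key
  obtain ⟨S, χ, hχ, -, hχV, hχ1⟩ := exists_pu V hV
  have hsub : ∀ i, tsupport (χ i) ⊆ U (t i) := fun i => (hχV i).trans (hVU i)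
  have h2 := tendsto_finset_sum S fun i _ => hlim i (χ i) (hχ i) (hχV i)
  rw [← Finset.mul_sum, ← lin_pu K.lin (fun i _ => (hχ i).continuous) hχ1 hβ.cont] at h2
  refine mul_left_cancel₀ (by positivity : 2 * Real.pi ≠ 0)
    (tendsto_nhds_unique h2 (tendsto_const_nhds.congr' ?_))
  filter_upwards [(eventually_all_finset S).2 fun i _ => (eventually_all_finset S).2 fun j _ =>
    he (t i) (t j) (tsupport (χ i) ∩ tsupport (χ j) ∩ C)
      (hC.inter_left ((isClosed_tsupport _).inter (isClosed_tsupport _)))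
      fun y hy => ⟨⟨hsub i hy.1.1, hsub j hy.1.2⟩, hy.2⟩] with ε hε
  exact (pair_glue hμ hw hβ hβ0 S hχ hχ1 (fun i => hU (t i)) hsub (fun i => hA (t i))
    (fun i => hl ε (t i)) (fun i => hd (t i)) hε).symm

theorem plx_of : CHT → IRR_statement → PLX := fun _ _ => plx

end Vale.Agent.P247C
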