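import Vale.Agent.P247C.RTTor0

/-!
# P247, block C: a meromorphic function with one simple pole is a bijection onto the sphere
-/

set_option linter.all false

open scoped Topology Manifold ContDiff
open Set Filter Metric

noncomputable section

namespace Vale.Agent.P247C.RSp

open RT

variable {M : Type} [TopologicalSpace M] [ChartedSpace ℂ M]

/-- holomorphic near `m` -/
def Hol (F : M → ℂ) (m : M) : Prop := ∀ᶠ y in 𝓝 m, MDifferentiableAt 𝓘(ℂ) 𝓘(ℂ) F y

theorem Hol.self {F : M → ℂ} {m : M} (h : Hol F m) : MDifferentiableAt 𝓘(ℂ) 𝓘(ℂ) F m :=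
  h.self_of_nhds

theorem Hol.ev {F : M → ℂ} {m : M} (h : Hol F m) : ∀ᶠ y in 𝓝 m, Hol F y := h.eventually_nhds

theorem Hol.congr {F G : M → ℂ} {m : M} (h : Hol F m) (e : G =ᶠ[𝓝 m] F) : Hol G m := by
  filter_upwards [h, e.eventually_nhds] with y a b
  exact a.congr_of_eventuallyEq b

theorem Hol.comp {F : M → ℂ} {g : ℂ → ℂ} {m : M} (h : Hol F m) (hg : AnalyticAt ℂ g (F m)) :
    Hol (fun y => g (F y)) m := by
  filter_upwards [h, h.self.continuousAt.eventually hg.eventually_analyticAt] with y a b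
  exact b.differentiableAt.mdifferentiableAt.comp y a

theorem Hol.const (c : ℂ) (m : M) : Hol (fun _ => c) m :=
  Eventually.of_forall fun _ => mdifferentiableAt_const

theorem Hol.add {F G : M → ℂ} {m : M} (h : Hol F m) (h' : Hol G m) :
    Hol (fun y => F y + G y) m := by
  filter_upwards [h, h'] with y a b
  exact a.add b

theorem Hol.mul {F G : M → ℂ} {m : M} (h : Hol F m) (h' : Hol G m) :
    Hol (fun y => F y * G y) m := by
  filter_upwards [h, h'] with y a b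
  exact a.mul b

theorem Hol.neg {F : M → ℂ} {m : M} (h : Hol F m) : Hol (fun y => -F y) m := by
  filter_upwards [h] with y a
  exact a.neg

theorem Hol.sub {F G : M → ℂ} {m : M} (h : Hol F m) (h' : Hol G m) :
    Hol (fun y => F y - G y) m := by
  filter_upwards [h, h'] with y a b
  exact a.sub b

theorem Hol.inv {F : M → ℂ} {m : M} (h : Hol F m) (h0 : F m ≠ 0) : Hol (fun y => (F y)⁻¹) m :=
  h.comp (g := fun z => z⁻¹) (analyticAt_id.inv h0)

theorem ev_symm {e : OpenPartialHomeomorph M ℂ} {m : M} (hm : m ∈ e.source) {p : M → Prop}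
    (h : ∀ᶠ y in 𝓝 m, p y) : ∀ᶠ z in 𝓝 (e m), p (e.symm z) := by
  have := (e.continuousAt_symm (e.map_source hm)).tendsto
  rw [e.left_inv hm] at this
  exact this.eventually h

variable [IsManifold 𝓘(ℂ) 1 M]

theorem hol_chart {e : OpenPartialHomeomorph M ℂ} (he : e ∈ atlas ℂ M) {m : M}
    (hm : m ∈ e.source) : Hol e m := by
  filter_upwards [e.open_source.mem_nhds hm] with y hy
  exact (mdifferentiable_of_mem_atlas he).mdifferentiableAt hy

theorem Hol.an {F : M → ℂ} {m : M} (h : Hol F m) {e : OpenPartialHomeomorph M ℂ}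
    (he : e ∈ atlas ℂ M) (hm : m ∈ e.source) : AnalyticAt ℂ (F ∘ e.symm) (e m) := by
  rw [Complex.analyticAt_iff_eventually_differentiableAt]
  filter_upwards [ev_symm hm h, e.open_target.mem_nhds (e.map_source hm)] with z a b
  exact (a.comp z ((mdifferentiable_of_mem_atlas he).mdifferentiableAt_symm b)).differentiableAt

theorem d1_eq {F : M → ℂ} {m : M} (h : Hol F m) {e : OpenPartialHomeomorph M ℂ}
    (he : e ∈ atlas ℂ M) (hm : m ∈ e.source) : d1 F m = deriv (F ∘ e.symm) (e m) * d1 e m := by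
  have h1 : F =ᶠ[𝓝 m] (F ∘ e.symm) ∘ e := by
    filter_upwards [e.open_source.mem_nhds hm] with y hy
    simp [e.left_inv hy]
  rw [d1_congr h1, d1_comp (h.an he hm).differentiableAt.mdifferentiableAt (hol_chart he hm).self,
    d1_deriv]

theorem d1_chart_ne {e : OpenPartialHomeomorph M ℂ} (he : e ∈ atlas ℂ M) {m : M}
    (hm : m ∈ e.source) : d1 e m ≠ 0 :=
  right_ne_zero_of_mul_eq_one (d1_symm (mdifferentiable_of_mem_atlas he) hm)

/-- the local inverse -/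
theorem Hol.inverse {F : M → ℂ} {m : M} (h : Hol F m) (h0 : d1 F m ≠ 0) :
    ∃ γ : ℂ → M, γ (F m) = m ∧ (∀ᶠ w in 𝓝 (F m), MDifferentiableAt 𝓘(ℂ) 𝓘(ℂ) γ w ∧ F (γ w) = w) ∧
      ∀ᶠ y in 𝓝 m, γ (F y) = y := by
  set e := chartAt ℂ m with hee
  have he : e ∈ atlas ℂ M := chart_mem_atlas ℂ m
  have hm : m ∈ e.source := mem_chart_source ℂ m
  have a := h.an he hm
  have hd : deriv (F ∘ e.symm) (e m) ≠ 0 := by
    rw [d1_eq h he hm] at h0
    exact left_ne_zero_of_mul h0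
  have hst := a.hasStrictDerivAt
  set g := hst.localInverse _ _ _ hd with hg
  have hF : (F ∘ e.symm) (e m) = F m := by simp [e.left_inv hm]
  have hr : ∀ᶠ y in 𝓝 ((F ∘ e.symm) (e m)), (F ∘ e.symm) (g y) = y :=
    hst.eventually_right_inverse hd
  have hl : ∀ᶠ z in 𝓝 (e m), g ((F ∘ e.symm) z) = z := hst.eventually_left_inverse hd
  have hg0 : g ((F ∘ e.symm) (e m)) = e m := hl.self_of_nhds
  have hga : AnalyticAt ℂ g ((F ∘ e.symm) (e m)) := by
    have hc : ContDiffAt ℂ ω (F ∘ e.symm) (e m) := a.contDiffAt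
    have := hc.to_localInverse (f' := ContinuousLinearEquiv.unitsEquivAut ℂ (Units.mk0 _ hd))
      (hst.hasStrictFDerivAt_equiv hd).hasFDerivAt (by simp)
    exact this.analyticAt
  rw [hF] at hr hg0 hga
  refine ⟨e.symm ∘ g, by simp [hg0, e.left_inv hm], ?_, ?_⟩
  · have t2 : Tendsto g (𝓝 (F m)) (𝓝 (e m)) := by
      have := hga.continuousAt
      rwa [ContinuousAt, hg0] at this
    filter_upwards [hr, hga.eventually_analyticAt,
      t2.eventually (e.open_target.mem_nhds (e.map_source hm))] with w b c d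
    exact ⟨((mdifferentiable_of_mem_atlas he).mdifferentiableAt_symm d).comp w
      c.differentiableAt.mdifferentiableAt, b⟩
  · filter_upwards [(e.continuousAt hm).eventually hl, e.open_source.mem_nhds hm] with y b c
    simp only [Function.comp, e.left_inv c] at b ⊢
    rw [b, e.left_inv c]

theorem Hol.image {F : M → ℂ} {m : M} (h : Hol F m) (h0 : d1 F m ≠ 0) {V : Set M}
    (hV : V ∈ 𝓝 m) : ∀ᶠ w in 𝓝 (F m), ∃ y ∈ V, F y = w := by
  obtain ⟨γ, h1, h2, -⟩ := h.inverse h0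
  have t : Tendsto γ (𝓝 (F m)) (𝓝 m) := by
    have := h2.self_of_nhds.1.continuousAt
    rwa [ContinuousAt, h1] at this
  filter_upwards [h2, t.eventually hV] with w a b
  exact ⟨_, b, a.2⟩

/-- the local normal form -/
theorem Hol.normal {F : M → ℂ} {m : M} (h : Hol F m) (hn : ¬ ∀ᶠ y in 𝓝 m, F y = F m) :
    ∃ (k : ℕ) (G : M → ℂ), 0 < k ∧ Hol G m ∧ G m = 0 ∧ d1 G m ≠ 0 ∧
      ∀ᶠ y in 𝓝 m, F y = F m + G y ^ k := by
  set e := chartAt ℂ m with hee
  have he : e ∈ atlas ℂ M := chart_mem_atlas ℂ m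
  have hm : m ∈ e.source := mem_chart_source ℂ m
  have a : AnalyticAt ℂ (fun z => F (e.symm z) - F m) (e m) := (h.an he hm).sub analyticAt_const
  have hn' : ¬ ∀ᶠ z in 𝓝 (e m), F (e.symm z) - F m = 0 := fun hz => hn <| by
    filter_upwards [(e.continuousAt hm).eventually hz, e.open_source.mem_nhds hm] with y b c
    rw [e.left_inv c] at b
    exact sub_eq_zero.1 b
  obtain ⟨k, g, hg, hg0, hgk⟩ := a.exists_eventuallyEq_pow_smul_nonzero_iff.2 hn'
  have hk : 0 < k := by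
    rcases Nat.eq_zero_or_pos k with rfl | hk
    · have := hgk.self_of_nhds
      simp [e.left_inv hm] at this
      exact absurd this.symm hg0
    · exact hk
  obtain ⟨ρ, hρ⟩ := IsAlgClosed.exists_pow_nat_eq (g (e m)) hk
  have hρ0 : ρ ≠ 0 := by
    rintro rfl
    exact hg0 (by rw [← hρ, zero_pow hk.ne'])
  set r : ℂ → ℂ := fun z => ρ * Complex.exp (Complex.log (g z / g (e m)) / k) with hr
  have ra : AnalyticAt ℂ r (e m) := by
    refine analyticAt_const.mul (AnalyticAt.cexp' (AnalyticAt.div_const (AnalyticAt.clog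
      (hg.div_const) ?_)))
    rw [div_self hg0]
    exact Complex.one_mem_slitPlane
  have rk : ∀ᶠ z in 𝓝 (e m), r z ^ k = g z := by
    filter_upwards [hg.continuousAt.eventually_ne hg0] with z hz
    simp only [hr]
    have hk' : (k : ℂ) ≠ 0 := by exact_mod_cast hk.ne'
    rw [mul_pow, hρ, ← Complex.exp_nat_mul, mul_div_cancel₀ _ hk',
      Complex.exp_log (div_ne_zero hz hg0), mul_div_cancel₀ _ hg0]
  have r0 : r (e m) ≠ 0 := mul_ne_zero hρ0 (Complex.exp_ne_zero _)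
  have sa : AnalyticAt ℂ (fun z => (z - e m) * r z) (e m) :=
    (analyticAt_id.sub analyticAt_const).mul ra
  refine ⟨k, fun y => (e y - e m) * r (e y), hk, (hol_chart he hm).comp sa, by simp, ?_, ?_⟩
  · show d1 ((fun z => (z - e m) * r z) ∘ e) m ≠ 0
    rw [d1_comp sa.differentiableAt.mdifferentiableAt (hol_chart he hm).self, d1_deriv]
    refine mul_ne_zero ?_ (d1_chart_ne he hm)
    have := ((hasDerivAt_id' (e m)).sub_const (e m)).fun_mul ra.differentiableAt.hasDerivAt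
    rw [this.deriv]
    simpa using r0
  · filter_upwards [(e.continuousAt hm).eventually (hgk.and rk), e.open_source.mem_nhds hm]
      with y b c
    rw [e.left_inv c] at b
    rw [mul_pow, b.2, ← smul_eq_mul, ← b.1]
    ring

/-- open mapping, and two preimages near a critical point -/
theorem Hol.opn {F : M → ℂ} {m : M} (h : Hol F m) (hn : ¬ ∀ᶠ y in 𝓝 m, F y = F m) {V : Set M}
    (hV : V ∈ 𝓝 m) : ∀ᶠ w in 𝓝[≠] (F m), ∃ y ∈ V, F y = w ∧
      (d1 F m = 0 → ∃ y' ∈ V, F y' = w ∧ y ≠ y') := by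
  obtain ⟨k, G, hk, hG, G0, G1, hF⟩ := h.normal hn
  have h1 := hG.image G1 (inter_mem hV hF)
  rw [G0] at h1
  obtain ⟨δ, hδ, hb⟩ := Metric.eventually_nhds_iff_ball.1 h1
  have hδk : 0 < δ ^ k := by positivity
  filter_upwards [self_mem_nhdsWithin, mem_nhdsWithin_of_mem_nhds (ball_mem_nhds (F m) hδk)]
    with w hw hwb
  obtain ⟨s, hs⟩ := IsAlgClosed.exists_pow_nat_eq (w - F m) hk
  have hsn : ‖s‖ < δ := by
    have : ‖s‖ ^ k < δ ^ k := by
      rw [← norm_pow, hs, ← dist_eq_norm]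
      exact hwb
    exact lt_of_pow_lt_pow_left₀ k hδ.le this
  have hs0 : s ≠ 0 := by
    rintro rfl
    rw [zero_pow hk.ne'] at hs
    exact hw (sub_eq_zero.1 hs.symm)
  obtain ⟨y, hy, hy'⟩ := hb s (by simpa using hsn)
  refine ⟨y, hy.1, by rw [hy.2, hy', hs]; ring, fun hd => ?_⟩
  have hk1 : k ≠ 1 := by
    rintro rfl
    apply G1
    have e1 : G =ᶠ[𝓝 m] (fun z => z - F m) ∘ F := hF.mono fun y hy => by
      simp only [Function.comp, hy]
      ring
    rw [d1_congr e1, d1_comp (by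
      exact (differentiableAt_id.sub_const _).mdifferentiableAt) h.self, hd, mul_zero]
  have hζ := Complex.isPrimitiveRoot_exp k hk.ne'
  set ζ := Complex.exp (2 * Real.pi * Complex.I / k) with hζd
  have hζn : ‖ζ‖ = 1 := hζ.norm'_eq_one hk.ne'
  obtain ⟨y', hy1, hy1'⟩ := hb (ζ * s) (by simpa [hζn] using hsn)
  refine ⟨y', hy1.1, by rw [hy1.2, hy1', mul_pow, hζ.pow_eq_one, one_mul, hs]; ring, ?_⟩
  rintro rfl
  rw [hy'] at hy1'
  refine hζ.ne_one (by omega) (mul_right_cancel₀ hs0 ?_)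
  rw [one_mul, ← hy1']

/-- the identity theorem -/
theorem Hol.eq_of_freq {F : M → ℂ} {x : M} {c : ℂ} (h : Hol F x)
    (hc : ∃ᶠ y in 𝓝 x, ∀ᶠ y' in 𝓝 y, F y' = c) : ∀ᶠ y in 𝓝 x, F y = c := by
  set e := chartAt ℂ x with hee
  have he : e ∈ atlas ℂ M := chart_mem_atlas ℂ x
  have hx : x ∈ e.source := mem_chart_source ℂ x
  obtain ⟨r, hr, hb⟩ := Metric.eventually_nhds_iff_ball.1 (h.an he hx).eventually_analyticAt
  obtain ⟨y, h1, h2, h3⟩ := (hc.and_eventually (((e.continuousAt hx).eventually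
    (ball_mem_nhds _ hr)).and (e.open_source.mem_nhds hx))).exists
  have h4 : EqOn (F ∘ e.symm) (fun _ => c) (ball (e x) r) :=
    AnalyticOnNhd.eqOn_of_preconnected_of_eventuallyEq hb analyticOnNhd_const
      (convex_ball _ _).isPreconnected h2 (ev_symm h3 h1)
  filter_upwards [(e.continuousAt hx).eventually (ball_mem_nhds _ hr), e.open_source.mem_nhds hx]
    with z b d
  have := h4 b
  simpa [e.left_inv d] using this

theorem Hol.not_const {F : M → ℂ} {x : M} (h : Hol F x) (h0 : d1 F x ≠ 0) (c : ℂ) :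
    ¬ ∀ᶠ y in 𝓝 x, F y = c := fun hc => h0 <| by
  rw [d1_congr (f' := fun _ => c) hc]
  unfold d1
  rw [mfderiv_const]
  rfl

/-- a function with one simple pole -/
structure Pole (f G : M → ℂ) (a : M) : Prop where
  hf : ∀ m, m ≠ a → Hol f m
  hG : Hol G a
  G0 : G a = 0
  G1 : d1 G a ≠ 0
  fG : ∀ᶠ y in 𝓝[≠] a, G y = (f y)⁻¹

variable [T2Space M] {f G : M → ℂ} {a : M}

theorem Pole.not_const [ConnectedSpace M] (h : Pole f G a) {m : M} (hm : m ≠ a) :
    ¬ ∀ᶠ y in 𝓝 m, f y = f m := by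
  intro hc
  set S : Set M := {x | x ≠ a ∧ ∀ᶠ y in 𝓝 x, f y = f m} with hS
  have hO : IsOpen S := by
    rw [isOpen_iff_mem_nhds]
    intro x hx
    filter_upwards [hx.2.eventually_nhds, isOpen_compl_singleton.mem_nhds hx.1] with y b d
    exact ⟨d, b⟩
  have hC : IsClosed S := by
    refine isClosed_of_closure_subset fun x hx => ?_
    have h1 : ∃ᶠ y in 𝓝 x, y ∈ S := mem_closure_iff_frequently.1 hx
    by_cases hxa : x = a
    · subst hxa
      refine absurd (h.hG.eq_of_freq (c := (f m)⁻¹) ?_) (h.hG.not_const h.G1 _)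
      have h2 := eventually_nhdsWithin_iff.1 h.fG
      refine (h1.and_eventually h2.eventually_nhds).mono fun y hy => ?_
      filter_upwards [hy.1.2, hy.2, isOpen_compl_singleton.mem_nhds hy.1.1] with z b d g
      rw [d g, b]
    · exact ⟨hxa, (h.hf x hxa).eq_of_freq (h1.mono fun y hy => hy.2)⟩
  have := IsClopen.eq_univ ⟨hC, hO⟩ ⟨m, hm, hc⟩
  exact (this.symm ▸ mem_univ a : a ∈ S).1 rfl

theorem Pole.G_ne (h : Pole f G a) : ∀ᶠ y in 𝓝[≠] a, G y ≠ 0 := by
  obtain ⟨γ, h1, -, h3⟩ := h.hG.inverse h.G1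
  filter_upwards [self_mem_nhdsWithin, mem_nhdsWithin_of_mem_nhds h3] with y b c d
  rw [d, ← h.G0, h1] at c
  exact b c.symm

theorem Pole.large (h : Pole f G a) (R : ℝ) : ∀ᶠ y in 𝓝[≠] a, R < ‖f y‖ := by
  have h1 : Tendsto G (𝓝[≠] a) (𝓝[≠] 0) := by
    refine tendsto_nhdsWithin_iff.2 ⟨?_, h.G_ne⟩
    have := h.hG.self.continuousAt
    rw [ContinuousAt, h.G0] at this
    exact this.mono_left nhdsWithin_le_nhds
  have h2 : Tendsto (fun z : ℂ => ‖z⁻¹‖) (𝓝[≠] 0) atTop := tendsto_norm_inv_nhdsNE_zero_atTop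
  filter_upwards [(h2.comp h1).eventually (eventually_gt_atTop R), h.fG] with y b c
  simpa [c] using b

/-- the images of closed sets are closed -/
theorem Pole.closed [CompactSpace M] (h : Pole f G a) {V : Set M} (hV : IsOpen V) {w : ℂ}
    (hw : ∃ᶠ w' in 𝓝 w, ∃ y, y ≠ a ∧ y ∉ V ∧ f y = w') : ∃ y, y ≠ a ∧ y ∉ V ∧ f y = w := by
  obtain ⟨O, hO1, hO, haO⟩ := _root_.mem_nhds_iff.1 (eventually_nhdsWithin_iff.1 (h.large (‖w‖ + 1)))
  have hK : IsCompact (O ∪ V)ᶜ := (hO.union hV).isClosed_compl.isCompact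
  have hne : ∀ y ∈ (O ∪ V)ᶜ, y ≠ a := fun y hy hya => hy (Or.inl (hya ▸ haO))
  have hc : IsClosed (f '' (O ∪ V)ᶜ) := (hK.image_of_continuousOn fun y hy =>
    (h.hf y (hne y hy)).self.continuousAt.continuousWithinAt).isClosed
  have h1 : ∀ᶠ w' in 𝓝 w, ‖w'‖ < ‖w‖ + 1 :=
    continuous_norm.continuousAt.eventually (gt_mem_nhds (lt_add_one _))
  obtain ⟨y, hy, hy'⟩ : w ∈ f '' (O ∪ V)ᶜ := by
    refine hc.closure_subset (mem_closure_iff_frequently.2 ((hw.and_eventually h1).mono ?_))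
    rintro _ ⟨⟨y, b, c, rfl⟩, d⟩
    exact ⟨y, fun g => g.elim (fun g => (hO1 g b).not_gt d) c, rfl⟩
  exact ⟨y, hne y hy, fun g => hy (Or.inr g), hy'⟩

theorem Pole.big [CompactSpace M] (h : Pole f G a) :
    ∀ᶠ z in 𝓝[≠] (0 : ℂ), ∃! y, y ≠ a ∧ f y = z⁻¹ := by
  obtain ⟨γ, h1, h2, h3⟩ := h.hG.inverse h.G1
  obtain ⟨O, hO1, hO, haO⟩ := _root_.mem_nhds_iff.1 (h3.and (eventually_nhdsWithin_iff.1 h.fG))
  have hK : IsCompact Oᶜ := hO.isClosed_compl.isCompact
  obtain ⟨C, hC⟩ := hK.exists_bound_of_continuousOn fun y hy =>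
    (h.hf y fun hya => hy (hya ▸ haO)).self.continuousAt.continuousWithinAt
  have h4 := h.hG.image h.G1 (hO.mem_nhds haO)
  rw [h.G0] at h4
  have h5 : Tendsto (fun z : ℂ => ‖z⁻¹‖) (𝓝[≠] 0) atTop := tendsto_norm_inv_nhdsNE_zero_atTop
  filter_upwards [self_mem_nhdsWithin, mem_nhdsWithin_of_mem_nhds h4,
    h5.eventually (eventually_gt_atTop C)] with z hz ⟨y, hy, hyz⟩ hzC
  have hya : y ≠ a := by
    rintro rfl
    exact hz (by rw [← hyz, h.G0]; rfl)
  refine ⟨y, ⟨hya, by rw [← hyz, (hO1 hy).2 hya, inv_inv]⟩, ?_⟩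
  rintro y' ⟨b, c⟩
  have hy' : y' ∈ O := by
    by_contra d
    have := hC y' d
    rw [c] at this
    exact this.not_gt hzC
  rw [← (hO1 hy).1, ← (hO1 hy').1, (hO1 hy').2 b, c, inv_inv, hyz]

theorem Pole.step [CompactSpace M] [ConnectedSpace M] (h : Pole f G a) {w : ℂ}
    (hw : ∃ᶠ w' in 𝓝[≠] w, ∃! y, y ≠ a ∧ f y = w') :
    (∀ p, p ≠ a → f p = w → d1 f p ≠ 0) ∧ ∀ᶠ w' in 𝓝 w, ∃! y, y ≠ a ∧ f y = w' := by
  have hd : ∀ p, p ≠ a → f p = w → d1 f p ≠ 0 := by
    rintro p hp rfl hd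
    obtain ⟨w', ⟨y, -, hu⟩, y₁, b, c, d⟩ := (hw.and_eventually ((h.hf p hp).opn (h.not_const hp)
      (isOpen_compl_singleton.mem_nhds hp))).exists
    obtain ⟨y₂, b', c', d'⟩ := d hd
    exact d' ((hu _ ⟨b, c⟩).trans (hu _ ⟨b', c'⟩).symm)
  refine ⟨hd, ?_⟩
  obtain ⟨p, hp, -, rfl⟩ := h.closed isOpen_empty (w := w)
    ((hw.filter_mono nhdsWithin_le_nhds).mono fun w' ⟨y, hy, _⟩ => ⟨y, hy.1, id, hy.2⟩)
  have hu : ∀ q, q ≠ a → f q = f p → q = p := by
    intro q hq hqp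
    by_contra hne
    obtain ⟨V, V', hV, hV', hqV, hpV, hdis⟩ := t2_separation hne
    have i1 := (h.hf q hq).image (hd q hq hqp)
      (inter_mem (hV.mem_nhds hqV) (isOpen_compl_singleton.mem_nhds hq))
    have i2 := (h.hf p hp).image (hd p hp rfl)
      (inter_mem (hV'.mem_nhds hpV) (isOpen_compl_singleton.mem_nhds hp))
    rw [hqp] at i1
    obtain ⟨w', ⟨y, -, hu⟩, ⟨y₁, b, c⟩, y₂, b', c'⟩ :=
      ((hw.filter_mono nhdsWithin_le_nhds).and_eventually (i1.and i2)).exists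
    have := (hu _ ⟨b.2, c⟩).trans (hu _ ⟨b'.2, c'⟩).symm
    exact Set.disjoint_left.1 hdis b.1 (this ▸ b'.1)
  obtain ⟨γ, h1, h2, h3⟩ := (h.hf p hp).inverse (hd p hp rfl)
  obtain ⟨O, hO1, hO, hpO⟩ := _root_.mem_nhds_iff.1 h3
  have h4 : ∀ᶠ w' in 𝓝 (f p), ¬ ∃ y, y ≠ a ∧ y ∉ O ∧ f y = w' := by
    by_contra hcon
    obtain ⟨y, b, c, d⟩ := h.closed hO (w := f p) hcon
    exact c (hu y b d ▸ hpO)
  filter_upwards [h4, (h.hf p hp).image (hd p hp rfl)
    (inter_mem (hO.mem_nhds hpO) (isOpen_compl_singleton.mem_nhds hp))] with w' b ⟨y, c, d⟩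
  refine ⟨y, ⟨c.2, d⟩, fun y' ⟨b', c'⟩ => ?_⟩
  have hy' : y' ∈ O := by_contra fun g => b ⟨y', b', g, c'⟩
  have e1 : γ (f y') = y' := hO1 hy'
  have e2 : γ (f y) = y := hO1 c.1
  rw [← e1, ← e2, c', d]

theorem Pole.all [CompactSpace M] [ConnectedSpace M] (h : Pole f G a) (w : ℂ) :
    ∀ᶠ w' in 𝓝 w, ∃! y, y ≠ a ∧ f y = w' := by
  set T : Set ℂ := {w | ∀ᶠ w' in 𝓝 w, ∃! y, y ≠ a ∧ f y = w'} with hT
  have hO : IsOpen T := isOpen_setOf_eventually_nhds
  have hC : IsClosed T := by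
    refine isClosed_of_closure_subset fun x hx => ?_
    by_cases hxT : x ∈ T
    · exact hxT
    · refine (h.step ?_).2
      have h1 : ∃ᶠ y in 𝓝 x, y ∈ T := mem_closure_iff_frequently.1 hx
      rw [frequently_nhdsWithin_iff]
      exact h1.mono fun y hy => ⟨hy.self_of_nhds, fun g => hxT (g ▸ hy)⟩
  have hne : T.Nonempty := by
    obtain ⟨O, hO1, hO, h0⟩ := _root_.mem_nhds_iff.1 (eventually_nhdsWithin_iff.1 h.big)
    obtain ⟨z, hz, hz0⟩ : ∃ z : ℂ, z ∈ O ∧ z ≠ 0 :=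
      (Filter.Eventually.and (f := 𝓝[≠] (0 : ℂ)) (mem_nhdsWithin_of_mem_nhds (hO.mem_nhds h0))
        self_mem_nhdsWithin).exists
    refine ⟨z⁻¹, ?_⟩
    have t : Tendsto (fun w : ℂ => w⁻¹) (𝓝 z⁻¹) (𝓝 z) := by
      have := continuousAt_inv₀ (inv_ne_zero hz0)
      rwa [ContinuousAt, inv_inv] at this
    filter_upwards [t.eventually (hO.mem_nhds hz), isOpen_ne.mem_nhds (inv_ne_zero hz0)]
      with w b c
    have := hO1 b (inv_ne_zero c)
    rwa [inv_inv] at this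
  have : w ∈ T := (IsClopen.eq_univ ⟨hC, hO⟩ hne).symm ▸ mem_univ w
  exact this

/-- **the sphere** -/
theorem Pole.sphere [CompactSpace M] [ConnectedSpace M] (h : Pole f G a) :
    ∃ u v : ℂ → M, (∀ z, MDifferentiableAt 𝓘(ℂ) 𝓘(ℂ) u z ∧ d1 u z ≠ 0) ∧
      (∀ z, MDifferentiableAt 𝓘(ℂ) 𝓘(ℂ) v z ∧ d1 v z ≠ 0) ∧ (∀ z, z ≠ 0 → v z = u z⁻¹) ∧
      Function.Injective u ∧ v 0 ∉ range u ∧ ∀ m, m = v 0 ∨ m ∈ range u := by
  classical
  choose u hu hu' using fun w => (h.all w).self_of_nhds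
  have key : ∀ {F : M → ℂ} {m : M} {s : ℂ → M}, Hol F m → d1 F m ≠ 0 → s (F m) = m →
      (∀ γ : ℂ → M, γ (F m) = m → (∀ᶠ w in 𝓝 (F m), ContinuousAt γ w ∧ F (γ w) = w) →
        s =ᶠ[𝓝 (F m)] γ) → MDifferentiableAt 𝓘(ℂ) 𝓘(ℂ) s (F m) ∧ d1 s (F m) ≠ 0 := by
    intro F m s hF h0 hs hγ
    obtain ⟨γ, h1, h2, -⟩ := hF.inverse h0
    have e := hγ γ h1 (h2.mono fun w hw => ⟨hw.1.continuousAt, hw.2⟩)
    refine ⟨h2.self_of_nhds.1.congr_of_eventuallyEq e, ?_⟩
    rw [d1_congr e]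
    have e2 : d1 (F ∘ γ) (F m) = 1 :=
      (d1_congr (f' := id) (h2.mono fun w hw => hw.2)).trans (d1_id _)
    rw [d1_comp (h1.symm ▸ hF.self) h2.self_of_nhds.1] at e2
    exact right_ne_zero_of_mul_eq_one e2
  have hU : ∀ z, MDifferentiableAt 𝓘(ℂ) 𝓘(ℂ) u z ∧ d1 u z ≠ 0 := by
    intro z
    have h1 := (h.step (((h.all z).filter_mono nhdsWithin_le_nhds).frequently)).1 _ (hu z).1
      (hu z).2
    have := key (s := u) (h.hf _ (hu z).1) h1 (by rw [(hu z).2]) fun γ g1 g2 => by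
      have t := g2.self_of_nhds.1
      rw [ContinuousAt, g1] at t
      filter_upwards [g2, t.eventually (isOpen_compl_singleton.mem_nhds (hu z).1)] with w b c
      exact (hu' w _ ⟨c, b.2⟩).symm
    rwa [(hu z).2] at this
  set v : ℂ → M := fun z => if z = 0 then a else u z⁻¹ with hv
  have v0 : v 0 = a := by simp [hv]
  have v1 : ∀ z, z ≠ 0 → v z = u z⁻¹ := fun z hz => by simp [hv, hz]
  refine ⟨u, v, hU, fun z => ?_, v1, fun z z' e => by rw [← (hu z).2, e, (hu z').2], ?_,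
    fun m => ?_⟩
  · by_cases hz : z = 0
    · have := key (s := v) h.hG h.G1 (by rw [h.G0, v0]) fun γ g1 g2 => by
        have t := g2.self_of_nhds.1
        rw [ContinuousAt, g1] at t
        filter_upwards [g2, t.eventually (eventually_nhdsWithin_iff.1 h.fG)] with w b c
        by_cases hw : w = 0
        · rw [hw, v0, ← h.G0, g1]
        · have hne : γ w ≠ a := fun g => hw (by rw [← b.2, g, h.G0])
          rw [v1 w hw]
          refine (hu' _ _ ⟨hne, ?_⟩).symm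
          rw [← inv_inv (f (γ w)), ← c hne, b.2]
      rw [h.G0] at this
      rw [hz]
      exact this
    · have e : v =ᶠ[𝓝 z] u ∘ fun w => w⁻¹ :=
        (isOpen_ne.eventually_mem hz).mono fun w hw => v1 w hw
      have d := hasDerivAt_inv hz
      refine ⟨((hU _).1.comp z d.differentiableAt.mdifferentiableAt).congr_of_eventuallyEq e, ?_⟩
      rw [d1_congr e, d1_comp (hU _).1 d.differentiableAt.mdifferentiableAt, d1_deriv, d.deriv]
      exact mul_ne_zero (hU _).2 (neg_ne_zero.2 (inv_ne_zero (pow_ne_zero 2 hz)))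
  · rintro ⟨z, hz⟩
    exact (hu z).1 (hz.trans v0)
  · by_cases hm : m = a
    · exact Or.inl (hm.trans v0.symm)
    · exact Or.inr ⟨f m, (hu' _ _ ⟨hm, rfl⟩).symm⟩

end Vale.Agent.P247C.RSp
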