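import Vale.Agent.P247C.RTDev

/-!
# P247, block C: a compact Riemann surface with a zero free holomorphic form is a torus
-/

set_option linter.all false

open scoped Topology Manifold ContDiff
open Set Filter Metric

noncomputable section

namespace Vale.Agent.P247C.RT

variable {M : Type} [TopologicalSpace M] [ChartedSpace ℂ M]

theorem clm_one (A : ℂ →L[ℂ] ℂ) (v : ℂ) : A v = v * A 1 := by
  have := A.map_smul v 1
  simpa using this

section d1

variable {N N' N'' : Type} [TopologicalSpace N] [ChartedSpace ℂ N] [TopologicalSpace N']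
  [ChartedSpace ℂ N'] [TopologicalSpace N''] [ChartedSpace ℂ N'']

/-- the derivative of a map of Riemann surfaces, in the preferred charts -/
def d1 (f : N → N') (x : N) : ℂ := mfderiv 𝓘(ℂ) 𝓘(ℂ) f x (1 : ℂ)

theorem d1_comp {g : N' → N''} {f : N → N'} {x : N} (hg : MDifferentiableAt 𝓘(ℂ) 𝓘(ℂ) g (f x))
    (hf : MDifferentiableAt 𝓘(ℂ) 𝓘(ℂ) f x) : d1 (g ∘ f) x = d1 g (f x) * d1 f x := by
  rw [mul_comm]
  unfold d1
  rw [mfderiv_comp x hg hf]
  exact clm_one (mfderiv 𝓘(ℂ) 𝓘(ℂ) g (f x)) _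

theorem d1_deriv (f : ℂ → ℂ) (x : ℂ) : d1 f x = deriv f x := by
  unfold d1
  rw [mfderiv_eq_fderiv]; rfl

theorem d1_congr {f f' : N → N'} {x : N} (h : f =ᶠ[𝓝 x] f') : d1 f x = d1 f' x := by
  unfold d1
  rw [h.mfderiv_eq]; rfl

theorem d1_id (x : N) : d1 (id : N → N) x = 1 := by
  unfold d1
  rw [mfderiv_id]; rfl

theorem d1_symm {e : OpenPartialHomeomorph N N'} (he : e.MDifferentiable 𝓘(ℂ) 𝓘(ℂ)) {x : N}
    (hx : x ∈ e.source) : d1 e.symm (e x) * d1 e x = 1 := by
  rw [← d1_comp (he.mdifferentiableAt_symm (e.map_source hx)) (he.mdifferentiableAt hx)]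
  exact (d1_congr (e.eventually_left_inverse hx)).trans (d1_id x)

end d1

/-- charts which are primitives of the form `th` -/
def Prim (th : M → ℂ) (e : OpenPartialHomeomorph M ℂ) : Prop :=
  e.MDifferentiable 𝓘(ℂ) 𝓘(ℂ) ∧ ∀ y ∈ e.source, d1 e y = th y

theorem exists_prim [IsManifold 𝓘(ℂ) 1 M] {th : M → ℂ} {m : M}
    (han : AnalyticAt ℂ (fun z => th ((chartAt ℂ m).symm z) * d1 (chartAt ℂ m).symm z)
      (chartAt ℂ m m)) (h0 : th m ≠ 0) : ∃ e, Prim th e ∧ m ∈ e.source := by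
  set φ := chartAt ℂ m with hφ
  set h : ℂ → ℂ := fun z => th (φ.symm z) * d1 φ.symm z with hh
  have hφd : φ.MDifferentiable 𝓘(ℂ) 𝓘(ℂ) := mdifferentiable_chart m
  have hm : m ∈ φ.source := mem_chart_source ℂ m
  have hh0 : h (φ m) ≠ 0 := by
    simp only [hh, φ.left_inv hm]
    exact mul_ne_zero h0 (left_ne_zero_of_mul_eq_one (d1_symm hφd hm))
  obtain ⟨r, hr, hb⟩ := Metric.eventually_nhds_iff_ball.1
    (han.eventually_analyticAt.and (han.continuousAt.eventually_ne hh0))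
  have hdo : DifferentiableOn ℂ h (ball (φ m) r) :=
    fun z hz => (hb z hz).1.differentiableAt.differentiableWithinAt
  obtain ⟨H, hH⟩ := hdo.isExactOn_ball
  have hHd : DifferentiableOn ℂ H (ball (φ m) r) :=
    fun z hz => (hH z hz).differentiableAt.differentiableWithinAt
  have hHa : AnalyticAt ℂ H (φ m) := hHd.analyticAt (ball_mem_nhds _ hr)
  have hst : HasStrictDerivAt H (h (φ m)) (φ m) := by
    have := hHa.hasStrictDerivAt
    rwa [(hH _ (mem_ball_self hr)).deriv] at this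
  set g₀ := (hst.hasStrictFDerivAt_equiv hh0).toOpenPartialHomeomorph H with hg₀
  set g := g₀.restrOpen (ball (φ m) r) isOpen_ball with hg
  have hgH : (g : ℂ → ℂ) = H := rfl
  have hgs : ∀ z ∈ g.source, z ∈ ball (φ m) r := fun z hz => hz.2
  have hgd : g.MDifferentiable 𝓘(ℂ) 𝓘(ℂ) := by
    refine ⟨fun z hz => ?_, fun w hw => ?_⟩
    · exact (hH z (hgs z hz)).differentiableAt.mdifferentiableAt.mdifferentiableWithinAt
    · have hz := hgs _ (g.map_target hw)
      exact (g.hasDerivAt_symm hw (hb _ hz).2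
        (hH _ hz)).differentiableAt.mdifferentiableAt.mdifferentiableWithinAt
  refine ⟨φ.trans g, ⟨hφd.trans hgd, fun y hy => ?_⟩, hm, ?_⟩
  · have hy1 : y ∈ φ.source := hy.1
    have hy2 : φ y ∈ ball (φ m) r := hgs _ hy.2
    show d1 (H ∘ φ) y = _
    rw [d1_comp (hH _ hy2).differentiableAt.mdifferentiableAt (hφd.mdifferentiableAt hy1),
      d1_deriv, (hH _ hy2).deriv]
    simp only [hh, φ.left_inv hy1]
    rw [mul_assoc, d1_symm hφd hy1, mul_one]
  · exact ⟨(hst.hasStrictFDerivAt_equiv hh0).mem_toOpenPartialHomeomorph_source,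
      mem_ball_self hr⟩

theorem prim_tr {th : M → ℂ} {e e' : OpenPartialHomeomorph M ℂ} (he : Prim th e)
    (he' : Prim th e') {x : M} (hx : x ∈ e.source) (hx' : x ∈ e'.source) :
    ∀ᶠ y in 𝓝 x, e' y - e' x = e y - e x := by
  have ho : IsOpen (e.target ∩ e.symm ⁻¹' e'.source) :=
    e.symm.isOpen_inter_preimage e'.open_source
  obtain ⟨r, hr, hb⟩ := Metric.isOpen_iff.1 ho (e x)
    ⟨e.map_source hx, by simpa [e.left_inv hx] using hx'⟩
  have hd : ∀ w ∈ ball (e x) r, HasDerivAt (fun w => (e' ∘ e.symm) w - w) 0 w := by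
    intro w hw
    obtain ⟨h1, h2⟩ := hb hw
    have hs := e.map_target h1
    have h3 : DifferentiableAt ℂ (e' ∘ e.symm) w := ((he'.1.mdifferentiableAt h2).comp w
      (he.1.mdifferentiableAt_symm h1)).differentiableAt
    have h5 := d1_symm he.1 hs
    rw [e.right_inv h1, he.2 _ hs, ← he'.2 _ h2, mul_comm,
      ← d1_comp (he'.1.mdifferentiableAt h2) (he.1.mdifferentiableAt_symm h1), d1_deriv] at h5
    have h6 := h3.hasDerivAt.fun_sub (hasDerivAt_id' w)
    rwa [h5, sub_self] at h6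
  have hc : ∀ w ∈ ball (e x) r, e' (e.symm w) - w = e' (e.symm (e x)) - e x := fun w hw =>
    isOpen_ball.is_const_of_deriv_eq_zero (convex_ball _ _).isPreconnected
      (fun w hw => (hd w hw).differentiableAt.differentiableWithinAt)
      (fun w hw => (hd w hw).deriv) hw (mem_ball_self hr)
  filter_upwards [(e.continuousAt hx).eventually (ball_mem_nhds _ hr),
    e.open_source.mem_nhds hx] with y h1 h2
  have := hc _ h1
  rw [e.left_inv h2, e.left_inv hx] at this
  linear_combination this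

/-- **TORUS** -/
theorem torus0 [IsManifold 𝓘(ℂ) 1 M] [CompactSpace M] [T2Space M] [ConnectedSpace M]
    {th : M → ℂ} (han : ∀ m, AnalyticAt ℂ
      (fun z => th ((chartAt ℂ m).symm z) * d1 (chartAt ℂ m).symm z) (chartAt ℂ m m))
    (h0 : ∀ m, th m ≠ 0) :
    ∃ (u : ℂ → M) (τ : ℂ), 0 < τ.im ∧ MDifferentiable 𝓘(ℂ) 𝓘(ℂ) u ∧
      (∀ z, d1 u z ≠ 0) ∧ Function.Surjective u ∧
      ∀ z z', u z = u z' ↔ ∃ m n : ℤ, z' = z + m + n * τ := by
  let T : TrA M := ⟨{e | Prim th e}, fun x => exists_prim (han x) (h0 x),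
    fun e he e' he' x hx hx' => prim_tr he he' hx hx'⟩
  obtain ⟨u, a, τ, hu, hs, ha, hτ, hp⟩ := dev_torus T
  have key : ∀ z, MDifferentiableAt 𝓘(ℂ) 𝓘(ℂ) (fun w => u (a * w)) z ∧
      d1 (fun w => u (a * w)) z ≠ 0 := by
    intro z
    obtain ⟨e, he, hz⟩ := T.cov (u (a * z))
    have he' : Prim th e := he
    have ht : Tendsto (fun w => a * w) (𝓝 z) (𝓝 (a * z)) := (continuous_const_mul a).continuousAt
    have h1 := ht.eventually ((hu (a * z)).all he hz)
    set k : ℂ → ℂ := fun w => e (u (a * z)) + (a * w - a * z) with hk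
    have hkz : k z = e (u (a * z)) := by simp [hk]
    have h2 : (fun w => u (a * w)) =ᶠ[𝓝 z] e.symm ∘ k := by
      filter_upwards [h1] with w hw
      simp only [Function.comp, hk]
      rw [← hw.2, add_sub_cancel, e.left_inv hw.1]
    have h3 : HasDerivAt k a z := by
      have := (((hasDerivAt_id' z).const_mul a).sub_const (a * z)).const_add (e (u (a * z)))
      rwa [mul_one] at this
    have h4 : MDifferentiableAt 𝓘(ℂ) 𝓘(ℂ) e.symm (k z) := by
      rw [hkz]; exact he'.1.mdifferentiableAt_symm (e.map_source hz)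
    refine ⟨(h4.comp z h3.differentiableAt.mdifferentiableAt).congr_of_eventuallyEq h2, ?_⟩
    rw [d1_congr h2, d1_comp h4 h3.differentiableAt.mdifferentiableAt, d1_deriv, h3.deriv, hkz]
    exact mul_ne_zero (left_ne_zero_of_mul_eq_one (d1_symm he'.1 hz)) ha
  refine ⟨fun w => u (a * w), τ, hτ, fun z => (key z).1, fun z => (key z).2, fun y => ?_,
    fun z z' => (hp _ _).trans ⟨?_, ?_⟩⟩
  · obtain ⟨z, rfl⟩ := hs y
    exact ⟨z / a, by simp only []; rw [mul_div_cancel₀ _ ha]⟩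
  · rintro ⟨m, n, h⟩
    exact ⟨m, n, mul_left_cancel₀ ha (by rw [h]; ring)⟩
  · rintro ⟨m, n, h⟩
    exact ⟨m, n, by rw [h]; ring⟩

end Vale.Agent.P247C.RT
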