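import Vale.Agent.P247C.Defs
import Vale.Agent.P247C.RTTor0

/-!
# P247, block C: row TORUS
-/

set_option linter.all false

open scoped Topology Manifold ContDiff
open Set Filter Metric

noncomputable section

namespace Vale.Agent.P247C

open RT

theorem dM_eq {M : Type} [TopologicalSpace M] [ChartedSpace ℂ M] (σ : ℂ → M) (z : ℂ) :
    dM σ z = d1 σ z := rfl

theorem holAt_chart {M : Type} [TopologicalSpace M] [ChartedSpace ℂ M] [IsManifold 𝓘(ℂ) 1 M]
    (m : M) {z : ℂ} (hz : z ∈ (chartAt ℂ m).target) : HolAt (chartAt ℂ m).symm z := by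
  filter_upwards [(chartAt ℂ m).open_target.mem_nhds hz] with y hy
  exact (mdifferentiable_chart m).mdifferentiableAt_symm hy

/-- **TORUS** -/
theorem torus : TORUS := by
  intro M _ θ hθ h0
  obtain ⟨u, τ, h1, h2, h3, h4, h5⟩ := torus0 (th := θ)
    (fun m => hθ _ _ (holAt_chart m (mem_chart_target ℂ m))) h0
  exact ⟨u, τ, h1, h2, h3, h4, fun m n z => ((h5 z _).2 ⟨m, n, rfl⟩).symm,
    fun z z' h => (h5 z z').1 h⟩

end Vale.Agent.P247C
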