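import Vale.Agent.P247C.RS1
import Vale.Agent.P247C.RS2
import Vale.Agent.P247C.RTTor

/-!
# P247, block C: row DICH
-/

set_option linter.all false

open scoped Topology Manifold ContDiff ComplexConjugate
open Set Filter Metric

noncomputable section

namespace Vale.Agent.P247C.RSp

open RT Vale.Agent.P272.K

variable {M : Type} [TopologicalSpace M] [ChartedSpace ℂ M]

/-- the identification of `ℂ` with `ℂ¹` -/
def L1 : ℂ ≃L[ℂ] Cm 1 := (ContinuousLinearEquiv.funUnique (Fin 1) ℂ ℂ).symm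

/-- a chart with values in `ℂ¹` -/
def ch1 (e : OpenPartialHomeomorph M ℂ) : Chart 1 M := e.transHomeomorph L1.toHomeomorph

/-- the charted space over `ℂ¹` -/
@[reducible] def cs1 (M : Type) [TopologicalSpace M] [ChartedSpace ℂ M] :
    ChartedSpace (Cm 1) M where
  atlas := ch1 '' atlas ℂ M
  chartAt x := ch1 (chartAt ℂ x)
  mem_chart_source x := mem_chart_source ℂ x
  chart_mem_atlas x := ⟨_, chart_mem_atlas ℂ x, rfl⟩

variable [IsManifold 𝓘(ℂ) 1 M]

theorem isManifold1 :
    letI := cs1 M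
    IsManifold 𝓘(ℂ, Cm 1) ω M := by
  let _ := cs1 M
  refine isManifold_of_contDiffOn _ _ _ ?_
  rintro _ _ ⟨e, he, rfl⟩ ⟨e', he', rfl⟩
  have h0 := ((contDiffGroupoid 1 𝓘(ℂ)).compatible he he').1
  have h1 : ContDiffOn ℂ 1 (fun z => e' (e.symm z)) (e.symm ≫ₕ e').source := by
    simpa [contDiffPregroupoid, Function.comp_def] using h0
  have h := ((h1.differentiableOn one_ne_zero).analyticOnNhd
    (e.symm ≫ₕ e').open_source).contDiffOn_of_completeSpace (n := ω)
  have h2 := L1.contDiff.comp_contDiffOn (h.comp (s := L1.symm ⁻¹' (e.symm ≫ₕ e').source)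
    L1.symm.contDiff.contDiffOn fun _ h => h)
  refine h2.congr_mono (fun _ _ => rfl) ?_
  rintro w ⟨hw, -⟩
  exact hw

theorem back {e : OpenPartialHomeomorph M ℂ} (he : e ∈ atlas ℂ M) {x : M} (hx : x ∈ e.source)
    {g : Cm 1 → ℂ} (hg : AnalyticAt ℂ g (ch1 e x)) : Hol (fun y => g (ch1 e y)) x :=
  (hol_chart he hx).comp (g := fun z => g (L1 z))
    (hg.comp_of_eq (L1.toContinuousLinearMap.analyticAt (e x)) rfl)

theorem pole [T2Space M] [CompactSpace M] [ConnectedSpace M] (a : M) (ζ : ℂ) : ∃ u : M → ℝ,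
    (∀ x, x ≠ a → ∃ P, Hol P x ∧ ∀ᶠ y in 𝓝 x, u y = (P y).re) ∧
    ∃ P, Hol P a ∧ ∀ᶠ y in 𝓝 a, u y = (ζ * (chartAt ℂ a y - chartAt ℂ a a)⁻¹ + P y).re := by
  let _ := cs1 M
  have _ : IsManifold 𝓘(ℂ, Cm 1) ω M := isManifold1
  have hAt : At (ch1 (chartAt ℂ a)) a := ⟨⟨_, chart_mem_atlas ℂ a, rfl⟩, mem_chart_source ℂ a⟩
  obtain ⟨u, h1, g, hg, h2⟩ := pole1 hAt ζ
  refine ⟨u, fun x hx => ?_, _, back (chart_mem_atlas ℂ a) (mem_chart_source ℂ a) hg, ?_⟩
  · obtain ⟨_, ⟨⟨e, he, rfl⟩, hxe⟩, g, hg, h3⟩ := h1 x hx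
    refine ⟨_, back he hxe hg, ?_⟩
    filter_upwards [((ch1 e).continuousAt hxe).eventually h3, (ch1 e).open_source.mem_nhds hxe]
      with y b c
    rwa [(ch1 e).left_inv c] at b
  · have ha : a ∈ (ch1 (chartAt ℂ a)).source := mem_chart_source ℂ a
    filter_upwards [((ch1 _).continuousAt ha).eventually h2, (ch1 _).open_source.mem_nhds ha]
      with y b c
    rwa [(ch1 _).left_inv c] at b

theorem d1_sub {F G : M → ℂ} {m : M} (hF : Hol F m) (hG : Hol G m) :
    d1 (fun y => F y - G y) m = d1 F m - d1 G m := by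
  have he := chart_mem_atlas ℂ m
  have hm := mem_chart_source ℂ m
  rw [d1_eq (hF.sub hG) he hm, d1_eq hF he hm, d1_eq hG he hm, ← sub_mul]
  congr 1
  exact deriv_sub (hF.an he hm).differentiableAt (hG.an he hm).differentiableAt

theorem d1_conj {F G : M → ℂ} {m : M} (hF : Hol F m) (hG : Hol G m)
    (h : ∀ᶠ y in 𝓝 m, G y = conj (F y)) : d1 F m = 0 := by
  have he := chart_mem_atlas ℂ m
  have hm := mem_chart_source ℂ m
  rw [d1_eq hF he hm]
  refine mul_eq_zero_of_left ?_ _
  set e := chartAt ℂ m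
  have a := ((hF.an he hm).differentiableAt.hasDerivAt.hasFDerivAt).restrictScalars ℝ
  have b := ((hG.an he hm).differentiableAt.hasDerivAt.hasFDerivAt).restrictScalars ℝ
  have c := (Complex.conjCLE.toContinuousLinearMap.hasFDerivAt.comp (e m) a).congr_of_eventuallyEq
    (f₁ := G ∘ e.symm) (ev_symm hm h)
  have d := b.unique c
  have d1 := congrArg (fun L : ℂ →L[ℝ] ℂ => L 1) d
  have d2 := congrArg (fun L : ℂ →L[ℝ] ℂ => L Complex.I) d
  simp at d1 d2
  rw [d1] at d2
  have h3 : conj (deriv (F ∘ e.symm) (e m)) = 0 := by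
    have h4 : (2 * Complex.I) * conj (deriv (F ∘ e.symm) (e m)) = 0 := by linear_combination d2
    exact (mul_eq_zero.1 h4).resolve_left (mul_ne_zero two_ne_zero Complex.I_ne_zero)
  simpa using h3

theorem Hol.const_of {F : M → ℂ} {m : M} (hF : Hol F m) (h : ∀ᶠ y in 𝓝 m, d1 F y = 0) :
    ∀ᶠ y in 𝓝 m, F y = F m := by
  have he := chart_mem_atlas ℂ m
  have hm := mem_chart_source ℂ m
  set e := chartAt ℂ m
  have h1 : ∀ᶠ z in 𝓝 (e m), HasDerivAt (F ∘ e.symm) 0 z := by
    filter_upwards [ev_symm hm (h.and hF.ev), e.open_target.mem_nhds (e.map_source hm)]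
      with z b c
    have h2 := d1_eq b.2 he (e.map_target c)
    have h3 := (b.2.an he (e.map_target c)).differentiableAt.hasDerivAt
    rw [b.1] at h2
    rw [(mul_eq_zero.1 h2.symm).resolve_right (d1_chart_ne he (e.map_target c)),
      e.right_inv c] at h3
    exact h3
  obtain ⟨r, hr, hb⟩ := Metric.eventually_nhds_iff_ball.1 h1
  filter_upwards [(e.continuousAt hm).eventually (ball_mem_nhds _ hr), e.open_source.mem_nhds hm]
    with y b c
  have := isOpen_ball.is_const_of_deriv_eq_zero (convex_ball _ _).isPreconnected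
    (fun w hw => (hb w hw).differentiableAt.differentiableWithinAt)
    (fun w hw => (hb w hw).deriv) b (mem_ball_self hr)
  simpa [e.left_inv c, e.left_inv hm] using this

theorem split (p q : ℂ) : (p.re : ℂ) + Complex.I * q.re =
    1 / 2 * (p + Complex.I * q) + conj (1 / 2 * (p - Complex.I * q)) := by
  apply Complex.ext <;> simp <;> ring

theorem dipole [T2Space M] [CompactSpace M] [ConnectedSpace M] (a : M) :
    ∃ (f : M → ℂ) (A B : M → M → ℂ), (∀ m, Hol (A m) m ∧ Hol (B m) m) ∧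
      (∀ m, m ≠ a → ∀ᶠ y in 𝓝 m, f y = A m y + conj (B m y)) ∧
      ∀ᶠ y in 𝓝 a, f y = (chartAt ℂ a y - chartAt ℂ a a)⁻¹ + A a y + conj (B a y) := by
  classical
  obtain ⟨u, hu, P, hP, hu'⟩ := pole a 1
  obtain ⟨v, hv, Q, hQ, hv'⟩ := pole a (-Complex.I)
  have key : ∀ m, ∃ A B : M → ℂ, (Hol A m ∧ Hol B m) ∧
      (m ≠ a → ∀ᶠ y in 𝓝 m, (u y : ℂ) + Complex.I * v y = A y + conj (B y)) ∧
      (m = a → ∀ᶠ y in 𝓝 a, (u y : ℂ) + Complex.I * v y =
        (chartAt ℂ a y - chartAt ℂ a a)⁻¹ + A y + conj (B y)) := by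
    intro m
    have hol : ∀ {P Q : M → ℂ}, Hol P m → Hol Q m →
        Hol (fun y => 1 / 2 * (P y + Complex.I * Q y)) m ∧
          Hol (fun y => 1 / 2 * (P y - Complex.I * Q y)) m := fun h h' =>
      ⟨(Hol.const _ _).mul (h.add ((Hol.const _ _).mul h')),
        (Hol.const _ _).mul (h.sub ((Hol.const _ _).mul h'))⟩
    by_cases hm : m = a
    · subst hm
      refine ⟨_, _, hol hP hQ, fun h => absurd rfl h, fun _ => ?_⟩
      filter_upwards [hu', hv'] with y b c
      rw [b, c, split]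
      congr 1
      · linear_combination (-1 / 2 * (chartAt ℂ m y - chartAt ℂ m m)⁻¹) * Complex.I_mul_I
      · congr 1
        linear_combination (1 / 2 * (chartAt ℂ m y - chartAt ℂ m m)⁻¹) * Complex.I_mul_I
    · obtain ⟨P, hP, h1⟩ := hu m hm
      obtain ⟨Q, hQ, h2⟩ := hv m hm
      refine ⟨_, _, hol hP hQ, fun _ => ?_, fun h => absurd h hm⟩
      filter_upwards [h1, h2] with y b c
      rw [b, c, split]
  choose A B h1 h2 h3 using key
  exact ⟨fun y => (u y : ℂ) + Complex.I * v y, A, B, h1, h2, h3 a rfl⟩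

end Vale.Agent.P247C.RSp

namespace Vale.Agent.P247C

open RSp RT in
/-- **DICH** -/
theorem dich : DICH := by
  intro M _
  obtain ⟨a⟩ : Nonempty M := inferInstance
  obtain ⟨f, A, B, hol, h1, h2⟩ := dipole a
  have he := chart_mem_atlas ℂ a
  have ha := mem_chart_source ℂ a
  set e := chartAt ℂ a with hee
  have hk : ∀ y ∈ e.source, y ≠ a → Hol (fun y => (e y - e a)⁻¹) y := fun y hy hya =>
    ((hol_chart he hy).sub (Hol.const _ _)).inv fun h => hya (e.injOn hy ha (sub_eq_zero.1 h))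
  have glue : ∀ m, ∀ᶠ y in 𝓝 m, d1 (B y) y = d1 (B m) y := by
    intro m
    have main : ∀ y, y ≠ a → ∀ A' : M → ℂ, Hol A' y → Hol (B m) y →
        (∀ᶠ t in 𝓝 y, f t = A' t + conj (B m t)) → d1 (B y) y = d1 (B m) y := by
      intro y hy A' b c d
      rw [← sub_eq_zero, ← d1_sub (hol y).2 c]
      refine d1_conj ((hol y).2.sub c) (b.sub (hol y).1) ?_
      filter_upwards [h1 y hy, d] with t p q
      rw [map_sub]
      linear_combination p - q
    by_cases hm : m = a
    · subst hm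
      filter_upwards [h2.eventually_nhds, (hol m).1.ev, (hol m).2.ev, e.open_source.mem_nhds ha]
        with y b c d g
      by_cases hy : y = m
      · rw [hy]
      · exact main y hy _ ((hk y g hy).add c) d b
    · filter_upwards [(h1 m hm).eventually_nhds, (hol m).1.ev, (hol m).2.ev,
        isOpen_compl_singleton.mem_nhds hm] with y b c d g
      exact main y g _ c d b
  by_cases hθ : ∃ m, d1 (B m) m ≠ 0
  · refine Or.inl ⟨fun m => d1 (B m) m, fun σ z hσ => ?_, hθ⟩
    have hc : ContinuousAt σ z := hσ.self_of_nhds.continuousAt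
    have h3 : AnalyticAt ℂ (B (σ z) ∘ σ) z := by
      rw [Complex.analyticAt_iff_eventually_differentiableAt]
      filter_upwards [hσ, hc.eventually (hol (σ z)).2] with t b c
      exact (c.comp t b).differentiableAt
    refine h3.deriv.congr ?_
    filter_upwards [hσ, hc.eventually (hol (σ z)).2, hc.eventually (glue (σ z))] with t b c d
    rw [← d1_deriv, d1_comp c b, pbk, d, dM_eq]
  · push Not at hθ
    have hB : ∀ m, ∀ᶠ y in 𝓝 m, B m y = B m m := fun m =>
      (hol m).2.const_of ((glue m).mono fun y hy => hy ▸ hθ y)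
    set R : M → ℂ := fun y => 1 + (e y - e a) * (A a y + conj (B a a)) with hR
    have hE : Hol (fun y => e y - e a) a := (hol_chart he ha).sub (Hol.const _ _)
    have hRh : Hol R a := (Hol.const _ _).add (hE.mul ((hol a).1.add (Hol.const _ _)))
    have hR1 : R a = 1 := by simp [hR]
    have hRi : Hol (fun y => (R y)⁻¹) a := hRh.inv (by rw [hR1]; exact one_ne_zero)
    have hp : Pole f (fun y => (e y - e a) * (R y)⁻¹) a := by
      refine ⟨fun m hm => ((hol m).1.add (Hol.const (conj (B m m)) m)).congr ?_, hE.mul hRi,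
        by simp, ?_, ?_⟩
      · filter_upwards [h1 m hm, hB m] with y b c
        rw [b, c]
      · rw [d1_eq (hE.mul hRi) he ha]
        refine mul_ne_zero ?_ (d1_chart_ne he ha)
        have e1 : (fun y => (e y - e a) * (R y)⁻¹) ∘ e.symm =ᶠ[𝓝 (e a)]
            fun z => (z - e a) * ((fun y => (R y)⁻¹) ∘ e.symm) z := by
          filter_upwards [e.open_target.mem_nhds (e.map_source ha)] with z hz
          simp only [Function.comp, e.right_inv hz]
        have e2 := ((hasDerivAt_id' (e a)).sub_const (e a)).fun_mul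
          (hRi.an he ha).differentiableAt.hasDerivAt
        rw [e1.deriv_eq, e2.deriv]
        simp [e.left_inv ha, hR1]
      · filter_upwards [self_mem_nhdsWithin, mem_nhdsWithin_of_mem_nhds (h2.and (hB a)),
          mem_nhdsWithin_of_mem_nhds (e.open_source.mem_nhds ha)] with y b c d
        have h0 : e y - e a ≠ 0 := fun h => b (e.injOn d ha (sub_eq_zero.1 h))
        have e3 : f y = (e y - e a)⁻¹ * R y := by
          rw [c.1, c.2]
          simp only [hR]
          field_simp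
          ring
        rw [e3, mul_inv, inv_inv]
    obtain ⟨u, v, hu, hv, g1, g2, g3, g4⟩ := hp.sphere
    exact Or.inr ⟨u, v, fun z => (hu z).1, fun z => (hv z).1, fun z => (hu z).2,
      fun z => (hv z).2, g1, g2, g3, g4⟩

end Vale.Agent.P247C
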