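import Vale.Agent.P247C.T6

/-!
# P247, block C: good defining functions at regular points
-/

set_option linter.all false

open scoped Manifold ContDiff Topology
open Set MeasureTheory Filter Metric

noncomputable section

namespace Vale.Agent.P247C

open Vale.Agent.P247.SCY Vale.Agent.P247.SCY.HS Vale.Agent.P247X

namespace Rg

variable {X : Type} [Cl4 X] {μ : Form X 4} {w : Tri X}

theorem w0_anti (hw : Hypersymplectic μ w) (x : X) (a v : TangentSpace (𝓡 4) x) :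
    w 0 x ![Jw w x a, Jw w x v] = - w 0 x ![a, v] := Jf_anti_B (defAt hw) x a v

theorem w0_J (hw : Hypersymplectic μ w) (x : X) (a v : TangentSpace (𝓡 4) x) :
    w 0 x ![Jw w x a, v] = w 0 x ![a, Jw w x v] := by
  have h := w0_anti hw x a (Jw w x v)
  rw [jw_sq hw] at h
  have h2 : w 0 x ![Jw w x a, -v] = - w 0 x ![Jw w x a, v] :=
    (w 0 x).toMultilinearMap.map_update_neg ![Jw w x a, v] 1 v |>.symm.symm |> fun e => by
      have e1 : Function.update ![Jw w x a, v] 1 (-v) = ![Jw w x a, -v] := by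
        funext i; fin_cases i <;> rfl
      have e2 : Function.update ![Jw w x a, v] 1 v = ![Jw w x a, v] := by
        funext i; fin_cases i <;> rfl
      rw [e1, e2] at e
      exact e
  rw [h2] at h
  exact neg_injective h

theorem om_lin (w : Tri X) (x : X) (a b v : TangentSpace (𝓡 4) x) (r s : ℝ) :
    OmX w x (r • a + s • b) v = r * OmX w x a v + s * OmX w x b v := by
  have h : ∀ z, w 0 x ![r • a + s • b, z] = r * w 0 x ![a, z] + s * w 0 x ![b, z] := fun z => by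
    have h1 := (w 0 x).toAlternatingMap.map_vecCons_add ![z] (r • a) (s • b)
    have h2 := (w 0 x).toAlternatingMap.map_vecCons_smul ![z] r a
    have h3 := (w 0 x).toAlternatingMap.map_vecCons_smul ![z] s b
    exact h1.trans (congrArg₂ (· + ·) h2 h3)
  unfold OmX
  rw [h, h]
  push_cast
  ring

theorem om_J (hw : Hypersymplectic μ w) (x : X) (a v : TangentSpace (𝓡 4) x) :
    OmX w x (Jw w x a) v = Complex.I * OmX w x a v := by
  unfold OmX
  rw [w0_J hw, w0_anti hw]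
  push_cast
  linear_combination (w 0 x ![a, Jw w x v] : ℂ) * Complex.I_mul_I

/-- `OmX` is complex linear along a `J`-curve -/
theorem om_dm (hw : Hypersymplectic μ w) {u : ℂ → X} {z : ℂ} (h : JAt (Jw w) u z) (e : ℂ)
    (v : TangentSpace (𝓡 4) (u z)) :
    OmX w (u z) (dm u z e) v = e * OmX w (u z) (dm u z 1) v := by
  rw [dm_expand u z e, h, om_lin, om_J hw]
  conv_rhs => rw [← Complex.re_add_im e]
  ring

/-- `OmX` is nondegenerate -/
theorem om_ne (hw : Hypersymplectic μ w) (x : X) {a : TangentSpace (𝓡 4) x} (ha : a ≠ 0) :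
    ∃ v, OmX w x a v ≠ 0 := by
  have h := Jf_tames' (defAt_of_triPos (tri_of_posDef hw.posDef)) x a ha
  refine ⟨Jf (w 0) (w 1) (w 2) x a, fun e => h.ne' ?_⟩
  have := congrArg Complex.re e
  simp only [OmX, Complex.sub_re, Complex.ofReal_re, Complex.mul_re, Complex.I_re, zero_mul,
    Complex.ofReal_im, mul_zero, sub_zero, Complex.zero_re] at this
  exact this

theorem cn_ne (hw : Hypersymplectic μ w) {s : X → ℂ} {c : ℂ} {x : X} {a : TangentSpace (𝓡 4) x}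
    (ha : a ≠ 0) (h : Cn (1 / 2) w s c x a) : c ≠ 0 := by
  rintro rfl
  obtain ⟨v, hv⟩ := om_ne hw x ha
  have h1 := h v
  rw [zero_mul, zero_sub, norm_neg] at h1
  have := norm_pos_iff.2 hv
  linarith

theorem cn_aux {c c₀ e t O : ℂ} (hc : c ≠ 0) (h : ‖c * t - O‖ ≤ 1 / 4 * ‖O‖)
    (h1 : 1 / 4 * ‖c₀ / c‖ + ‖c₀ / c - e‖ ≤ 1 / 2 * ‖e‖) : ‖c₀ * t - e * O‖ ≤ 1 / 2 * ‖e * O‖ := by
  have e1 : c₀ * t - e * O = c₀ / c * (c * t - O) + (c₀ / c - e) * O := by
    field_simp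
    ring
  rw [e1, norm_mul]
  refine (norm_add_le _ _).trans ?_
  rw [norm_mul, norm_mul]
  have := mul_le_mul_of_nonneg_left h (norm_nonneg (c₀ / c))
  have := mul_le_mul_of_nonneg_right h1 (norm_nonneg O)
  nlinarith

end Rg

open Rg

theorem regl_of (hL : LOC) : REGL := by
  intro X _ μ hμ w hw K P E o hV x hx hP
  obtain ⟨N, u, U, hb, -⟩ := K.loc x hx
  obtain ⟨hN, h1⟩ := (hV.reg x hx hP).2 N u U hb
  obtain ⟨Λ, c, D, m, -, h2, -, -, -, h3, -⟩ := hL X μ hμ w hw K.K x N u U hb 0 Fin.elim0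
    (fun j => j.elim0) (fun j => j.elim0) univ univ_mem
  obtain ⟨h4, h5⟩ := h3 hN fun l => (h1 l).1
  have hB : Λ.B ∈ 𝓝 x := Λ.opn.mem_nhds (Λ.sub Λ.mem)
  refine ⟨Λ.B, Λ.s, Λ.opn, Λ.sub Λ.mem, h4, fun y hy hK => ?_, ?_⟩
  · by_cases hΔ : y ∈ Λ.Δ
    · rw [Λ.only y hΔ hK, Λ.zero_p]
    · exact (Λ.zero y ⟨hy, hΔ⟩).2 hK
  subst hN
  obtain ⟨e, he, e0, he'⟩ := (h1 0).2
  obtain ⟨c1, c2, c3⟩ := h5 0
  have t1 : Tendsto (fun z => c 0 0 * e 0 / c 0 z) (𝓝 0) (𝓝 (e 0)) := by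
    have := (tendsto_const_nhds (x := c 0 0 * e 0)).div c1.tendsto c2
    rwa [mul_div_cancel_left₀ _ c2] at this
  have t2 : ∀ᶠ z in 𝓝 (0 : ℂ), 1 / 4 * ‖c 0 0 * e 0 / c 0 z‖ + ‖c 0 0 * e 0 / c 0 z - e z‖ <
      1 / 2 * ‖e z‖ := by
    refine ((t1.norm.const_mul _).add (t1.sub he.tendsto).norm).eventually_lt
      (he.tendsto.norm.const_mul _) ?_
    have := norm_pos_iff.2 e0
    rw [sub_self, norm_zero]
    linarith
  have t3 : ∀ᶠ z in 𝓝 (0 : ℂ), u 0 z ∈ Λ.B :=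
    (hb.cmd 0 (mem_ball_self two_pos)).continuousAt.eventually (by rw [hb.zero]; exact hB)
  obtain ⟨δ, hδ, h6⟩ := Metric.eventually_nhds_iff_ball.1
    (t2.and (t3.and (he'.and (ball_mem_nhds (0 : ℂ) one_pos))))
  refine ⟨c 0 0 * e 0, ?_⟩
  filter_upwards [hb.iUnion_mem hδ] with y hy
  obtain ⟨l, z, hz, rfl⟩ := mem_iUnion.1 hy
  obtain rfl : l = 0 := Subsingleton.elim _ _
  obtain ⟨a1, a2, a3, a4⟩ := h6 z hz
  have h7 : c 0 z ≠ 0 ∧ Cn (1 / 4) w Λ.s (c 0 z) (u 0 z) (dm (u 0) z 1) := by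
    by_cases z0 : z = 0
    · subst z0; exact ⟨c2, c3⟩
    · exact (h2 0 z a4 z0 a2).2
  intro v
  rw [a3, om_dm hw (hb.hol 0 z (b12 a4))]
  exact cn_aux h7.1 (h7.2 v) a1.le

end Vale.Agent.P247C
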