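import Vale.Agent.P247C.T5
import Vale.Agent.P247M.PB

/-!
# P247, block C, row SMALL: closed two-forms can be moved away from small balls
-/

set_option linter.all false

open scoped Manifold ContDiff Topology
open Set Filter Metric

noncomputable section

namespace Vale.Agent.P247C

open Vale.Agent.P247.SCY Vale.Agent.P247.SCY.HS Vale.Agent.P247X Vale.Agent.P247M
open Vale.Agent.P267.H175 (SmAt dF)
open Vale.Agent.P267

variable {X : Type} [Cl4 X]

/-- cutting off a form which is smooth on the support of the cut-off function -/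
theorem smAt_cut {k : ℕ} {κ : X → ℝ} {a : RF X k} {x : X} (hκ : SmF κ x)
    (ha : x ∈ tsupport κ → SmAt a x) : SmAt (fun y => κ y • a y) x := by
  by_cases h : x ∈ tsupport κ
  · exact smAt_fsmul hκ (ha h)
  · refine smAt_of_zero ?_
    filter_upwards [notMem_tsupport_iff_eventuallyEq.1 h] with y hy
    rw [hy, Pi.zero_apply, zero_smul]

/-- every point has small neighbourhoods on which closed two-forms are exact -/
theorem exists_ball (p : X) {W : Set X} (hW : W ∈ 𝓝 p) : ∃ B : Set X, IsOpen B ∧ p ∈ B ∧ B ⊆ W ∧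
    ∀ a : RF X 2, (∀ x, SmAt a x) → (∀ x, dF a x = 0) →
      ∃ b : RF X 1, (∀ x ∈ B, SmAt b x) ∧ ∀ x ∈ B, dF b x = a x := by
  set e := chartAt E4 p with he
  have hp : p ∈ e.source := mem_chart_source E4 p
  have h1 : e.target ∩ e.symm ⁻¹' W ∈ 𝓝 (e p) :=
    inter_mem (e.open_target.mem_nhds (e.map_source hp)) (tendsto_symm hp hW)
  obtain ⟨r, hr, hb⟩ := Metric.mem_nhds_iff.1 h1
  have ho : IsOpen (e.source ∩ e ⁻¹' ball (e p) r) := e.isOpen_inter_preimage isOpen_ball
  have him : e '' (e.source ∩ e ⁻¹' ball (e p) r) = ball (e p) r := by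
    refine Subset.antisymm ?_ fun z hz => ?_
    · rintro _ ⟨y, hy, rfl⟩
      exact hy.2
    · refine ⟨e.symm z, ⟨e.map_target (hb hz).1, ?_⟩, e.right_inv (hb hz).1⟩
      show e (e.symm z) ∈ ball (e p) r
      rwa [e.right_inv (hb hz).1]
  refine ⟨_, ho, ⟨hp, mem_ball_self hr⟩, fun y hy => ?_, fun a ha hc => ?_⟩
  · have h2 : e.symm (e y) ∈ W := (hb hy.2).2
    rwa [e.left_inv hy.1] at h2
  · exact exists_prim2 (chart_mem_atlas E4 p) ho inter_subset_left
      (by rw [him]; exact convex_ball _ _) (fun x _ => ha x) fun x _ => hc x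

theorem small : SMALL := by
  intro X _ P
  classical
  obtain ⟨W, hW, hd⟩ := P.finite_toSet.t2_separation
  choose B hBo hpB hBW hB using fun p : X => exists_ball p ((hW p).2.mem_nhds (hW p).1)
  have hV : ∀ p : X, ∃ V : Set X, IsOpen V ∧ p ∈ V ∧ closure V ⊆ B p := fun p => by
    obtain ⟨t, ht, htc, hts⟩ := exists_mem_nhds_isClosed_subset ((hBo p).mem_nhds (hpB p))
    exact ⟨interior t, isOpen_interior, mem_interior_iff_mem_nhds.2 ht,
      (closure_minimal interior_subset htc).trans hts⟩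
  choose V hVo hpV hVB using hV
  choose κ hκ _ hκB hκ1 using fun p : X => exists_bump isClosed_closure (hBo p) (hVB p)
  have hdB : ∀ p ∈ P, ∀ q ∈ P, p ≠ q → Disjoint (B p) (B q) := fun p hp q hq h =>
    (hd hp hq h).mono (hBW p) (hBW q)
  refine ⟨V, fun p _ => ⟨hVo p, hpV p⟩, fun p hp q hq h => (hdB p hp q hq h).mono
    (subset_closure.trans (hVB p)) (subset_closure.trans (hVB q)), fun Z hZ β hβ => ?_⟩
  obtain ⟨hs1, hc1⟩ := sc_iff.1 hβ
  choose η hη hdη using fun p : X => hB p (rf β) hs1 hc1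
  set θ : RF X 1 := ∑ p ∈ P, fun y => κ p y • η p y with hθ
  have hθs : ∀ x, SmAt θ x := fun x =>
    smAt_sum P fun p _ => smAt_cut (hκ p x) fun hx => hη p x (hκB p hx)
  have hU : IsOpen (⋃ p ∈ P, V p) := isOpen_biUnion fun p _ => hVo p
  refine ⟨hs (rf β - dF θ), sc_iff.2 ⟨fun x => smAt_sub (hs1 x) (smAt_dF' hθs x), fun x => ?_⟩,
    coh_iff.2 ⟨θ, hθs, ?_⟩, (⋃ p ∈ P, V p)ᶜ, hU.isClosed_compl.isCompact,
    compl_subset_compl.2 hZ, fun x hx => ?_⟩
  · rw [rf_hs, dF_sub (hs1 x) (smAt_dF' hθs x), hc1, dF_dF' hθs, sub_zero]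
  · rw [rf_hs, sub_sub_cancel]
  · obtain ⟨q, hq, hxq⟩ := mem_iUnion₂.1 (not_notMem.1 hx)
    have hxB : x ∈ B q := hVB q (subset_closure hxq)
    have h1 : θ =ᶠ[𝓝 x] η q := by
      filter_upwards [hκ1 q x (subset_closure hxq), (hBo q).mem_nhds hxB] with y h2 h3
      rw [hθ, Finset.sum_apply, Finset.sum_eq_single_of_mem q hq, h2, one_smul]
      intro p hp hpq
      rw [image_eq_zero_of_notMem_tsupport fun h4 =>
        disjoint_left.1 (hdB p hp q hq hpq) (hκB p h4) h3, zero_smul]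
    show rf β x - dF θ x = 0
    rw [H175.dF_congr h1, hdη q x hxB, sub_self]

end Vale.Agent.P247C
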