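import Vale.Agent.P247C.Regl
import Vale.Agent.P247M.LBOps

/-!
# P247, block C: the line bundle of a curve
-/

set_option linter.all false

open scoped Manifold ContDiff Topology
open Set MeasureTheory Filter Metric

noncomputable section

namespace Vale.Agent.P247C

open Vale.Agent.P247.SCY Vale.Agent.P247.SCY.HS Vale.Agent.P247X Vale.Agent.P247M

namespace Th

variable {X : Type} [Cl4 X]

theorem smC_inv {g : X → ℂ} {x : X} (h : SmC g x) (h0 : g x ≠ 0) : SmC (fun y => (g y)⁻¹) x :=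
  (contDiffAt_inv ℝ h0).comp_contMDiffAt h

theorem smC_sum {ι : Type} (t : Finset ι) {g : ι → X → ℂ} {x : X} (h : ∀ a ∈ t, SmC (g a) x) :
    SmC (fun y => ∑ a ∈ t, g a y) x ∧
      ∀ v, dfc (fun y => ∑ a ∈ t, g a y) x v = ∑ a ∈ t, dfc (g a) x v := by
  classical
  induction t using Finset.induction_on with
  | empty => exact ⟨by simpa using contMDiffAt_const, fun v => by simpa using dfc_const 0 x v⟩
  | insert a t ha ih =>
    obtain ⟨h1, h2⟩ := ih fun b hb => h b (Finset.mem_insert_of_mem hb)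
    have h3 := h a (Finset.mem_insert_self _ _)
    simp only [Finset.sum_insert ha]
    exact ⟨h3.add h1, fun v => (dfc_add h3 h1 v).trans (by rw [h2])⟩

theorem cn_sum {ι : Type} (t : Finset ι) {ρ : ι → ℝ} {τ : ι → ℂ} {O : ℂ} {b : ℝ}
    (h0 : ∀ a, 0 ≤ ρ a) (hR : 0 < ∑ a ∈ t, ρ a) (h : ∀ a ∈ t, ρ a ≠ 0 → ‖τ a - O‖ ≤ b) :
    ‖(((∑ a ∈ t, ρ a)⁻¹ : ℝ) : ℂ) * ∑ a ∈ t, (ρ a : ℂ) * τ a - O‖ ≤ b := by
  have hR' : ((∑ a ∈ t, ρ a : ℝ) : ℂ) ≠ 0 := by exact_mod_cast hR.ne'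
  have e : (((∑ a ∈ t, ρ a)⁻¹ : ℝ) : ℂ) * ∑ a ∈ t, (ρ a : ℂ) * τ a - O =
      (((∑ a ∈ t, ρ a)⁻¹ : ℝ) : ℂ) * ∑ a ∈ t, (ρ a : ℂ) * (τ a - O) := by
    simp only [mul_sub, Finset.sum_sub_distrib, ← Finset.sum_mul]
    rw [← Complex.ofReal_sum, Complex.ofReal_inv, inv_mul_cancel_left₀ hR']
  rw [e, norm_mul, Complex.norm_real, Real.norm_eq_abs, abs_of_pos (inv_pos.2 hR),
    inv_mul_le_iff₀ hR, Finset.sum_mul]
  refine (norm_sum_le _ _).trans (Finset.sum_le_sum fun a ha => ?_)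
  rw [norm_mul, Complex.norm_real, Real.norm_eq_abs, abs_of_nonneg (h0 a)]
  by_cases h1 : ρ a = 0
  · simp [h1]
  · exact mul_le_mul_of_nonneg_left (h a ha h1) (h0 a)

theorem exists_bumps {C : Set X} (hC : IsCompact C) (W : X → Set X)
    (hW : ∀ x ∈ C, IsOpen (W x) ∧ x ∈ W x) : ∃ (t : Finset X) (ρ : X → X → ℝ), (∀ a ∈ t, a ∈ C) ∧
      (∀ a, ContMDiff (𝓡 4) 𝓘(ℝ, ℝ) ∞ (ρ a)) ∧ (∀ a y, 0 ≤ ρ a y) ∧
      (∀ a ∈ t, tsupport (ρ a) ⊆ W a) ∧ ∀ y ∈ C, 0 < ∑ a ∈ t, ρ a y := by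
  have h1 : ∀ x, ∃ χ : X → ℝ, ContMDiff (𝓡 4) 𝓘(ℝ, ℝ) ∞ χ ∧ (∀ y, 0 ≤ χ y) ∧
      (x ∈ C → tsupport χ ⊆ W x ∧ ∀ᶠ y in 𝓝 x, χ y = 1) := by
    intro x
    by_cases hx : x ∈ C
    · obtain ⟨χ, a1, a2, a3, a4⟩ := exists_bump (isClosed_singleton (x := x)) (hW x hx).1
        (singleton_subset_iff.2 (hW x hx).2)
      exact ⟨χ, a1, fun y => (a2 y).1, fun _ => ⟨a3, a4 x rfl⟩⟩
    · exact ⟨fun _ => 0, contMDiff_const, fun _ => le_rfl, fun h => absurd h hx⟩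
  choose ρ h1 h2 h3 using h1
  obtain ⟨t, ht, hc⟩ := hC.elim_nhds_subcover (fun x => {y | ρ x y = 1}) fun x hx => (h3 x hx).2
  refine ⟨t, ρ, ht, h1, h2, fun a ha => (h3 a (ht a ha)).1, fun y hy => ?_⟩
  obtain ⟨a, ha, h4⟩ := mem_iUnion₂.1 (hc hy)
  exact Finset.sum_pos' (fun b _ => h2 b y) ⟨a, ha, by rw [show ρ a y = 1 from h4]; exact one_pos⟩

/-- the line bundle with three kinds of trivialisations -/
theorem bundle (hL : LBC) (P : Type) [Fintype P] {U₀ U₁ : Set X} {B : P → Set X} {lam q : X → ℂ}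
    {s : P → X → ℂ} (o₀ : IsOpen U₀) (o₁ : IsOpen U₁) (oB : ∀ p, IsOpen (B p))
    (cov : ∀ x, x ∈ U₀ ∨ x ∈ U₁ ∨ ∃ p, x ∈ B p) (dis : ∀ p p' x, x ∈ B p → x ∈ B p' → p = p')
    (h1 : ∀ x ∈ U₀, x ∈ U₁ → SmC lam x ∧ lam x ≠ 0)
    (h2 : ∀ p, ∀ x ∈ U₁, x ∈ B p → SmC q x ∧ q x ≠ 0)
    (h3 : ∀ p, ∀ x ∈ U₀, x ∈ B p → SmC (s p) x ∧ s p x ≠ 0)
    (h4 : ∀ p, ∀ x ∈ B p, lam x = q x * s p x) :
    ∃ (L : LB X) (i₀ i₁ : Fin L.n) (c : P → Fin L.n), L.U i₀ = U₀ ∧ L.U i₁ = U₁ ∧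
      (∀ x ∈ U₁ ∩ U₀, L.g i₁ i₀ x = lam x / (‖lam x‖ : ℂ)) ∧ ∀ p, L.U (c p) = B p ∧
      (∀ x ∈ B p ∩ U₀, L.g (c p) i₀ x = s p x / (‖s p x‖ : ℂ)) ∧
      ∀ x ∈ B p ∩ U₁, L.g (c p) i₁ x = (q x)⁻¹ / (‖(q x)⁻¹‖ : ℂ) := by
  let U : Option (Option P) → Set X
    | none => U₀
    | some none => U₁
    | some (some p) => B p
  let G : Option (Option P) → Option (Option P) → X → ℂ
    | none, none => fun _ => 1
    | none, some none => fun x => (lam x)⁻¹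
    | none, some (some p) => fun x => (s p x)⁻¹
    | some none, none => lam
    | some none, some none => fun _ => 1
    | some none, some (some _) => q
    | some (some p), none => s p
    | some (some _), some none => fun x => (q x)⁻¹
    | some (some _), some (some _) => fun _ => 1
  have hG : ∀ i j, ∀ x ∈ U i ∩ U j, SmC (G i j) x ∧ G i j x ≠ 0 := by
    rintro (_ | _ | p) (_ | _ | p') x ⟨hx, hx'⟩
    · exact ⟨contMDiffAt_const, one_ne_zero⟩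
    · exact ⟨smC_inv (h1 x hx hx').1 (h1 x hx hx').2, inv_ne_zero (h1 x hx hx').2⟩
    · exact ⟨smC_inv (h3 _ x hx hx').1 (h3 _ x hx hx').2, inv_ne_zero (h3 _ x hx hx').2⟩
    · exact h1 x hx' hx
    · exact ⟨contMDiffAt_const, one_ne_zero⟩
    · exact h2 _ x hx hx'
    · exact h3 _ x hx' hx
    · exact ⟨smC_inv (h2 _ x hx' hx).1 (h2 _ x hx' hx).2, inv_ne_zero (h2 _ x hx' hx).2⟩
    · exact ⟨contMDiffAt_const, one_ne_zero⟩
  have hτ : ∀ x, ∃ τ : Option (Option P) → ℂ, ∀ i j, x ∈ U i → x ∈ U j → G i j x * τ j = τ i ∧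
      τ j ≠ 0 := by
    intro x
    by_cases h0 : x ∈ U₀
    · refine ⟨fun i => G i none x, ?_⟩
      rintro i j hx hx'
      refine ⟨?_, (hG j none x ⟨hx', h0⟩).2⟩
      rcases i with _ | _ | p <;> rcases j with _ | _ | p'
      · exact one_mul _
      · exact inv_mul_cancel₀ (h1 x h0 hx').2
      · exact inv_mul_cancel₀ (h3 _ x h0 hx').2
      · exact mul_one _
      · exact one_mul _
      · exact (h4 _ x hx').symm
      · exact mul_one _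
      · show (q x)⁻¹ * lam x = s p x
        rw [h4 p x hx, inv_mul_cancel_left₀ (h2 p x hx' hx).2]
      · obtain rfl := dis _ _ x hx hx'
        exact one_mul _
    by_cases h0' : x ∈ U₁
    · refine ⟨fun i => G i (some none) x, ?_⟩
      rintro i j hx hx'
      refine ⟨?_, (hG j (some none) x ⟨hx', h0'⟩).2⟩
      rcases i with _ | _ | p <;> rcases j with _ | _ | p'
      · exact absurd hx h0
      · exact absurd hx h0
      · exact absurd hx h0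
      · exact absurd hx' h0
      · exact one_mul _
      · exact mul_inv_cancel₀ (h2 _ x h0' hx').2
      · exact absurd hx' h0
      · exact mul_one _
      · exact one_mul _
    · refine ⟨fun _ => 1, ?_⟩
      rintro i j hx hx'
      refine ⟨?_, one_ne_zero⟩
      rcases i with _ | _ | p <;> rcases j with _ | _ | p'
      · exact absurd hx h0
      · exact absurd hx h0
      · exact absurd hx h0
      · exact absurd hx h0'
      · exact absurd hx h0'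
      · exact absurd hx h0'
      · exact absurd hx' h0
      · exact absurd hx' h0'
      · exact one_mul _
  obtain ⟨L, ι, e1, e2⟩ := hL X (Option (Option P)) U G
    (by rintro (_ | _ | p); exacts [o₀, o₁, oB p])
    (fun x => by
      rcases cov x with h | h | ⟨p, h⟩
      exacts [⟨none, h⟩, ⟨some none, h⟩, ⟨some (some p), h⟩])
    (fun i j x hx => (hG i j x hx).1.contMDiffWithinAt) (fun i j x hx => (hG i j x hx).2)
    (fun i j k x hx => by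
      obtain ⟨τ, h⟩ := hτ x
      obtain ⟨a1, a2⟩ := h j k hx.1.2 hx.2
      apply mul_right_cancel₀ a2
      rw [mul_assoc, a1, (h i j hx.1.1 hx.1.2).1, (h i k hx.1.1 hx.2).1])
  exact ⟨L, ι none, ι (some none), fun p => ι (some (some p)), e1 none, e1 (some none),
    e2 (some none) none, fun p => ⟨e1 (some (some p)), e2 (some (some p)) none,
      e2 (some (some p)) (some none)⟩⟩

end Th

open Th Rg

theorem thom_of (hR : REGL) (hC : CHT) (hS : SMALL) (hL : LBC) (hP : PLX) : THOM := by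
  classical
  intro X _ μ hμ w hw K P E o hV
  obtain ⟨V, v1, v2, v3⟩ := hS X P
  refine ⟨V, fun p hp => (v1 p hp).1.mem_nhds (v1 p hp).2, v2, ?_⟩
  intro Λ B' C hΛ cC hC1 hC2
  have dis : ∀ (p p' : P) x, x ∈ (Λ p).B → x ∈ (Λ p').B → p = p' := fun p p' x h h' => by
    by_contra hne
    exact disjoint_left.1 (v2 p p.2 p' p'.2 fun e => hne (Subtype.ext e)) ((hΛ p).1 h) ((hΛ p').1 h')
  have sub : ∀ p : P, B' p ⊆ (Λ p).B := fun p => subset_closure.trans (hΛ p).2.2.2.1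
  have cΔ : IsClosed (⋃ p, (Λ p).Δ) := isClosed_iUnion_of_finite fun p => (Λ p).cpt.isClosed
  have nΔ : ∀ x ∈ C, ∀ p, x ∉ (Λ p).Δ := fun x hx p h =>
    (hC1 x hx).2 ((Λ p).only x h (hC1 x hx).1 ▸ p.2)
  -- local defining functions
  have loc : ∀ x ∈ C, ∃ (W : Set X) (s : X → ℂ) (c : ℂ), (IsOpen W ∧ x ∈ W) ∧
      (∀ y ∈ W, SmC s y) ∧ (∀ y ∈ W, y ∈ K.K → s y = 0 ∧ Cn (1 / 2) w s c y (E y)) ∧
      ∀ p, ∀ y ∈ W, y ∈ B' p → s = (Λ p).s := by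
    intro x hx
    have key : ∀ (W : Set X) (s : X → ℂ), IsOpen W → x ∈ W →
        ContMDiffOn (𝓡 4) 𝓘(ℝ, ℂ) ∞ s W → (∀ y ∈ W, y ∈ K.K → s y = 0) → LDef w K.K E s x →
        (∀ p, ∀ y ∈ W, y ∈ B' p → s = (Λ p).s) → ∃ (W : Set X) (s : X → ℂ) (c : ℂ),
        (IsOpen W ∧ x ∈ W) ∧ (∀ y ∈ W, SmC s y) ∧
        (∀ y ∈ W, y ∈ K.K → s y = 0 ∧ Cn (1 / 2) w s c y (E y)) ∧
        ∀ p, ∀ y ∈ W, y ∈ B' p → s = (Λ p).s := by
      rintro W s a1 a2 a3 a4 ⟨c, a5⟩ a6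
      obtain ⟨O, b1, b2, b3⟩ := mem_nhdsWithin.1 a5
      exact ⟨W ∩ O, s, c, ⟨a1.inter b1, a2, b2⟩, fun y hy => a3.contMDiffAt (a1.mem_nhds hy.1),
        fun y hy hK => ⟨a4 y hy.1 hK, b3 ⟨hy.2, hK⟩⟩, fun p y hy => a6 p y hy.1⟩
    by_cases h : ∃ p : P, x ∈ (Λ p).B
    · obtain ⟨p, hp⟩ := h
      refine key ((Λ p).B \ (Λ p).Δ) (Λ p).s ((Λ p).opn.sdiff (Λ p).cpt.isClosed) ⟨hp, nΔ x hx p⟩
        (Λ p).smooth (fun y hy hK => ((Λ p).zero y hy).2 hK)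
        ((hΛ p).2.2.2.2 x ⟨(hC1 x hx).1, hp⟩ fun e => (hC1 x hx).2 (e ▸ p.2)) fun p' y hy hy' => ?_
      rw [dis p p' y hy.1 (sub p' hy')]
    · obtain ⟨W, s, a1, a2, a3, a4, a5⟩ := hR X μ hμ w hw K P E o hV x (hC1 x hx).1 (hC1 x hx).2
      refine key (W \ ⋃ p, closure (B' p)) s
        (a1.sdiff (isClosed_iUnion_of_finite fun p => isClosed_closure))
        ⟨a2, fun hx' => ?_⟩ (a3.mono diff_subset) (fun y hy => a4 y hy.1) a5
        fun p y hy hy' => absurd (mem_iUnion.2 ⟨p, subset_closure hy'⟩) hy.2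
      obtain ⟨p, hp⟩ := mem_iUnion.1 hx'
      exact h ⟨p, (hΛ p).2.2.2.1 hp⟩
  choose! W s c l1 l2 l3 l4 using loc
  obtain ⟨t, ρ, t1, t2, t3, t4, t5⟩ := exists_bumps cC W l1
  have inW : ∀ a ∈ t, ∀ y, ρ a y ≠ 0 → y ∈ W a := fun a ha y h => t4 a ha (subset_tsupport _ h)
  have sρ : ∀ a y, SmC (fun y => (ρ a y : ℂ) * c a) y := fun a y =>
    (SmC.ofReal (t2 a y)).mul contMDiffAt_const
  have off : ∀ a ∈ t, ∀ y, y ∉ W a → (fun y => (ρ a y : ℂ) * c a * s a y) =ᶠ[𝓝 y] fun _ => 0 := by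
    intro a ha y hy
    filter_upwards [notMem_tsupport_iff_eventuallyEq.1 fun h => hy (t4 a ha h)] with z hz
    rw [hz]; simp
  have sT : ∀ y, ∀ a ∈ t, SmC (fun y => (ρ a y : ℂ) * c a * s a y) y := by
    intro y a ha
    by_cases hy : y ∈ W a
    · exact (sρ a y).mul (l2 a (t1 a ha) y hy)
    · exact contMDiffAt_const.congr_of_eventuallyEq (off a ha y hy)
  set lam : X → ℂ := fun y => ∑ a ∈ t, (ρ a y : ℂ) * c a * s a y with hlam
  set q : X → ℂ := fun y => ∑ a ∈ t, (ρ a y : ℂ) * c a with hq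
  have slam : ∀ y, SmC lam y := fun y => (smC_sum t (sT y)).1
  have sq : ∀ y, SmC q y := fun y => (smC_sum t fun a _ => sρ a y).1
  have lam0 : ∀ y ∈ K.K, lam y = 0 := fun y hy => Finset.sum_eq_zero fun a ha => by
    by_cases h : ρ a y = 0
    · simp [h]
    · rw [(l3 a (t1 a ha) y (inW a ha y h) hy).1, mul_zero]
  have lamq : ∀ p, ∀ y ∈ B' p, lam y = q y * (Λ p).s y := fun p y hy => by
    rw [hlam, hq, Finset.sum_mul]
    refine Finset.sum_congr rfl fun a ha => ?_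
    by_cases h : ρ a y = 0
    · simp [h]
    · rw [l4 a (t1 a ha) p y (inW a ha y h) hy]
  have cn1 : ∀ y ∈ K.K, 0 < ∑ a ∈ t, ρ a y →
      Cn (1 / 2) w lam ((∑ a ∈ t, ρ a y)⁻¹ : ℝ) y (E y) := by
    intro y hy h v
    have e : dfc lam y v = ∑ a ∈ t, (ρ a y : ℂ) * (c a * dfc (s a) y v) := by
      rw [hlam, (smC_sum t (sT y)).2]
      refine Finset.sum_congr rfl fun a ha => ?_
      by_cases hy' : y ∈ W a
      · refine (dfc_mul (sρ a y) (l2 a (t1 a ha) y hy') v).trans ?_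
        rw [(l3 a (t1 a ha) y hy' hy).1]
        ring
      · refine ((dfc_congr (off a ha y hy') v).trans (dfc_const 0 y v)).trans ?_
        rw [not_not.1 fun h => hy' (inW a ha y h)]
        simp
    rw [e]
    exact cn_sum t (fun a => t3 a y) h fun a ha h0 => (l3 a (t1 a ha) y (inW a ha y h0) hy).2 v
  have cn2 : ∀ p, ∀ y ∈ B' p, y ∈ K.K → 0 < ∑ a ∈ t, ρ a y →
      Cn (1 / 2) w (Λ p).s (((∑ a ∈ t, ρ a y)⁻¹ : ℝ) * q y) y (E y) := by
    intro p y hy hK h v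
    rw [mul_assoc, hq, Finset.sum_mul]
    simp only [mul_assoc]
    refine cn_sum t (fun a => t3 a y) h fun a ha h0 => ?_
    rw [← l4 a (t1 a ha) p y (inW a ha y h0) hy]
    exact (l3 a (t1 a ha) y (inW a ha y h0) hK).2 v
  -- the structure at the points outside `P`
  have reg : ∀ x ∈ K.K, x ∉ P → ∃ (u : Fin 1 → ℂ → X) (U : Set X) (e : ℂ),
      BrsX (Jw w) K.K x 1 u U ∧ Comp K.T u U ∧ dm (u 0) 0 1 ≠ 0 ∧ e ≠ 0 ∧ E x ≠ 0 ∧
      ∀ c, Cn (1 / 2) w lam c x (E x) → Cn (1 / 2) w lam c (u 0 0) (dm (u 0) 0 e) := by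
    intro x hx hP
    obtain ⟨N, u, U, hb, hc⟩ := K.loc x hx
    obtain ⟨rfl, h1⟩ := (hV.reg x hx hP).2 N u U hb
    obtain ⟨h2, e, -, e0, he⟩ := h1 0
    have h3 := he.self_of_nhds
    obtain rfl : u 0 0 = x := hb.zero 0
    refine ⟨u, U, e 0, hb, hc, h2, e0, fun h => e0 ?_, fun c h => h3 ▸ h⟩
    exact dm_inj (jw_sq hw) (hb.hol 0 0 (mem_ball_self two_pos)) h2 (h3 ▸ h)
  let S : Set X := {y | 0 < ∑ a ∈ t, ρ a y ∧ y ∉ ⋃ p, (Λ p).Δ ∧ (lam y = 0 → y ∈ K.K)}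
  have nP : ∀ y ∈ interior S, y ∉ P := fun y hy h =>
    (interior_subset hy).2.1 (mem_iUnion.2 ⟨⟨y, h⟩, (Λ ⟨y, h⟩).mem⟩)
  have CS : C ⊆ interior S := by
    intro x hx
    rw [mem_interior_iff_mem_nhds]
    obtain ⟨u, U, e, hb, -, a1, a2, -, a3⟩ := reg x (hC1 x hx).1 (hC1 x hx).2
    obtain ⟨ε, Θ, hΘ, -⟩ := hC X μ hμ w hw K.K x u U hb a1 lam (.of_forall slam)
      (by
        filter_upwards [ball_mem_nhds (0 : ℂ) two_pos] with z hz
        exact lam0 _ (hb.mem 0 z hz)) _ e a2 (a3 _ (cn1 x (hC1 x hx).1 (t5 x hx))) univ univ_mem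
    have b1 : ∀ᶠ y in 𝓝 x, 0 < ∑ a ∈ t, ρ a y :=
      (continuous_finset_sum t fun a _ => (t2 a).continuous).continuousAt.eventually
        (lt_mem_nhds (t5 x hx))
    have b2 : ∀ᶠ y in 𝓝 x, y ∉ ⋃ p, (Λ p).Δ := cΔ.isOpen_compl.mem_nhds fun h => by
      obtain ⟨p, hp⟩ := mem_iUnion.1 h
      exact nΔ x hx p hp
    have b3 : Θ '' ball 0 ε ∈ 𝓝 x := (hΘ.opn _ subset_rfl isOpen_ball).mem_nhds
      ⟨(0, 0), mem_ball_self hΘ.pos, (hΘ.axis 0 (mem_ball_self hΘ.pos)).trans (hb.zero 0)⟩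
    filter_upwards [b1, b2, b3] with y c1 c2 c3
    obtain ⟨z, hz, rfl⟩ := c3
    exact ⟨c1, c2, fun h => (hΘ.mem z hz).2 ((hΘ.snd z hz).symm.trans h)⟩
  have q0 : ∀ p, ∀ y ∈ interior S, y ∈ B' p → q y ≠ 0 := by
    intro p y hy hy'
    by_cases hK : y ∈ K.K
    · obtain ⟨-, -, -, -, -, -, -, a, -⟩ := reg y hK (nP y hy)
      exact right_ne_zero_of_mul (cn_ne hw a (cn2 p y hy' hK (interior_subset hy).1))
    · exact left_ne_zero_of_mul (lamq p y hy' ▸ fun h => hK ((interior_subset hy).2.2 h))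
  obtain ⟨L, i₀, i₁, cc, e0, e1, g1, g2⟩ := bundle hL P (U₀ := (K.K ∪ ⋃ p, (Λ p).Δ)ᶜ)
    (U₁ := interior S) (B := B') (lam := lam) (q := q) (s := fun p => (Λ p).s)
    (K.cpt.isClosed.union cΔ).isOpen_compl isOpen_interior (fun p => (hΛ p).2.1)
    (fun x => by
      by_cases h : x ∈ K.K ∪ ⋃ p, (Λ p).Δ
      · rcases h with h | h
        · exact .inr ((hC2 x h).imp_left fun h => CS h)
        · obtain ⟨p, hp⟩ := mem_iUnion.1 h
          exact .inr (.inr ⟨p, (hΛ p).2.2.1 hp⟩)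
      · exact .inl h)
    (fun p p' x h h' => dis p p' x (sub p h) (sub p' h'))
    (fun x h h' => ⟨slam x, fun e => h (.inl ((interior_subset h').2.2 e))⟩)
    (fun p x h h' => ⟨sq x, q0 p x h h'⟩)
    (fun p x h h' => by
      have hx : x ∈ (Λ p).B \ (Λ p).Δ := ⟨sub p h', fun e => h (.inr (mem_iUnion.2 ⟨p, e⟩))⟩
      exact ⟨(Λ p).smooth.contMDiffAt (((Λ p).opn.sdiff (Λ p).cpt.isClosed).mem_nhds hx),
        fun e => h (.inl (((Λ p).zero x hx).1 e))⟩)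
    lamq
  refine ⟨L, i₀, i₁, cc, fun _ => q, ?_, e0, e1 ▸ CS, fun p => ⟨(g2 p).1, e0 ▸ (g2 p).2.1,
    fun x _ => (sq x).continuousAt.continuousWithinAt, ?_⟩⟩
  · refine hP X μ hμ w hw K L i₀ i₁ lam (⋃ p, B' p) (v3 _ fun x hx => ?_) (fun x hx hK => ?_)
      (fun x hx hK => ?_) (fun x _ => (slam x).contMDiffWithinAt) (fun x hx => ?_) ?_
      fun x hx => ?_
    · obtain ⟨p, hp⟩ := mem_iUnion.1 hx
      exact mem_iUnion₂.2 ⟨p, p.2, (hΛ p).1 (sub p hp)⟩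
    · rw [e0]
      rintro (h | h)
      · exact hK h
      · obtain ⟨p, hp⟩ := mem_iUnion.1 h
        exact hx (mem_iUnion.2 ⟨p, (hΛ p).2.2.1 hp⟩)
    · rw [e1]
      exact CS ((hC2 x hK).resolve_right fun h => hx (mem_iUnion.2 h))
    · rw [e1] at hx
      exact ⟨(interior_subset hx).2.2, lam0 x⟩
    · rw [e0, e1]
      exact g1
    · rw [e1] at hx
      obtain ⟨u, U, e, a1, a2, a3, a4, -, a5⟩ := reg x hx.1 (nP x hx.2)
      exact ⟨u, U, _, e, a1, a2, a3, a4, a5 _ (cn1 x hx.1 (interior_subset hx.2).1)⟩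
  · rw [e1]
    exact fun x hx => ⟨q0 p x hx.2 hx.1, (g2 p).2.2 x hx, fun hK => ⟨_,
      inv_pos.2 (interior_subset hx.2).1, cn2 p x hx.1 hK (interior_subset hx.2).1⟩⟩

end Vale.Agent.P247C
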