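import Vale.Agent.P247C.Asm2
import Vale.Agent.P247C.Loc
import Vale.Agent.P247C.Deg
import Vale.Agent.P247C.Fin
import Vale.Agent.P247C.RS3
import Vale.Agent.P247C.Thom
import Vale.Agent.P247C.Regl
import Vale.Agent.P247C.Cht
import Vale.Agent.P247C.Small
import Vale.Agent.P247C.Lbc
import Vale.Agent.P247C.Pl

/-!
# P247, block C: THOM, POS and ADJ without hypotheses
-/

namespace Vale.Agent.P247C

open Vale.Agent.P247X

theorem thom : THOM := thom_of (regl_of loc) cht small lbc plx

theorem adjc : ADJC := adjc_of loc thom deg

theorem pos : POS_statement := pos_of dich loc thom deg (fin_of di) tra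

theorem adj : ADJ_statement := adj_of2 dich adjc

end Vale.Agent.P247C
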