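import Vale.Agent.P247X.Base

/-!
# P247, block C: intersection theory of `J`-curves, definitions and rows

The class of an irreducible curve `K` is represented by the curvature of a line bundle with three
kinds of trivialisations: the complement of `K`, a neighbourhood of the part of `K` outside small
discs (trivialised by a tangent vector field `E` and the form `OmX`), boxes at the special points.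
All intersection numbers are then sums of winding numbers of transition functions.
-/

set_option linter.all false

open scoped Manifold ContDiff Topology
open Set MeasureTheory Filter Metric

noncomputable section

namespace Vale.Agent.P247C

open Vale.Agent.P247X Vale.Agent.P247.SCY Vale.Agent.P247.SCY.HS
open Vale.Agent.P247.H74 (R4 Data HasWinding)

/-! ## Riemann surfaces -/

/-- compact connected Riemann surfaces -/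
class RS (M : Type) extends TopologicalSpace M, ChartedSpace ℂ M where
  mfd : IsManifold 𝓘(ℂ) 1 M
  cpt : CompactSpace M
  t2 : T2Space M
  conn : ConnectedSpace M

attribute [instance] RS.mfd RS.cpt RS.t2 RS.conn

section rs

variable {M : Type} [TopologicalSpace M] [ChartedSpace ℂ M]

/-- holomorphic near `z` -/
def HolAt (σ : ℂ → M) (z : ℂ) : Prop := ∀ᶠ z' in 𝓝 z, MDifferentiableAt 𝓘(ℂ) 𝓘(ℂ) σ z'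

/-- the complex derivative, in the preferred chart at `σ z` -/
def dM (σ : ℂ → M) (z : ℂ) : ℂ := mfderiv 𝓘(ℂ) 𝓘(ℂ) σ z (1 : ℂ)

/-- the pull-back of a one-form (`θ m` is its coefficient in the preferred chart at `m`) -/
def pbk (θ : M → ℂ) (σ : ℂ → M) (z : ℂ) : ℂ := θ (σ z) * dM σ z

/-- holomorphic one-forms -/
def HolForm (θ : M → ℂ) : Prop := ∀ (σ : ℂ → M) (z : ℂ), HolAt σ z → AnalyticAt ℂ (pbk θ σ) z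

/-- `M` is the Riemann sphere -/
structure IsP1 (u v : ℂ → M) : Prop where
  hu : ∀ z, MDifferentiableAt 𝓘(ℂ) 𝓘(ℂ) u z
  hv : ∀ z, MDifferentiableAt 𝓘(ℂ) 𝓘(ℂ) v z
  du : ∀ z, dM u z ≠ 0
  dv : ∀ z, dM v z ≠ 0
  glue : ∀ z, z ≠ 0 → v z = u z⁻¹
  inj : Function.Injective u
  inf : v 0 ∉ range u
  surj : ∀ m, m = v 0 ∨ m ∈ range u

/-- `M` is a complex torus -/
structure IsT2 (u : ℂ → M) (τ : ℂ) : Prop where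
  pos : 0 < τ.im
  hu : ∀ z, MDifferentiableAt 𝓘(ℂ) 𝓘(ℂ) u z
  du : ∀ z, dM u z ≠ 0
  surj : Function.Surjective u
  per : ∀ (m n : ℤ) z, u (z + m + n * τ) = u z
  inj : ∀ z z', u z = u z' → ∃ m n : ℤ, z' = z + m + n * τ

end rs

/-- row DICH -/
def DICH : Prop := ∀ (M : Type) [RS M],
  (∃ θ : M → ℂ, HolForm θ ∧ ∃ m, θ m ≠ 0) ∨ ∃ u v : ℂ → M, IsP1 u v

/-- row TORUS -/
def TORUS : Prop := ∀ (M : Type) [RS M] (θ : M → ℂ), HolForm θ → (∀ m, θ m ≠ 0) →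
  ∃ (u : ℂ → M) (τ : ℂ), IsT2 u τ

section defs

variable {X : Type} [TopologicalSpace X] [ChartedSpace HS.E4 X]

/-- the normalisation of a curve -/
structure Nrm (J : EndF X) (K : Set X) where
  M : Type
  rs : RS M
  n : M → X
  cont : Continuous n
  rng : range n = K
  lift : ∀ (x : X) (N : ℕ) (u : Fin N → ℂ → X) (U : Set X), BrsX J K x N u U →
    ∃ (σ : Fin N → ℂ → M) (r : ℝ), 0 < r ∧ (∀ l, ∀ z ∈ ball (0 : ℂ) r, n (σ l z) = u l z ∧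
      MDifferentiableAt 𝓘(ℂ) 𝓘(ℂ) (σ l) z ∧ dM (σ l) z ≠ 0) ∧
      (∀ m, n m = x → ∃ l, m = σ l 0) ∧ ∀ l l', σ l 0 = σ l' 0 → l = l'

attribute [instance] Nrm.rs

/-- the `J`-bilinear form with real part `w 0` -/
def OmX (w : Tri X) (x : X) (a v : TangentSpace (𝓡 4) x) : ℂ :=
  ((w 0 x ![a, v] : ℝ) : ℂ) - Complex.I * ((w 0 x ![a, Jw w x v] : ℝ) : ℂ)

/-- `c ds` is close to `OmX (a, ·)` at `x` -/
def Cn (q : ℝ) (w : Tri X) (s : X → ℂ) (c : ℂ) (x : X) (a : TangentSpace (𝓡 4) x) : Prop :=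
  ∀ v, ‖c * dfc s x v - OmX w x a v‖ ≤ q * ‖OmX w x a v‖

/-- a constant multiple of `s` is a good defining function of `K` near `x` -/
def LDef (w : Tri X) (K : Set X) (E : ∀ x : X, TangentSpace (𝓡 4) x) (s : X → ℂ) (x : X) : Prop :=
  ∃ c : ℂ, ∀ᶠ y in 𝓝[K] x, Cn (1 / 2) w s c y (E y)

/-- A tangent vector field `E` of `K`, continuous and without zeros outside `P`; `- o x` is the sum
of its indices at `x`. -/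
structure VFd (J : EndF X) (K : Set X) (P : Finset X) (E : ∀ x : X, TangentSpace (𝓡 4) x)
    (o : X → ℤ) : Prop where
  wind : ∀ x ∈ K, ∀ (N : ℕ) (u : Fin N → ℂ → X) (U : Set X), BrsX J K x N u U →
    ∃ (e : Fin N → ℂ → ℂ) (n : Fin N → ℤ), ∑ l, n l = o x ∧ ∀ l,
      (∀ᶠ z in 𝓝[≠] (0 : ℂ), ContinuousAt (e l) z ∧ e l z ≠ 0 ∧ E (u l z) = dm (u l) z (e l z)) ∧
      ∀ᶠ ρ in 𝓝[>] (0 : ℝ), HasWinding (e l) 0 ρ (- n l)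
  reg : ∀ x ∈ K, x ∉ P → o x = 0 ∧ ∀ (N : ℕ) (u : Fin N → ℂ → X) (U : Set X),
    BrsX J K x N u U → N = 1 ∧ ∀ l, dm (u l) 0 1 ≠ 0 ∧ ∃ e : ℂ → ℂ, ContinuousAt e 0 ∧ e 0 ≠ 0 ∧
      ∀ᶠ z in 𝓝 (0 : ℂ), E (u l z) = dm (u l) z (e z)

/-- an injective `J`-disc through `p` -/
structure JBr (J : EndF X) (p : X) (v : ℂ → X) : Prop where
  smooth : ContMDiffOn 𝓘(ℝ, ℂ) (𝓡 4) ∞ v (ball 0 2)
  hol : ∀ z ∈ ball (0 : ℂ) 2, JAt J v z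
  zero : v 0 = p
  inj : InjOn v (ball 0 2)

/-- a box `B` at `p`, a vertical disc `Δ`, a function `s` with zero set `K` on `B \ Δ` -/
structure Lp (K : Set X) (p : X) where
  B : Set X
  Δ : Set X
  s : X → ℂ
  opn : IsOpen B
  cpt : IsCompact Δ
  sub : Δ ⊆ B
  mem : p ∈ Δ
  smooth : ContMDiffOn (𝓡 4) 𝓘(ℝ, ℂ) ∞ s (B \ Δ)
  zero : ∀ x ∈ B \ Δ, s x = 0 ↔ x ∈ K
  only : ∀ x ∈ Δ, x ∈ K → x = p
  zero_p : s p = 0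

/-- closed forms can be moved away from `Z` -/
def Small (Z : Set X) : Prop := ∀ β : Form X 2, SC β → ∃ β', SC β' ∧ Coh β β' ∧ SuppIn β' Zᶜ

/-- the branches compute the current -/
def Comp (T : Form X 2 → ℝ) {N : ℕ} (u : Fin N → ℂ → X) (U : Set X) : Prop :=
  ∀ φ, Cont φ → SuppIn φ U → T φ = ∑ l, brX (u l) φ

/-- An adapted chart at an immersed point: `u` is the first axis, `s` the second coordinate. -/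
structure Cht (μ : Form X 4) (K : Set X) (u : ℂ → X) (s : X → ℂ) (ε : ℝ) (Θ : ℂ × ℂ → X) :
    Prop where
  pos : 0 < ε
  le : ε ≤ 1
  smooth : ContMDiffOn 𝓘(ℝ, ℂ × ℂ) (𝓡 4) ∞ Θ (ball 0 ε)
  inj : InjOn Θ (ball 0 ε)
  bij : ∀ q ∈ ball (0 : ℂ × ℂ) ε, Function.Bijective (dm2 Θ q)
  opn : ∀ O ⊆ ball (0 : ℂ × ℂ) ε, IsOpen O → IsOpen (Θ '' O)
  axis : ∀ t ∈ ball (0 : ℂ) ε, Θ (t, 0) = u t
  snd : ∀ q ∈ ball (0 : ℂ × ℂ) ε, s (Θ q) = q.2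
  mem : ∀ q ∈ ball (0 : ℂ × ℂ) ε, Θ q ∈ K ↔ q.2 = 0
  ori : ∀ q ∈ ball (0 : ℂ × ℂ) ε, 0 < μ (Θ q)
    ![dm2 Θ q (1, 0), dm2 Θ q (Complex.I, 0), dm2 Θ q (0, 1), dm2 Θ q (0, Complex.I)]

end defs

/-! ## The rows -/

/-- row NRM -/
def NRM : Prop := ∀ (X : Type) [Cl4 X] (μ : Form X 4), Volume μ → ∀ w : Tri X,
  Hypersymplectic μ w → ∀ K : Irr (Jw w), Nonempty (Nrm (Jw w) K.K)

/-- row VFA: the vector field dual to a holomorphic form -/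
def VFA : Prop := ∀ (X : Type) [Cl4 X] (μ : Form X 4), Volume μ → ∀ w : Tri X,
  Hypersymplectic μ w → ∀ (K : Irr (Jw w)) (ν : Nrm (Jw w) K.K) (θ : ν.M → ℂ), HolForm θ →
  (∃ m, θ m ≠ 0) → ∃ (P : Finset X) (E : ∀ x : X, TangentSpace (𝓡 4) x) (o : X → ℤ),
    ↑P ⊆ K.K ∧ VFd (Jw w) K.K P E o ∧ (∀ x, 0 ≤ o x) ∧ ((∀ p ∈ P, o p = 0) → ∀ m, θ m ≠ 0)

/-- row VFB: the vector field `∂ / ∂ z` of the sphere -/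
def VFB : Prop := ∀ (X : Type) [Cl4 X] (μ : Form X 4), Volume μ → ∀ w : Tri X,
  Hypersymplectic μ w → ∀ (K : Irr (Jw w)) (ν : Nrm (Jw w) K.K) (u v : ℂ → ν.M), IsP1 u v →
  ∃ (P : Finset X) (E : ∀ x : X, TangentSpace (𝓡 4) x) (o : X → ℤ),
    ↑P ⊆ K.K ∧ VFd (Jw w) K.K P E o ∧ ∑ p ∈ P, o p = -2

/-- row ENDS: embedded spheres and tori, rational curves -/
def ENDS : Prop := ∀ (X : Type) [Cl4 X] (μ : Form X 4), Volume μ → ∀ w : Tri X,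
  Hypersymplectic μ w → ∀ (K : Irr (Jw w)) (ν : Nrm (Jw w) K.K),
  ((∀ x ∈ K.K, RegPt (Jw w) K.K x) →
    (∀ u v : ℂ → ν.M, IsP1 u v → ∃ S : Sph (Jw w), S.set = K.K) ∧
    ∀ (u : ℂ → ν.M) (τ : ℂ), IsT2 u τ → ∃ S : Tor (Jw w), S.set = K.K) ∧
  ∀ u v : ℂ → ν.M, IsP1 u v → ∀ x₀ : X, (∀ x ∈ K.K, ∃ (N : ℕ) (b : Fin N → ℂ → X) (U : Set X),
    BrsX (Jw w) K.K x N b U ∧ N ≤ 2 ∧ (x ≠ x₀ → N = 1)) → Rat K.K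

/-- row LOC: the local defining function and its winding numbers -/
def LOC : Prop := ∀ (X : Type) [Cl4 X] (μ : Form X 4), Volume μ → ∀ w : Tri X,
  Hypersymplectic μ w → ∀ (K : Set X) (p : X) (N : ℕ) (u : Fin N → ℂ → X) (U : Set X),
  BrsX (Jw w) K p N u U → ∀ (N' : ℕ) (v : Fin N' → ℂ → X), (∀ j, JBr (Jw w) p (v j)) →
  (∀ j, ∀ᶠ z in 𝓝[≠] (0 : ℂ), v j z ∉ K) → ∀ V ∈ 𝓝 p,
  ∃ (Λ : Lp K p) (c : Fin N → ℂ → ℂ) (D : Fin N → ℕ) (m : Fin N' → ℕ), Λ.B ⊆ V ∧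
    (∀ l, ∀ z ∈ ball (0 : ℂ) 1, z ≠ 0 → u l z ∈ Λ.B → ContinuousAt (c l) z ∧ c l z ≠ 0 ∧
      Cn (1 / 4) w Λ.s (c l z) (u l z) (dm (u l) z 1)) ∧
    (∀ᶠ ρ in 𝓝[>] (0 : ℝ), ∀ l, HasWinding (c l) 0 ρ (-(D l : ℤ))) ∧
    N * (N - 1) ≤ ∑ l, D l ∧ (∑ l, D l = 0 → N = 1 ∧ ∀ l, dm (u l) 0 1 ≠ 0) ∧
    (N = 1 → (∀ l, dm (u l) 0 1 ≠ 0) → ContMDiffOn (𝓡 4) 𝓘(ℝ, ℂ) ∞ Λ.s Λ.B ∧ ∀ l,
      ContinuousAt (c l) 0 ∧ c l 0 ≠ 0 ∧ Cn (1 / 4) w Λ.s (c l 0) (u l 0) (dm (u l) 0 1)) ∧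
    (∀ j, ∀ z ∈ ball (0 : ℂ) 1, z ≠ 0 → v j z ∈ Λ.B → v j z ∉ Λ.Δ) ∧
    (∀ᶠ ρ in 𝓝[>] (0 : ℝ), ∀ j, HasWinding (fun z => Λ.s (v j z)) 0 ρ (m j)) ∧
    ∀ j, 1 ≤ m j ∧ (m j = 1 ↔ N = 1 ∧ ∀ (l : Fin N) (a a' : HS.E4), a = dm (u l) 0 1 →
      a' = dm (v j) 0 1 → OmX w p a a' ≠ 0)

/-- row DI: a branch lies in `K` or meets `K` in an isolated point -/
def DI : Prop := ∀ (X : Type) [Cl4 X] (μ : Form X 4), Volume μ → ∀ w : Tri X,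
  Hypersymplectic μ w → ∀ (K : Set X) (p : X) (N : ℕ) (u : Fin N → ℂ → X) (U : Set X),
  BrsX (Jw w) K p N u U → ∀ v : ℂ → X, JBr (Jw w) p v →
  (∀ᶠ z in 𝓝[≠] (0 : ℂ), v z ∉ K) ∨ ∀ᶠ z in 𝓝 (0 : ℂ), v z ∈ K

/-- row FIN (from DI) -/
def FIN : Prop := ∀ (X : Type) [Cl4 X] (μ : Form X 4), Volume μ → ∀ w : Tri X,
  Hypersymplectic μ w → ∀ K K' : Irr (Jw w), K.K ≠ K'.K → (K.K ∩ K'.K).Finite

/-- row TRA: transversality of two immersed branches; uniqueness of the structure at regular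
points -/
def TRA : Prop := ∀ (X : Type) [Cl4 X] (μ : Form X 4), Volume μ → ∀ w : Tri X,
  Hypersymplectic μ w →
  (∀ (K K' : Set X) (p : X) (u u' : Fin 1 → ℂ → X) (U U' : Set X), BrsX (Jw w) K p 1 u U →
    BrsX (Jw w) K' p 1 u' U' → dm (u 0) 0 1 ≠ 0 → dm (u' 0) 0 1 ≠ 0 → ∀ a a' : HS.E4,
    a = dm (u 0) 0 1 → a' = dm (u' 0) 0 1 → (TransAt K K' p ↔ OmX w p a a' ≠ 0)) ∧
  ∀ (K : Set X) (p : X) (N : ℕ) (u : Fin N → ℂ → X) (U : Set X), BrsX (Jw w) K p N u U →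
    RegPt (Jw w) K p → N = 1 ∧ ∀ l, dm (u l) 0 1 ≠ 0

/-- row CHT -/
def CHT : Prop := ∀ (X : Type) [Cl4 X] (μ : Form X 4), Volume μ → ∀ w : Tri X,
  Hypersymplectic μ w → ∀ (K : Set X) (x : X) (u : Fin 1 → ℂ → X) (U : Set X),
  BrsX (Jw w) K x 1 u U → dm (u 0) 0 1 ≠ 0 → ∀ s : X → ℂ,
  (∀ᶠ y in 𝓝 x, ContMDiffAt (𝓡 4) 𝓘(ℝ, ℂ) ∞ s y) → (∀ᶠ z in 𝓝 (0 : ℂ), s (u 0 z) = 0) →
  ∀ c e : ℂ, e ≠ 0 → Cn (1 / 2) w s c (u 0 0) (dm (u 0) 0 e) → ∀ V ∈ 𝓝 x,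
  ∃ (ε : ℝ) (Θ : ℂ × ℂ → X), Cht μ K (u 0) s ε Θ ∧ Θ '' ball 0 ε ⊆ V

/-- row SMALL -/
def SMALL : Prop := ∀ (X : Type) [Cl4 X] (P : Finset X), ∃ V : X → Set X,
  (∀ p ∈ P, IsOpen (V p) ∧ p ∈ V p) ∧ (∀ p ∈ P, ∀ q ∈ P, p ≠ q → Disjoint (V p) (V q)) ∧
  ∀ Z : Set X, Z ⊆ ⋃ p ∈ P, V p → Small Z

/-- row LBC: a line bundle with a given cocycle -/
def LBC : Prop := ∀ (X : Type) [Cl4 X] (I : Type) [Fintype I] (U : I → Set X) (G : I → I → X → ℂ),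
  (∀ i, IsOpen (U i)) → (∀ x, ∃ i, x ∈ U i) →
  (∀ i j, ContMDiffOn (𝓡 4) 𝓘(ℝ, ℂ) ∞ (G i j) (U i ∩ U j)) →
  (∀ i j, ∀ x ∈ U i ∩ U j, G i j x ≠ 0) →
  (∀ i j k, ∀ x ∈ U i ∩ U j ∩ U k, G i j x * G j k x = G i k x) →
  ∃ (L : LB X) (ι : I → Fin L.n), (∀ i, L.U (ι i) = U i) ∧
    ∀ i j, ∀ x ∈ U i ∩ U j, L.g (ι i) (ι j) x = G i j x / (‖G i j x‖ : ℂ)

/-- row PLX: the Poincare-Lelong formula -/
def PLX : Prop := ∀ (X : Type) [Cl4 X] (μ : Form X 4), Volume μ → ∀ w : Tri X,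
  Hypersymplectic μ w → ∀ (K : Irr (Jw w)) (L : LB X) (i₀ i₁ : Fin L.n) (s : X → ℂ) (Z : Set X),
  Small Z → (∀ x, x ∉ Z → x ∉ K.K → x ∈ L.U i₀) → (∀ x, x ∉ Z → x ∈ K.K → x ∈ L.U i₁) →
  ContMDiffOn (𝓡 4) 𝓘(ℝ, ℂ) ∞ s (L.U i₁) → (∀ x ∈ L.U i₁, s x = 0 ↔ x ∈ K.K) →
  (∀ x ∈ L.U i₁ ∩ L.U i₀, L.g i₁ i₀ x = s x / (‖s x‖ : ℂ)) →
  (∀ x ∈ K.K ∩ L.U i₁, ∃ (u : Fin 1 → ℂ → X) (U : Set X) (c e : ℂ), BrsX (Jw w) K.K x 1 u U ∧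
    Comp K.T u U ∧ dm (u 0) 0 1 ≠ 0 ∧ e ≠ 0 ∧ Cn (1 / 2) w s c (u 0 0) (dm (u 0) 0 e)) →
  IsCls μ K.T L.F

/-- row DEG: the degree of a line bundle on a curve, from a section `σ` without zeros on an open
set `W` which contains the curve outside finitely many discs -/
def DEG : Prop := ∀ (X : Type) [Cl4 X] (μ : Form X 4), Volume μ → ∀ w : Tri X,
  Hypersymplectic μ w → ∀ (K : Irr (Jw w)) (L : LB X) (W : Set X) (σ : Fin L.n → X → ℂ),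
  IsOpen W → (∀ i, ContMDiffOn (𝓡 4) 𝓘(ℝ, ℂ) ∞ (σ i) (W ∩ L.U i)) →
  (∀ i, ∀ x ∈ W ∩ L.U i, σ i x ≠ 0) →
  (∀ i j, ∀ x ∈ W ∩ L.U i ∩ L.U j, σ i x = L.g i j x * σ j x) →
  ∀ (P : Finset X) (N : X → ℕ) (u : ∀ p, Fin (N p) → ℂ → X) (U : X → Set X) (ρ : X → ℝ)
    (c : X → Fin L.n) (m : ∀ p, Fin (N p) → ℤ),
  (∀ p ∈ P, BrsX (Jw w) K.K p (N p) (u p) (U p) ∧ Comp K.T (u p) (U p) ∧ 0 < ρ p ∧ ρ p < 1 ∧
    ∀ l, (∀ z ∈ closedBall (0 : ℂ) (ρ p), u p l z ∈ U p ∩ L.U (c p)) ∧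
      HasWinding (fun z => σ (c p) (u p l z)) 0 (ρ p) (m p l)) →
  (∀ p ∈ P, ∀ q ∈ P, p ≠ q → ∀ l l', ∀ z ∈ closedBall (0 : ℂ) (ρ p),
    ∀ z' ∈ closedBall (0 : ℂ) (ρ q), u p l z ≠ u q l' z') →
  (∀ x ∈ K.K, (∀ p ∈ P, ∀ l, ∀ z ∈ ball (0 : ℂ) (ρ p), x ≠ u p l z) → x ∈ W) →
  K.T L.F = ∑ p ∈ P, ∑ l, (m p l : ℝ)

/-- row REGL (from LOC): good defining functions at the points outside `P` -/
def REGL : Prop := ∀ (X : Type) [Cl4 X] (μ : Form X 4), Volume μ → ∀ w : Tri X,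
  Hypersymplectic μ w → ∀ (K : Irr (Jw w)) (P : Finset X) (E : ∀ x : X, TangentSpace (𝓡 4) x)
  (o : X → ℤ), VFd (Jw w) K.K P E o → ∀ x ∈ K.K, x ∉ P → ∃ (W : Set X) (s : X → ℂ), IsOpen W ∧
    x ∈ W ∧ ContMDiffOn (𝓡 4) 𝓘(ℝ, ℂ) ∞ s W ∧ (∀ y ∈ W, y ∈ K.K → s y = 0) ∧ LDef w K.K E s x

/-- row THOM (from REGL, CHT, SMALL, LBC, PLX): the line bundle of the curve -/
def THOM : Prop := ∀ (X : Type) [Cl4 X] (μ : Form X 4), Volume μ → ∀ w : Tri X,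
  Hypersymplectic μ w → ∀ (K : Irr (Jw w)) (P : Finset X) (E : ∀ x : X, TangentSpace (𝓡 4) x)
  (o : X → ℤ), VFd (Jw w) K.K P E o → ∃ V : X → Set X, (∀ p ∈ P, V p ∈ 𝓝 p) ∧
  (∀ p ∈ P, ∀ q ∈ P, p ≠ q → Disjoint (V p) (V q)) ∧
  ∀ (Λ : ∀ p : P, Lp K.K p.1) (B' : P → Set X) (C : Set X),
  (∀ p : P, (Λ p).B ⊆ V p ∧ IsOpen (B' p) ∧ (Λ p).Δ ⊆ B' p ∧ closure (B' p) ⊆ (Λ p).B ∧
    ∀ x ∈ K.K ∩ (Λ p).B, x ≠ p → LDef w K.K E (Λ p).s x) →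
  IsCompact C → (∀ x ∈ C, x ∈ K.K ∧ x ∉ P) → (∀ x ∈ K.K, x ∈ C ∨ ∃ p, x ∈ B' p) →
  ∃ (L : LB X) (i₀ i₁ : Fin L.n) (c : P → Fin L.n) (q : P → X → ℂ), IsCls μ K.T L.F ∧
    L.U i₀ = (K.K ∪ ⋃ p, (Λ p).Δ)ᶜ ∧ C ⊆ L.U i₁ ∧ ∀ p : P, L.U (c p) = B' p ∧
      (∀ x ∈ B' p ∩ L.U i₀, L.g (c p) i₀ x = (Λ p).s x / (‖(Λ p).s x‖ : ℂ)) ∧
      ContinuousOn (q p) (B' p ∩ L.U i₁) ∧ ∀ x ∈ B' p ∩ L.U i₁, q p x ≠ 0 ∧
        L.g (c p) i₁ x = (q p x)⁻¹ / (‖(q p x)⁻¹‖ : ℂ) ∧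
        (x ∈ K.K → ∃ r : ℝ, 0 < r ∧ Cn (1 / 2) w (Λ p).s (r * q p x) x (E x))

/-- row ADJC (from LOC, THOM, DEG): the adjunction formula -/
def ADJC : Prop := ∀ (X : Type) [Cl4 X] (μ : Form X 4), Volume μ → ∀ w : Tri X,
  Hypersymplectic μ w → ∀ (K : Irr (Jw w)) (α : Form X 2), IsCls μ K.T α →
  ∀ (P : Finset X) (E : ∀ x : X, TangentSpace (𝓡 4) x) (o : X → ℤ), ↑P ⊆ K.K →
  VFd (Jw w) K.K P E o → ∃ Δ : X → ℕ, K.T α = ∑ p ∈ P, ((o p : ℝ) + Δ p) ∧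
    ∀ p ∈ P, ∃ (N : ℕ) (u : Fin N → ℂ → X) (U : Set X), BrsX (Jw w) K.K p N u U ∧
      N * (N - 1) ≤ Δ p ∧ (Δ p = 0 → RegPt (Jw w) K.K p)

end Vale.Agent.P247C
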