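import Vale.Agent.P247C.T4
import Vale.Agent.P247C.Defs

/-!
# P247, block C toolkit: partitions of unity, the current of a compact curve
-/

set_option linter.all false

open scoped Manifold ContDiff Topology
open Set MeasureTheory Filter Metric

noncomputable section

namespace Vale.Agent.P247C

open Vale.Agent.P247.SCY Vale.Agent.P247.SCY.HS Vale.Agent.P247X

variable {X : Type} [Cl4 X] {J : EndF X} {T T' : Form X 2 → ℝ}

theorem exists_pu (V : X → Set X) (hV : ∀ x, V x ∈ 𝓝 x) : ∃ (s : Finset X) (χ : X → X → ℝ),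
    (∀ x, ContMDiff (𝓡 4) 𝓘(ℝ, ℝ) ∞ (χ x)) ∧ (∀ x y, 0 ≤ χ x y) ∧ (∀ x, tsupport (χ x) ⊆ V x) ∧
    ∀ y, ∑ x ∈ s, χ x y = 1 := by
  classical
  obtain ⟨t, -, hcov⟩ := isCompact_univ.elim_nhds_subcover (fun x => interior (V x))
    fun x _ => interior_mem_nhds.2 (hV x)
  obtain ⟨f, hf⟩ := SmoothPartitionOfUnity.exists_isSubordinate (𝓡 4) (isClosed_univ (X := X))
    (fun i : t => interior (V i)) (fun _ => isOpen_interior) fun y hy => by
      obtain ⟨x, hx, hyx⟩ := mem_iUnion₂.1 (hcov hy)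
      exact mem_iUnion.2 ⟨⟨x, hx⟩, hyx⟩
  refine ⟨t, fun x => if h : x ∈ t then f ⟨x, h⟩ else fun _ => 0, fun x => ?_, fun x y => ?_,
    fun x => ?_, fun y => ?_⟩
  · beta_reduce
    split_ifs with h
    exacts [(f ⟨x, h⟩).contMDiff, contMDiff_const]
  · beta_reduce
    split_ifs with h
    exacts [f.nonneg _ _, le_rfl]
  · beta_reduce
    split_ifs with h
    · exact (hf ⟨x, h⟩).trans interior_subset
    · rw [tsupport, Function.support_fun_zero, closure_empty]; exact empty_subset _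
  · have h1 := f.sum_eq_one (mem_univ y)
    rw [finsum_eq_sum_of_fintype] at h1
    rw [← h1, ← Finset.sum_coe_sort t]
    exact Finset.sum_congr rfl fun i _ => by beta_reduce; rw [dif_pos i.2]

theorem exists_bump {A V : Set X} (hA : IsClosed A) (hV : IsOpen V) (h : A ⊆ V) :
    ∃ χ : X → ℝ, ContMDiff (𝓡 4) 𝓘(ℝ, ℝ) ∞ χ ∧ (∀ y, χ y ∈ Icc (0 : ℝ) 1) ∧ tsupport χ ⊆ V ∧
      ∀ x ∈ A, ∀ᶠ y in 𝓝 x, χ y = 1 := by
  obtain ⟨f, h0, h1, h2⟩ := exists_contMDiffMap_zero_one_nhds_of_isClosed (𝓡 4) (n := ⊤)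
    hV.isClosed_compl hA (disjoint_compl_left_iff_subset.2 h)
  refine ⟨f, f.contMDiff, h2, fun x hx => ?_, fun x hx => h1.filter_mono (nhds_le_nhdsSet hx)⟩
  by_contra hn
  exact notMem_tsupport_iff_eventuallyEq.2 (h0.filter_mono (nhds_le_nhdsSet hn)) hx

theorem suppIn_fsmul {k : ℕ} {χ : X → ℝ} {V : Set X} (h : tsupport χ ⊆ V) (φ : Form X k) :
    SuppIn (fun x => χ x • φ x) V := ⟨tsupport χ, (isClosed_tsupport χ).isCompact, h, fun x hx => by
  show χ x • φ x = 0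
  rw [image_eq_zero_of_notMem_tsupport hx, zero_smul]⟩

theorem suppIn_fsmul' {k : ℕ} {χ : X → ℝ} {V U : Set X} (h : tsupport χ ⊆ V) {φ : Form X k}
    (hφ : SuppIn φ U) : SuppIn (fun x => χ x • φ x) (V ∩ U) := by
  obtain ⟨C, h1, h2, h3⟩ := hφ
  refine ⟨tsupport χ ∩ C, h1.inter_left (isClosed_tsupport χ), inter_subset_inter h h2,
    fun x hx => ?_⟩
  show χ x • φ x = 0
  by_cases h4 : x ∈ C
  · rw [image_eq_zero_of_notMem_tsupport fun h5 => hx ⟨h5, h4⟩, zero_smul]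
  · rw [h3 x h4, smul_zero]

theorem suppIn_dX {k : ℕ} {η : Form X k} {V : Set X} (h : SuppIn η V) : SuppIn (dX η) V := by
  obtain ⟨C, h1, h2, h3⟩ := h
  refine ⟨C, h1, h2, fun x hx => (dX_congr ?_).trans (dX_zero x)⟩
  filter_upwards [h1.isClosed.isOpen_compl.mem_nhds hx] with y hy using h3 y hy

theorem lin_zero (h : LinC T) : T (fun _ => 0) = 0 := by
  simpa using h.smul 0 (fun _ => 0) cont_zero

theorem lin_sum (h : LinC T) {ι : Type} (s : Finset ι) {φ : ι → Form X 2}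
    (hφ : ∀ i ∈ s, Cont (φ i)) : T (fun x => ∑ i ∈ s, φ i x) = ∑ i ∈ s, T (φ i) := by
  classical
  induction s using Finset.induction_on with
  | empty => simpa using lin_zero h
  | insert a s ha ih =>
    simp only [Finset.sum_insert ha]
    rw [h.add _ _ (hφ a (Finset.mem_insert_self _ _))
      (cont_sum s fun i hi => hφ i (Finset.mem_insert_of_mem hi)),
      ih fun i hi => hφ i (Finset.mem_insert_of_mem hi)]

theorem lin_sub (h : LinC T) {φ ψ : Form X 2} (hφ : Cont φ) (hψ : Cont ψ) :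
    T (fun x => φ x - ψ x) = T φ - T ψ := by
  rw [sub_eq, h.add _ _ hφ (hψ.smul _), h.smul _ _ hψ]; ring

theorem lin_pu (h : LinC T) {ι : Type} {s : Finset ι} {χ : ι → X → ℝ}
    (hχ : ∀ i ∈ s, Continuous (χ i)) (h1 : ∀ y, ∑ i ∈ s, χ i y = 1) {φ : Form X 2} (hφ : Cont φ) :
    T φ = ∑ i ∈ s, T fun y => χ i y • φ y := by
  rw [← lin_sum h s fun i hi => cont_fsmul (hχ i hi) hφ]
  congr 1
  funext y
  rw [← Finset.sum_smul, h1, one_smul]

theorem lin_fsum {ι : Type} (s : Finset ι) {S : ι → Form X 2 → ℝ} (c : ι → ℝ)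
    (h : ∀ i ∈ s, LinC (S i)) : LinC fun φ => ∑ i ∈ s, c i * S i φ where
  add φ ψ hφ hψ := by
    rw [← Finset.sum_add_distrib]
    exact Finset.sum_congr rfl fun i hi => by rw [(h i hi).add φ ψ hφ hψ, mul_add]
  smul r φ hφ := by
    rw [Finset.mul_sum]
    exact Finset.sum_congr rfl fun i hi => by rw [(h i hi).smul r φ hφ]; ring

theorem lin_brs {K U : Set X} {x : X} {N : ℕ} {u : Fin N → ℂ → X} (h : BrsX J K x N u U) :
    LinC fun φ => ∑ l, brX (u l) φ := by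
  simpa using lin_fsum Finset.univ (fun _ => 1) fun l _ => brX_lin (h.smooth l)

/-- the locality principle -/
theorem lin_le (h : LinC T) (h' : LinC T') {φ : Form X 2} (hφ : Cont φ)
    (hl : ∀ x, ∃ V ∈ 𝓝 x, ∀ χ : X → ℝ, ContMDiff (𝓡 4) 𝓘(ℝ, ℝ) ∞ χ → (∀ y, 0 ≤ χ y) →
      tsupport χ ⊆ V → T (fun y => χ y • φ y) ≤ T' fun y => χ y • φ y) : T φ ≤ T' φ := by
  choose V hV hl using hl
  obtain ⟨s, χ, h1, h2, h3, h4⟩ := exists_pu V hV
  rw [lin_pu h (fun i _ => (h1 i).continuous) h4 hφ, lin_pu h' (fun i _ => (h1 i).continuous) h4 hφ]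
  exact Finset.sum_le_sum fun x _ => hl x _ (h1 x) (h2 x) (h3 x)

theorem lin_ext (h : LinC T) (h' : LinC T') {φ : Form X 2} (hφ : Cont φ)
    (hl : ∀ x, ∃ V ∈ 𝓝 x, ∀ χ : X → ℝ, ContMDiff (𝓡 4) 𝓘(ℝ, ℝ) ∞ χ → (∀ y, 0 ≤ χ y) →
      tsupport χ ⊆ V → T (fun y => χ y • φ y) = T' fun y => χ y • φ y) : T φ = T' φ :=
  le_antisymm (lin_le h h' hφ fun x => (hl x).imp fun V hV =>
      ⟨hV.1, fun χ a b c => (hV.2 χ a b c).le⟩)
    (lin_le h' h hφ fun x => (hl x).imp fun V hV => ⟨hV.1, fun χ a b c => (hV.2 χ a b c).ge⟩)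

theorem lin_ext' (h : LinC T) (h' : LinC T') {φ : Form X 2} (hφ : Cont φ) {U : Set X}
    (hs : SuppIn φ U) (hl : ∀ x ∈ U, ∃ V ∈ 𝓝 x, ∀ ψ, Cont ψ → SuppIn ψ (V ∩ U) → T ψ = T' ψ) :
    T φ = T' φ := by
  refine lin_ext h h' hφ fun x => ?_
  by_cases hx : x ∈ U
  · obtain ⟨V, hV, h1⟩ := hl x hx
    exact ⟨V, hV, fun χ a _ c => h1 _ (cont_fsmul a.continuous hφ) (suppIn_fsmul' c hs)⟩
  · obtain ⟨C, h1, h2, h3⟩ := hs
    refine ⟨Cᶜ, h1.isClosed.isOpen_compl.mem_nhds fun h => hx (h2 h), fun χ a _ c => ?_⟩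
    have e : (fun y => χ y • φ y) = fun _ => 0 := funext fun y =>
      SuppIn_zero (suppIn_fsmul' c ⟨C, h1, Subset.rfl, h3⟩) fun h => h.1 h.2
    rw [e, lin_zero h, lin_zero h']

theorem lin_const : LinC fun _ : Form X 2 => (0 : ℝ) :=
  ⟨fun _ _ _ _ => by simp, fun _ _ _ => by simp⟩

theorem pull2_fsmul (χ : X → ℝ) (φ : Form X 2) (u : ℂ → X) (z : ℂ) :
    pull2 (fun y => χ y • φ y) u z = χ (u z) * pull2 φ u z := rfl

theorem brX_nonneg {u : ℂ → X} (hJ : ∀ z ∈ ball (0 : ℂ) 1, JAt J u z) {φ : Form X 2}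
    (h : ∀ x v, 0 ≤ φ x ![v, J x v]) : 0 ≤ brX u φ :=
  setIntegral_nonneg measurableSet_ball fun z hz => by
    unfold pull2
    rw [hJ z hz]
    exact h _ _

theorem brX_pos {u : ℂ → X} (hu : ContMDiffOn 𝓘(ℝ, ℂ) (𝓡 4) ∞ u (ball 0 2))
    (hJ : ∀ z ∈ ball (0 : ℂ) 1, JAt J u z) {φ : Form X 2} (hφ : Cont φ)
    (h : ∀ x v, 0 ≤ φ x ![v, J x v]) {z₀ : ℂ} (hz : z₀ ∈ ball (0 : ℂ) 1)
    (h0 : 0 < φ (u z₀) ![dm u z₀ 1, J _ (dm u z₀ 1)]) : 0 < brX u φ := by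
  have h1 : ∀ z ∈ ball (0 : ℂ) 1, pull2 φ u z = φ (u z) ![dm u z 1, J _ (dm u z 1)] := fun z hz => by
    unfold pull2
    rw [hJ z hz]
  unfold brX
  rw [setIntegral_pos_iff_support_of_nonneg_ae ((ae_restrict_mem measurableSet_ball).mono
    fun z hz => by rw [h1 z hz]; exact h _ _) (int_pull2 hφ hu)]
  have h2 := ((contOn_pull2 hφ isOpen_ball hu).mono b12).isOpen_inter_preimage isOpen_ball
    (isOpen_Ioi (a := (0 : ℝ)))
  refine (h2.measure_pos volume ⟨z₀, hz, by rw [mem_preimage, h1 z₀ hz]; exact h0⟩).trans_le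
    (measure_mono fun z hz => ⟨ne_of_gt hz.2, hz.1⟩)

/-- Stokes on a branch -/
theorem brX_dX {K U : Set X} {x : X} {N : ℕ} {u : Fin N → ℂ → X} (h : BrsX J K x N u U)
    {η : Form X 1} (hη : Smooth η) (hs : SuppIn η U) (l : Fin N) : brX (u l) (dX η) = 0 := by
  obtain ⟨C, h1, h2, h3⟩ := hs
  have h4 : IsCompact (closedBall (0 : ℂ) 1 ∩ u l ⁻¹' C) := (isCompact_closedBall 0 1).of_isClosed_subset
    (((h.smooth l).continuousOn.mono cb12).preimage_isClosed_of_isClosed isClosed_closedBall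
      h1.isClosed) inter_subset_left
  unfold brX
  rw [setIntegral_congr_fun measurableSet_ball fun z hz => pull2_dX isOpen_univ
    (smoothOn_univ.2 hη) isOpen_ball (h.smooth l) (b12 hz) trivial]
  refine int_curl_zero isOpen_ball h4 (fun a z hz => (cd_pull1 isOpen_univ (smoothOn_univ.2 hη)
    isOpen_ball (h.smooth l) hz trivial a).contDiffWithinAt) (fun a z hz hz' => ?_)
    measurableSet_ball (fun z hz => h.in_one (cb12 hz.1) (h2 hz.2)) b12
  unfold pull1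
  rw [h3 _ fun e => hz' ⟨ball_subset_closedBall (h.in_one hz (h2 e)), e⟩]
  rfl

/-- a compact curve `K` with its current of integration `T` -/
structure Cyc (J : EndF X) (K : Set X) (T : Form X 2 → ℝ) : Prop where
  cpt : IsCompact K
  lin : LinC T
  off : ∀ φ, Cont φ → SuppIn φ Kᶜ → T φ = 0
  loc : ∀ x ∈ K, ∃ (N : ℕ) (u : Fin N → ℂ → X) (U : Set X), BrsX J K x N u U ∧ Comp T u U

theorem irr_cyc (K : Irr J) : Cyc J K.K K.T := ⟨K.cpt, K.lin, K.off, K.loc⟩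

namespace Cyc

variable {K : Set X} (h : Cyc J K T)
include h

theorem nonneg {φ : Form X 2} (hφ : Cont φ) (hp : ∀ x N u U, BrsX J K x N u U → ∀ l,
    ∀ z ∈ ball (0 : ℂ) 1, u l z ∈ U → 0 ≤ pull2 φ (u l) z) : 0 ≤ T φ := by
  refine lin_le lin_const h.lin hφ fun x => ?_
  by_cases hx : x ∈ K
  · obtain ⟨N, u, U, hb, hc⟩ := h.loc x hx
    refine ⟨U, hb.opn.mem_nhds hb.memU, fun χ a b c => ?_⟩
    rw [hc _ (cont_fsmul a.continuous hφ) (suppIn_fsmul c φ)]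
    refine Finset.sum_nonneg fun l _ => setIntegral_nonneg measurableSet_ball fun z hz => ?_
    rw [pull2_fsmul]
    by_cases hz' : u l z ∈ U
    · exact mul_nonneg (b _) (hp x N u U hb l z hz hz')
    · rw [image_eq_zero_of_notMem_tsupport fun e => hz' (c e), zero_mul]
  · exact ⟨Kᶜ, h.cpt.isClosed.isOpen_compl.mem_nhds hx, fun χ a b c =>
      (h.off _ (cont_fsmul a.continuous hφ) (suppIn_fsmul c φ)).ge⟩

/-- the current depends only on the pull-backs to the branches -/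
theorem eq_zero {φ : Form X 2} (hφ : Cont φ) (hp : ∀ x N u U, BrsX J K x N u U → ∀ l,
    ∀ z ∈ ball (0 : ℂ) 1, u l z ∈ U → pull2 φ (u l) z = 0) : T φ = 0 := by
  have h1 := h.nonneg hφ fun x N u U hb l z hz hz' => (hp x N u U hb l z hz hz').ge
  have h2 := h.nonneg (hφ.smul (-1)) fun x N u U hb l z hz hz' => by
    have h3 : pull2 (fun y => (-1 : ℝ) • φ y) (u l) z = -1 * pull2 φ (u l) z := rfl
    rw [h3, hp x N u U hb l z hz hz', mul_zero]
  rw [h.lin.smul _ _ hφ] at h2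
  linarith

theorem congr {φ ψ : Form X 2} (hφ : Cont φ) (hψ : Cont ψ) (hp : ∀ x N u U, BrsX J K x N u U →
    ∀ l, ∀ z ∈ ball (0 : ℂ) 1, u l z ∈ U → pull2 φ (u l) z = pull2 ψ (u l) z) : T φ = T ψ := by
  rw [← sub_eq_zero, ← lin_sub h.lin hφ hψ]
  exact h.eq_zero (hφ.sub hψ) fun x N u U hb l z hz hz' => sub_eq_zero.2 (hp x N u U hb l z hz hz')

theorem zero_of_vanish {φ : Form X 2} (hφ : Cont φ) (h0 : ∀ x ∈ K, φ x = 0) : T φ = 0 :=
  h.eq_zero hφ fun _ _ _ _ hb l z hz _ => pull2_zero (h0 _ (hb.mem l z (b12 hz)))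

theorem congr_on {φ ψ : Form X 2} (hφ : Cont φ) (hψ : Cont ψ) (h0 : ∀ x ∈ K, φ x = ψ x) :
    T φ = T ψ := h.congr hφ hψ fun _ _ _ _ hb l z hz _ => by
  unfold pull2
  rw [h0 _ (hb.mem l z (b12 hz))]

theorem pos : PosF J T := fun φ hφ hp => h.nonneg hφ fun _ _ _ _ hb l z hz _ => by
  unfold pull2
  rw [hb.hol l z (b12 hz)]
  exact hp _ _

theorem closed_dX {η : Form X 1} (hη : Smooth η) : T (dX η) = 0 := by
  have h1 : ∀ x, ∃ V ∈ 𝓝 x, ∀ θ : Form X 1, Smooth θ → SuppIn θ V → T (dX θ) = 0 := fun x => by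
    by_cases hx : x ∈ K
    · obtain ⟨N, u, U, hb, hc⟩ := h.loc x hx
      refine ⟨U, hb.opn.mem_nhds hb.memU, fun θ a b => ?_⟩
      rw [hc _ (cont_of_smooth (smooth_dX a)) (suppIn_dX b)]
      exact Finset.sum_eq_zero fun l _ => brX_dX hb a b l
    · exact ⟨Kᶜ, h.cpt.isClosed.isOpen_compl.mem_nhds hx, fun θ a b =>
        h.off _ (cont_of_smooth (smooth_dX a)) (suppIn_dX b)⟩
  choose V hV h1 using h1
  obtain ⟨s, χ, h2, -, h3, h4⟩ := exists_pu V hV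
  have e : η = fun y => ∑ x ∈ s, χ x y • η y := funext fun y => by
    rw [← Finset.sum_smul, h4, one_smul]
  have e2 : dX η = fun y => ∑ x ∈ s, dX (fun y => χ x y • η y) y := funext fun y => by
    conv_lhs => rw [e]
    exact dX_sum s (fun x _ => smooth_fsmul (h2 x) hη) y
  rw [e2, lin_sum h.lin s fun x _ => cont_of_smooth (smooth_dX (smooth_fsmul (h2 x) hη))]
  exact Finset.sum_eq_zero fun x _ => h1 x _ (smooth_fsmul (h2 x) hη) (suppIn_fsmul (h3 x) η)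

theorem pcur : PCur J T :=
  { h.lin with
    closed := fun φ _ he => by
      obtain ⟨η, hη, rfl⟩ := exact_iff he
      exact h.closed_dX hη
    pos := h.pos }

end Cyc

theorem tame_nonneg {a : Form X 2} (hp : ∀ x v, v ≠ 0 → 0 < a x ![v, J x v]) (x : X)
    (v : TangentSpace (𝓡 4) x) : 0 ≤ a x ![v, J x v] := by
  by_cases hv : v = 0
  · exact ((a x).map_coord_zero (m := ![v, J x v]) (0 : Fin 2) hv).ge
  · exact (hp x v hv).le

/-- a bump form with positive integral over each branch -/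
theorem exists_test {K U : Set X} {x : X} {N : ℕ} {u : Fin N → ℂ → X} (h : BrsX J K x N u U)
    {a : Form X 2} (ha : Cont a) (hp : ∀ x v, v ≠ 0 → 0 < a x ![v, J x v]) {V : Set X}
    (hV : V ∈ 𝓝 x) : ∃ χ : X → ℝ, ContMDiff (𝓡 4) 𝓘(ℝ, ℝ) ∞ χ ∧ (∀ y, χ y ∈ Icc (0 : ℝ) 1) ∧
      tsupport χ ⊆ V ∧ ∀ l, 0 < brX (u l) fun y => χ y • a y := by
  obtain ⟨χ, h1, h2, h3, h4⟩ := exists_bump (isClosed_singleton (x := x)) isOpen_interior
    (singleton_subset_iff.2 (mem_interior_iff_mem_nhds.2 hV))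
  obtain ⟨r, hr, hr1, h5⟩ := h.in_nhds (h4 x rfl)
  have hp' := tame_nonneg hp
  refine ⟨χ, h1, h2, h3.trans interior_subset, fun l => ?_⟩
  have h6 : ((r / 2 : ℝ) : ℂ) ∈ ball (0 : ℂ) r := by
    rw [mem_ball_zero_iff, Complex.norm_real, Real.norm_eq_abs, abs_of_pos (half_pos hr)]
    exact half_lt_self hr
  have h7 := ball_subset_ball hr1 h6
  refine brX_pos (h.smooth l) (fun z hz => h.hol l z (b12 hz)) (cont_fsmul h1.continuous ha)
    (fun y v => mul_nonneg (h2 y).1 (hp' y v)) h7 ?_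
  have h8 : χ (u l ((r / 2 : ℝ) : ℂ)) = 1 := h5 l _ h6
  show 0 < χ _ * _
  rw [h8, one_mul]
  exact hp _ _ (h.imm l _ (b12 h7) fun e => (half_pos hr).ne' (Complex.ofReal_eq_zero.1 e))

theorem Cyc.strict {K : Set X} (h : Cyc J K T) (hne : K.Nonempty) {a : Form X 2} (ha : Cont a)
    (hp : ∀ x v, v ≠ 0 → 0 < a x ![v, J x v]) : 0 < T a := by
  obtain ⟨x, hx⟩ := hne
  obtain ⟨N, u, U, hb, hc⟩ := h.loc x hx
  obtain ⟨χ, h1, h2, h3, h4⟩ := exists_test hb ha hp (hb.opn.mem_nhds hb.memU)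
  have h5 : Continuous fun y => 1 - χ y := continuous_const.sub h1.continuous
  have e : a = fun y => χ y • a y + (1 - χ y) • a y := funext fun y => by
    rw [← add_smul, add_sub_cancel, one_smul]
  have h6 := h.pos _ (cont_fsmul h5 ha) fun y v =>
    mul_nonneg (sub_nonneg.2 (h2 y).2) (tame_nonneg hp y v)
  rw [e, h.lin.add _ _ (cont_fsmul h1.continuous ha) (cont_fsmul h5 ha),
    hc _ (cont_fsmul h1.continuous ha) (suppIn_fsmul h3 a)]
  have h7 : 0 < ∑ l, brX (u l) fun y => χ y • a y :=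
    Finset.sum_pos (fun l _ => h4 l) ⟨⟨0, hb.posN⟩, Finset.mem_univ _⟩
  linarith

end Vale.Agent.P247C
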