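import Vale.Agent.P247C.Vf0
import Vale.Agent.P247C.T4

/-!
# P247, block C: rows VFA, VFB, ENDS
-/

set_option linter.all false

open scoped Topology Manifold ContDiff
open Set Filter Metric

noncomputable section

namespace Vale.Agent.P247C.VF

open Vale.Agent.P247X Vale.Agent.P247.SCY RT
open Vale.Agent.P247.H74 (HasWinding)

variable {X : Type} [TopologicalSpace X] [ChartedSpace HS.E4 X] {J : EndF X} {K : Set X}
  (ν : Nrm J K)

theorem lift' {x : X} {N : ℕ} {u : Fin N → ℂ → X} {U : Set X} (h : BrsX J K x N u U) :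
    ∃ σ : Fin N → ℂ → ν.M, (∀ᶠ z in 𝓝 (0 : ℂ), ∀ l, HolAt (σ l) z ∧ dM (σ l) z ≠ 0 ∧
      ν.n ∘ σ l =ᶠ[𝓝 z] u l) ∧ (∀ m, ν.n m = x ↔ ∃ l, σ l 0 = m) ∧
      Function.Injective fun l => σ l 0 := by
  obtain ⟨σ, r, hr, h1, h2, h3⟩ := ν.lift x N u U h
  refine ⟨σ, ?_, fun m => ⟨fun hm => (h2 m hm).imp fun l e => e.symm, ?_⟩, fun l l' => h3 l l'⟩
  · filter_upwards [ball_mem_nhds (0 : ℂ) hr] with z hz l
    refine ⟨?_, (h1 l z hz).2.2, ?_⟩
    · filter_upwards [isOpen_ball.mem_nhds hz] with t ht using (h1 l t ht).2.1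
    · filter_upwards [isOpen_ball.mem_nhds hz] with t ht using (h1 l t ht).1
  · rintro ⟨l, rfl⟩
    rw [(h1 l 0 (mem_ball_self hr)).1, h.zero]

theorem fib_one {y : X} (hy : RegPt J K y) {m m' : ν.M} (h : ν.n m = y) (h' : ν.n m' = y) :
    m = m' := by
  obtain ⟨u, U, hb, -⟩ := hy
  obtain ⟨σ, -, h2, -⟩ := lift' ν hb
  obtain ⟨l, rfl⟩ := (h2 m).1 h
  obtain ⟨l', rfl⟩ := (h2 m').1 h'
  rw [Subsingleton.elim l l']

theorem mem_K (m : ν.M) : ν.n m ∈ K := ν.rng.subset (mem_range_self m)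

/-- a holomorphic plot of the normalisation is a reparametrised branch -/
theorem plot_br {x : X} {N : ℕ} {u : Fin N → ℂ → X} {U : Set X} (h : BrsX J K x N u U)
    {s : ℂ → ν.M} {z : ℂ} (hs : HolAt s z) (hx : ν.n (s z) = x) : ∃ (l : Fin N) (ζ : ℂ → ℂ),
    AnalyticAt ℂ ζ z ∧ ζ z = 0 ∧ (dM s z ≠ 0 → deriv ζ z ≠ 0) ∧
      ν.n ∘ s =ᶠ[𝓝 z] fun t => u l (ζ t) := by
  obtain ⟨σ, h1, h2, -⟩ := lift' ν h
  obtain ⟨l, hl⟩ := (h2 _).1 hx
  obtain ⟨a, b, c⟩ := h1.self_of_nhds l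
  obtain ⟨ζ, d, e, f⟩ := fac hs a hl.symm b
  refine ⟨l, ζ, d, e, fun g => ?_, ?_⟩
  · rw [dM_congr f, dM_comp (by rw [e]; exact a.self) d.differentiableAt] at g
    exact right_ne_zero_of_mul g
  · have ht : Tendsto ζ (𝓝 z) (𝓝 0) := by
      have := d.continuousAt
      rwa [ContinuousAt, e] at this
    filter_upwards [f, ht.eventually c] with t a1 a2
    rw [← a2, Function.comp_apply, a1]; rfl

/-- the push-forward of a tangent vector -/
def vec (m : ν.M) (a : ℂ) : HS.E4 := dm (ν.n ∘ (chartAt ℂ m).symm) (chartAt ℂ m m) a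

theorem vec_eq {f : ℂ → X} {σ : ℂ → ν.M} {z : ℂ} (h : HolAt σ z) (hd : dM σ z ≠ 0)
    (he : ν.n ∘ σ =ᶠ[𝓝 z] f) (hf : MDifferentiableAt 𝓘(ℝ, ℂ) (𝓡 4) f z) (a : ℂ) :
    vec ν (σ z) a = dm f z (a / dM σ z) := by
  set φ := chartAt ℂ (σ z) with hφ
  have hm : σ z ∈ φ.source := mem_chart_source ℂ _
  obtain ⟨ζ, a1, a2, a3⟩ := fac (holAt_chart (σ z) (φ.map_source hm)) h (φ.left_inv hm) hd
  have ht : Tendsto ζ (𝓝 (φ (σ z))) (𝓝 z) := by
    have := a1.continuousAt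
    rwa [ContinuousAt, a2] at this
  have b1 : ν.n ∘ φ.symm =ᶠ[𝓝 (φ (σ z))] fun t => f (ζ t) := by
    filter_upwards [a3, ht.eventually he] with t c1 c2
    rw [← c2, Function.comp_apply, c1]; rfl
  have b2 : dM σ z * deriv ζ (φ (σ z)) = 1 := by
    have := dM_congr a3
    rw [dM_comp (by rw [a2]; exact h.self) a1.differentiableAt, a2, dM_eq, d1_chart_symm] at this
    exact this.symm
  have b3 : a * deriv ζ (φ (σ z)) = a / dM σ z := by
    rw [eq_div_iff hd, mul_assoc, mul_comm _ (dM σ z), b2, mul_one]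
  have b4 : ∀ (w : ℂ), w = z → (dm f w (a / dM σ z) : HS.E4) = dm f z (a / dM σ z) := by
    rintro _ rfl; rfl
  refine (DFunLike.congr_fun b1.mfderiv_eq a).trans ?_
  refine (dm_comp (hasF_mulC a1.differentiableAt.hasDerivAt) (by rw [a2]; exact hf) a).trans ?_
  rw [mulC_apply, b3]
  exact b4 _ a2

variable [IsManifold (𝓡 4) ∞ X] [T2Space X]

theorem vfd_of (hJ : ∀ x v, J x (J x v) = -v) (hK : IsCompact K)
    (hloc : ∀ x ∈ K, ∃ (N : ℕ) (u : Fin N → ℂ → X) (U : Set X), BrsX J K x N u U)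
    {τ : ν.M → ℂ} {ord : ν.M → ℤ} {Z : Set ν.M} (h : MVF τ ord Z) :
    ∃ (P : Finset X) (E : ∀ x : X, TangentSpace (𝓡 4) x), ↑P ⊆ K ∧ (∀ m ∈ Z, ν.n m ∈ P) ∧
      VFd J K P E fun x => ∑ᶠ m ∈ ν.n ⁻¹' {x}, ord m := by
  have hfin := (h.fin.image ν.n).union (finite_sing hK hloc)
  set pre : X → ν.M := fun x => Classical.epsilon fun m => ν.n m = x with hpre
  have hpre' : ∀ m, RegPt J K (ν.n m) → pre (ν.n m) = m := fun m hm =>
    fib_one ν hm (Classical.epsilon_spec (p := fun m' => ν.n m' = ν.n m) ⟨m, rfl⟩) rfl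
  have hE : ∀ {x : X} {N : ℕ} {u : Fin N → ℂ → X} {U : Set X}, BrsX J K x N u U →
      ∀ (l : Fin N) (σ : ℂ → ν.M) (z : ℂ), z ∈ ball (0 : ℂ) 2 → HolAt σ z → dM σ z ≠ 0 →
      ν.n ∘ σ =ᶠ[𝓝 z] u l → RegPt J K (u l z) →
      vec ν (pre (u l z)) (τ (pre (u l z))) = dm (u l) z (τ (σ z) / dM σ z) := by
    intro x N u U hb l σ z hz a1 a2 a3 a4
    have e : ν.n (σ z) = u l z := a3.eq_of_nhds
    rw [← vec_eq ν a1 a2 a3 (hb.md l hz), ← e, hpre' _ (e ▸ a4)]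
  have hev : ∀ {x : X} {N : ℕ} {u : Fin N → ℂ → X} {U : Set X}, BrsX J K x N u U → ∀ l,
      ∀ᶠ z in 𝓝 (0 : ℂ), z ∈ ball (0 : ℂ) 2 ∧ (z ≠ 0 → RegPt J K (u l z)) := by
    intro x N u U hb l
    obtain ⟨r, hr, hr1, a⟩ := hb.in_nhds (hb.opn.mem_nhds hb.memU)
    filter_upwards [ball_mem_nhds (0 : ℂ) hr] with z hz
    have hz2 : z ∈ ball (0 : ℂ) 2 := ball_subset_ball (by linarith) hz
    exact ⟨hz2, fun h0 => hb.regPt hz2 h0 (a l z hz)⟩
  refine ⟨hfin.toFinset, fun x => vec ν (pre x) (τ (pre x)), ?_, fun m hm => ?_,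
    fun x hx N u U hb => ?_, fun x hx hP => ?_⟩
  · rw [Finite.coe_toFinset]
    rintro x (⟨m, -, rfl⟩ | hx)
    exacts [mem_K ν m, hx.1]
  · exact hfin.mem_toFinset.2 (Or.inl ⟨m, hm, rfl⟩)
  · obtain ⟨σ, h1, h2, h3⟩ := lift' ν hb
    refine ⟨fun l z => τ (σ l z) / dM (σ l) z, fun l => ord (σ l 0), ?_, fun l => ?_⟩
    · have e : ν.n ⁻¹' {x} = range fun l => σ l 0 := Set.ext fun m => h2 m
      rw [e, finsum_mem_range h3, finsum_eq_sum_of_fintype]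
    · obtain ⟨a1, a2, -⟩ := h1.self_of_nhds l
      obtain ⟨g, g1, g2, g3, -⟩ := h.loc (σ l) a1 a2
      obtain ⟨b1, b2⟩ := wind_of g1 g2 g3
      refine ⟨?_, b2⟩
      filter_upwards [b1, mem_nhdsWithin_of_mem_nhds h1, mem_nhdsWithin_of_mem_nhds (hev hb l),
        self_mem_nhdsWithin] with z c1 c2 c3 c4
      exact ⟨c1.1, c1.2, hE hb l _ z c3.1 (c2 l).1 (c2 l).2.1 (c2 l).2.2 (c3.2 c4)⟩
  · rw [Finite.mem_toFinset, mem_union, not_or] at hP
    have hreg : RegPt J K x := by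
      by_contra hn
      exact hP.2 ⟨hx, hn⟩
    have hZ : ∀ m, ν.n m = x → m ∉ Z := fun m hm hz => hP.1 ⟨m, hz, hm⟩
    refine ⟨finsum_mem_eq_zero_of_forall_eq_zero fun m hm => h.ord0 m (hZ m hm),
      fun N u U hb => ⟨(regPt_one hJ hb hreg).1, fun l => ⟨(regPt_one hJ hb hreg).2 l, ?_⟩⟩⟩
    obtain ⟨σ, h1, h2, h3⟩ := lift' ν hb
    obtain ⟨a1, a2, -⟩ := h1.self_of_nhds l
    have hσ : σ l 0 ∉ Z := hZ _ ((h2 _).2 ⟨l, rfl⟩)
    obtain ⟨g, g1, g2, g3, g4⟩ := h.loc (σ l) a1 a2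
    refine ⟨fun z => τ (σ l z) / dM (σ l) z, g1.continuousAt.congr ?_, by
      show τ (σ l 0) / dM (σ l) 0 ≠ 0
      rw [g4 hσ]; exact g2, ?_⟩
    · filter_upwards [eventually_nhdsWithin_iff.1 g3] with z hz
      by_cases h0 : z = 0
      · rw [h0]; exact (g4 hσ).symm
      · rw [hz h0, h.ord0 _ hσ]; simp
    · filter_upwards [h1, hev hb l] with z c2 c3
      refine hE hb l _ z c3.1 (c2 l).1 (c2 l).2.1 (c2 l).2.2 ?_
      by_cases h0 : z = 0
      · rw [h0, hb.zero]; exact hreg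
      · exact c3.2 h0

theorem fib_fin (hloc : ∀ x ∈ K, ∃ (N : ℕ) (u : Fin N → ℂ → X) (U : Set X), BrsX J K x N u U)
    (x : X) : (ν.n ⁻¹' {x}).Finite := by
  rcases (ν.n ⁻¹' {x}).eq_empty_or_nonempty with h | ⟨m, hm⟩
  · rw [h]; exact finite_empty
  · obtain ⟨N, u, U, hb⟩ := hloc x ((show ν.n m = x from hm) ▸ mem_K ν m)
    obtain ⟨σ, -, h2, -⟩ := lift' ν hb
    have e : ν.n ⁻¹' {x} = range fun l => σ l 0 := Set.ext fun m => h2 m
    rw [e]; exact finite_range _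

/-- plots of the normalisation of an embedded curve -/
theorem plot_reg (hJ : ∀ x v, J x (J x v) = -v) (hreg : ∀ x ∈ K, RegPt J K x) {s : ℂ → ν.M}
    (hs : ∀ z, MDifferentiableAt 𝓘(ℂ) 𝓘(ℂ) s z) (hd : ∀ z, dM s z ≠ 0) :
    ContMDiff 𝓘(ℝ, ℂ) (𝓡 4) ∞ (ν.n ∘ s) ∧ (∀ z, dm (ν.n ∘ s) z 1 ≠ 0) ∧
      ∀ z, JAt J (ν.n ∘ s) z := by
  have key : ∀ z, ContMDiffAt 𝓘(ℝ, ℂ) (𝓡 4) ∞ (ν.n ∘ s) z ∧ dm (ν.n ∘ s) z 1 ≠ 0 ∧
      JAt J (ν.n ∘ s) z := by
    intro z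
    obtain ⟨u, U, hb, h0⟩ := hreg _ (mem_K ν (s z))
    obtain ⟨l, ζ, a1, a2, a3, a4⟩ := plot_br ν hb (Eventually.of_forall hs) rfl
    obtain rfl : l = 0 := Subsingleton.elim _ _
    have hz : ζ z ∈ ball (0 : ℂ) 2 := by rw [a2]; exact mem_ball_self two_pos
    have hd1 := a1.differentiableAt.hasDerivAt
    refine ⟨ContMDiffAt.congr_of_eventuallyEq ((hb.cmd 0 hz).comp z
      (a1.contDiffAt.restrict_scalars ℝ).contMDiffAt) a4, fun h => a3 (hd z) ?_, ?_⟩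
    · have b1 := (dm_congr a4 1).symm.trans h
      rw [dm_comp (hasF_mulC hd1) (hb.md 0 hz), mulC_apply, one_mul] at b1
      exact dm_inj hJ (hb.hol 0 _ hz) (by rw [a2]; exact h0) b1
    · have b1 := jat_comp hJ hd1 (hb.md 0 hz) (hb.hol 0 _ hz)
      have e : ν.n (s z) = u 0 (ζ z) := a4.eq_of_nhds
      have b2 : ∀ (y y' : X) (a : HS.E4), y = y' → (J y a : HS.E4) = J y' a := by
        rintro _ _ _ rfl; rfl
      exact (dm_congr a4 _).trans (b1.trans ((b2 _ _ _ e.symm).trans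
        (congrArg (J (ν.n (s z))) (dm_congr a4 1).symm)))
  exact ⟨fun z => (key z).1, fun z => (key z).2.1, fun z => (key z).2.2⟩

end Vale.Agent.P247C.VF

namespace Vale.Agent.P247C

open Vale.Agent.P247X Vale.Agent.P247.SCY RT VF

theorem irr_loc {X : Type} [TopologicalSpace X] [ChartedSpace HS.E4 X] {J : EndF X} (K : Irr J) :
    ∀ x ∈ K.K, ∃ (N : ℕ) (u : Fin N → ℂ → X) (U : Set X), BrsX J K.K x N u U := fun x hx => by
  obtain ⟨N, u, U, h, -⟩ := K.loc x hx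
  exact ⟨N, u, U, h⟩

/-- **VFA** -/
theorem vfa : VFA := by
  intro X _ μ hμ w hw K ν θ hθ hne
  obtain ⟨ord, h1, h2, h3⟩ := mvf_form hθ hne
  obtain ⟨P, E, a1, a2, a3⟩ := vfd_of ν (jw_sq hw) K.cpt (irr_loc K) h1
  refine ⟨P, E, _, a1, a3, fun x => finsum_mem_induction (fun n : ℤ => 0 ≤ n) le_rfl
    (fun _ _ => add_nonneg) fun m _ => h2 m, fun h m hm => ?_⟩
  have b := h _ (a2 m hm)
  have hf := fib_fin ν (irr_loc K) (ν.n m)
  rw [finsum_mem_eq_finite_toFinset_sum _ hf,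
    Finset.sum_eq_zero_iff_of_nonneg fun m _ => h2 m] at b
  exact (h3 m hm).ne' (b m (hf.mem_toFinset.2 rfl))

/-- **VFB** -/
theorem vfb : VFB := by
  classical
  intro X _ μ hμ w hw K ν u v h
  obtain ⟨τ, h1⟩ := mvf_sphere h
  obtain ⟨P, E, a1, a2, a3⟩ := vfd_of ν (jw_sq hw) K.cpt (irr_loc K) h1
  refine ⟨P, E, _, a1, a3, ?_⟩
  rw [Finset.sum_eq_single_of_mem (ν.n (v 0)) (a2 _ rfl) fun p _ hp =>
    finsum_mem_eq_zero_of_forall_eq_zero fun m hm => if_neg (by rintro rfl; exact hp hm.symm)]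
  have hf := fib_fin ν (irr_loc K) (ν.n (v 0))
  rw [finsum_mem_eq_finite_toFinset_sum _ hf,
    Finset.sum_eq_single_of_mem (v 0) (hf.mem_toFinset.2 rfl) fun m _ hm => if_neg hm, if_pos rfl]

/-- **ENDS** -/
theorem ends : ENDS := by
  intro X _ μ hμ w hw K ν
  refine ⟨fun hreg => ?_, fun u v h x₀ hx => ?_⟩
  · have hinj : Function.Injective ν.n := fun m m' e =>
      fib_one ν (hreg _ (mem_K ν m')) e rfl
    refine ⟨fun u v h => ?_, fun u τ h => ?_⟩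
    · obtain ⟨a1, a2, a3⟩ := plot_reg ν (jw_sq hw) hreg h.hu h.du
      obtain ⟨b1, b2, b3⟩ := plot_reg ν (jw_sq hw) hreg h.hv h.dv
      refine ⟨⟨ν.n ∘ u, ν.n ∘ v, a1, b1, fun z hz => congrArg ν.n (h.glue z hz), hinj.comp h.inj,
        fun ⟨z, e⟩ => h.inf ⟨z, hinj e⟩, a2, b2, a3, b3⟩, Subset.antisymm ?_ fun x hx => ?_⟩
      · rintro _ (rfl | ⟨z, rfl⟩) <;> exact mem_K ν _
      · rw [← ν.rng] at hx
        obtain ⟨m, rfl⟩ := hx
        rcases h.surj m with rfl | ⟨z, rfl⟩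
        exacts [Or.inl rfl, Or.inr ⟨z, rfl⟩]
    · obtain ⟨a1, a2, a3⟩ := plot_reg ν (jw_sq hw) hreg h.hu h.du
      refine ⟨⟨ν.n ∘ u, τ, h.pos, a1, fun m n z => congrArg ν.n (h.per m n z),
        fun z z' e => h.inj z z' (hinj e), a2, a3⟩, ?_⟩
      show range (ν.n ∘ u) = _
      rw [h.surj.range_comp, ν.rng]
  · set s : OnePoint ℂ → ν.M := fun t => OnePoint.rec (v 0) u t with hs
    have hsi : Function.Injective s := by
      intro a b e
      induction a using OnePoint.rec <;> induction b using OnePoint.rec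
      · rfl
      · exact absurd ⟨_, e.symm⟩ h.inf
      · exact absurd ⟨_, e⟩ h.inf
      · exact congrArg _ (h.inj e)
    have hss : Function.Surjective s := fun m => by
      rcases h.surj m with rfl | ⟨z, rfl⟩
      exacts [⟨OnePoint.infty, rfl⟩, ⟨z, rfl⟩]
    have hsc : Continuous s := by
      rw [OnePoint.continuous_iff]
      refine ⟨?_, continuous_iff_continuousAt.2 fun z => (h.hu z).continuousAt⟩
      rw [coclosedCompact_eq_cocompact, ← Metric.cobounded_eq_cocompact]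
      refine ((h.hv 0).continuousAt.tendsto.comp (tendsto_inv₀_cobounded (α := ℂ))).congr' ?_
      filter_upwards [Bornology.eventually_ne_cobounded (0 : ℂ)] with z hz
      show v z⁻¹ = u z
      rw [h.glue _ (inv_ne_zero hz), inv_inv]
    refine ⟨ν.n ∘ s, ν.cont.comp hsc, by rw [hss.range_comp, ν.rng], ?_⟩
    have hone : ∀ m m', ν.n m = ν.n m' → ν.n m ≠ x₀ → m = m' := by
      intro m m' e hne
      obtain ⟨N, b, U, hb, -, h1⟩ := hx _ (mem_K ν m)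
      obtain rfl := h1 hne
      obtain ⟨σ, -, h2, -⟩ := lift' ν hb
      obtain ⟨l, hl⟩ := (h2 m).1 rfl
      obtain ⟨l', hl'⟩ := (h2 m').1 e.symm
      rw [← hl, ← hl', Subsingleton.elim l l']
    by_cases hx₀ : x₀ ∈ K.K
    · obtain ⟨N, b, U, hb, hN, -⟩ := hx _ hx₀
      obtain ⟨σ, -, h2, -⟩ := lift' ν hb
      have hp := hb.posN
      obtain ⟨p, hp'⟩ := hss (σ ⟨0, hp⟩ 0)
      obtain ⟨q, hq'⟩ := hss (σ ⟨N - 1, by omega⟩ 0)
      refine ⟨p, q, fun a c e => ?_⟩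
      by_cases hne : ν.n (s a) = x₀
      · have key : ∀ t, ν.n (s t) = x₀ → t = p ∨ t = q := by
          intro t ht
          obtain ⟨l, hl⟩ := (h2 _).1 ht
          by_cases h0 : l.1 = 0
          · exact Or.inl (hsi (by rw [hp', ← hl]; congr 1; exact Fin.ext h0))
          · refine Or.inr (hsi (by rw [hq', ← hl]; congr 1; exact Fin.ext (by
              have := l.2; show l.1 = N - 1; omega)))
        rcases key a hne with rfl | rfl <;> rcases key c (e.symm.trans hne) with rfl | rfl <;> simp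
      · exact Or.inl (hsi (hone _ _ e hne))
    · exact ⟨OnePoint.infty, OnePoint.infty, fun a c e =>
        Or.inl (hsi (hone _ _ e fun h0 => hx₀ (h0 ▸ mem_K ν _)))⟩

end Vale.Agent.P247C
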