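import Vale.Agent.P247X.Base
import Vale.Agent.P247.H821.Stokes

/-!
# P247, block C toolkit: forms in charts, pull-backs by discs, the exterior derivative
-/

set_option linter.all false

open scoped Manifold ContDiff Topology
open Set MeasureTheory Filter Metric

noncomputable section

namespace Vale.Agent.P247C

open Vale.Agent.P247.SCY Vale.Agent.P247.SCY.HS Vale.Agent.P247X
open Vale.Agent.P204.Mfd (dch dsym mdiff_chart mdiff_symm)

variable {X : Type} [TopologicalSpace X] [ChartedSpace HS.E4 X] [IsManifold (𝓡 4) ∞ X] {k : ℕ}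

theorem form_congr (φ : Form X k) {x x' : X} (h : x = x') (v : Fin k → HS.E4) :
    φ x v = φ x' v := by subst h; rfl

theorem form_chart (φ : Form X k) {c : OpenPartialHomeomorph X HS.E4} (hc : c ∈ atlas HS.E4 X)
    {x : X} (hx : x ∈ c.source) (v : Fin k → HS.E4) :
    φ x v = loc c φ (c x) fun i => dch c x (v i) := by
  have h := fun u => dsym_dch hc (c.map_source hx) u
  rw [c.left_inv hx] at h
  show _ = φ (c.symm (c x)) fun i => dsym c (c x) (dch c x (v i))
  simp only [h]
  exact form_congr φ (c.left_inv hx).symm v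

theorem form_ext {φ ψ : Form X k} {x : X}
    (h : loc (chartAt HS.E4 x) φ (chartAt HS.E4 x x) = loc (chartAt HS.E4 x) ψ (chartAt HS.E4 x x)) :
    φ x = ψ x := by
  ext v
  refine (form_chart φ (chart_mem_atlas _ x) (mem_chart_source _ x) v).trans ?_
  rw [h]
  exact (form_chart ψ (chart_mem_atlas _ x) (mem_chart_source _ x) v).symm

theorem cmd_chart {c : OpenPartialHomeomorph X HS.E4} (hc : c ∈ atlas HS.E4 X) {x : X}
    (hx : x ∈ c.source) : ContMDiffAt (𝓡 4) (𝓡 4) ∞ c x :=
  contMDiffAt_of_mem_maximalAtlas (IsManifold.subset_maximalAtlas hc) hx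

theorem cmd_symm {c : OpenPartialHomeomorph X HS.E4} (hc : c ∈ atlas HS.E4 X) {y : HS.E4}
    (hy : y ∈ c.target) : ContMDiffAt (𝓡 4) (𝓡 4) ∞ c.symm y :=
  contMDiffAt_symm_of_mem_maximalAtlas (IsManifold.subset_maximalAtlas hc) hy

section plot

variable {E : Type} [NormedAddCommGroup E] [NormedSpace ℝ E] {u : E → X} {z : E}

theorem cd_chart {c : OpenPartialHomeomorph X HS.E4} (hc : c ∈ atlas HS.E4 X)
    (hu : ContMDiffAt 𝓘(ℝ, E) (𝓡 4) ∞ u z) (hz : u z ∈ c.source) :
    ContDiffAt ℝ ∞ (fun y => c (u y)) z :=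
  ((cmd_chart hc hz).comp z hu).contDiffAt

theorem fderiv_chart {c : OpenPartialHomeomorph X HS.E4} (hc : c ∈ atlas HS.E4 X)
    (hu : MDifferentiableAt 𝓘(ℝ, E) (𝓡 4) u z) (hz : u z ∈ c.source) (a : E) :
    fderiv ℝ (fun y => c (u y)) z a = dch c (u z) (mfderiv 𝓘(ℝ, E) (𝓡 4) u z a) := by
  have h := mfderiv_comp z (mdiff_chart hc hz) hu
  rw [mfderiv_eq_fderiv] at h
  exact DFunLike.congr_fun h a

/-- pull-back of a form by a map from a normed space -/
def pbf (φ : Form X k) (u : E → X) (z : E) : E [⋀^Fin k]→L[ℝ] ℝ :=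
  (φ (u z)).compContinuousLinearMap (mfderiv 𝓘(ℝ, E) (𝓡 4) u z)

theorem pbf_chart (φ : Form X k) {c : OpenPartialHomeomorph X HS.E4} (hc : c ∈ atlas HS.E4 X)
    (hu : MDifferentiableAt 𝓘(ℝ, E) (𝓡 4) u z) (hz : u z ∈ c.source) :
    pbf φ u z = (loc c φ (c (u z))).compContinuousLinearMap (fderiv ℝ (fun y => c (u y)) z) := by
  ext v
  show φ (u z) (fun i => mfderiv 𝓘(ℝ, E) (𝓡 4) u z (v i)) =
    loc c φ (c (u z)) fun i => fderiv ℝ (fun y => c (u y)) z (v i)
  simp only [fderiv_chart hc hu hz]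
  exact form_chart φ hc hz _

theorem pbf_ev (φ : Form X k) {Ω : Set E} (hΩ : IsOpen Ω) (hu : ContMDiffOn 𝓘(ℝ, E) (𝓡 4) ∞ u Ω)
    (hz : z ∈ Ω) {c : OpenPartialHomeomorph X HS.E4} (hc : c ∈ atlas HS.E4 X)
    (hz' : u z ∈ c.source) : pbf φ u =ᶠ[𝓝 z] fun z =>
      (loc c φ (c (u z))).compContinuousLinearMap (fderiv ℝ (fun y => c (u y)) z) := by
  have h1 := (hu.contMDiffAt (hΩ.mem_nhds hz)).continuousAt.eventually
    (c.open_source.mem_nhds hz')
  filter_upwards [hΩ.mem_nhds hz, h1] with y hy hy'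
  exact pbf_chart φ hc ((hu.contMDiffAt (hΩ.mem_nhds hy)).mdifferentiableAt (by simp)) hy'

theorem minS : minSmoothness ℝ 2 ≤ ∞ := by
  rw [minSmoothness_of_isRCLikeNormedField]
  exact WithTop.coe_le_coe.2 (le_top : (2 : ℕ∞) ≤ ⊤)

/-- the exterior derivative commutes with pull-backs -/
theorem extDeriv_pbf (φ : Form X k) {Ω : Set E} (hΩ : IsOpen Ω)
    (hu : ContMDiffOn 𝓘(ℝ, E) (𝓡 4) ∞ u Ω) (hz : z ∈ Ω) {c : OpenPartialHomeomorph X HS.E4}
    (hc : c ∈ atlas HS.E4 X) (hz' : u z ∈ c.source)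
    (hφ : DifferentiableAt ℝ (loc c φ) (c (u z))) : extDeriv (pbf φ u) z =
      (extDeriv (loc c φ) (c (u z))).compContinuousLinearMap (fderiv ℝ (fun y => c (u y)) z) := by
  rw [(pbf_ev φ hΩ hu hz hc hz').extDeriv_eq]
  exact extDeriv_pullback (r := ∞) (f := fun y => c (u y)) hφ
    (cd_chart hc (hu.contMDiffAt (hΩ.mem_nhds hz)) hz') minS

theorem diff_pbf (φ : Form X k) {Ω : Set E} (hΩ : IsOpen Ω)
    (hu : ContMDiffOn 𝓘(ℝ, E) (𝓡 4) ∞ u Ω) (hz : z ∈ Ω) {c : OpenPartialHomeomorph X HS.E4}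
    (hc : c ∈ atlas HS.E4 X) (hz' : u z ∈ c.source)
    (hφ : DifferentiableAt ℝ (loc c φ) (c (u z))) : DifferentiableAt ℝ (pbf φ u) z := by
  refine DifferentiableAt.congr_of_eventuallyEq ?_ (pbf_ev φ hΩ hu hz hc hz')
  have h := cd_chart hc (hu.contMDiffAt (hΩ.mem_nhds hz)) hz'
  exact DifferentiableAt.continuousAlternatingMapCompContinuousLinearMap
    (DifferentiableAt.comp z (g := loc c φ) hφ (h.differentiableAt (by simp)))
    ((h.fderiv_right (m := ∞) (by simp)).differentiableAt (by simp))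

end plot

/-! ## The exterior derivative -/

/-- the exterior derivative of a form -/
def dX (η : Form X k) : Form X (k + 1) := fun x =>
  (extDeriv (loc (chartAt HS.E4 x) η) (chartAt HS.E4 x x)).compContinuousLinearMap
    (mfderiv (𝓡 4) (𝓡 4) (chartAt HS.E4 x) x)

theorem smoothOn_univ {η : Form X k} : SmoothOn univ η ↔ Smooth η := by
  simp only [SmoothOn, Smooth, preimage_univ, inter_univ]

theorem SmoothOn_at {η : Form X k} {U : Set X} (hU : IsOpen U) (h : SmoothOn U η)
    {c : OpenPartialHomeomorph X HS.E4} (hc : c ∈ atlas HS.E4 X) {x : X} (hx : x ∈ c.source)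
    (hxU : x ∈ U) : ContDiffAt ℝ ∞ (loc c η) (c x) :=
  (h c hc).contDiffAt ((c.symm.isOpen_inter_preimage hU).mem_nhds
    ⟨c.map_source hx, by rw [mem_preimage, c.left_inv hx]; exact hxU⟩)

theorem loc_dX {η : Form X k} {U : Set X} (hU : IsOpen U) (h : SmoothOn U η)
    {c : OpenPartialHomeomorph X HS.E4} (hc : c ∈ atlas HS.E4 X) {y : HS.E4} (hy : y ∈ c.target)
    (hyU : c.symm y ∈ U) : loc c (dX η) y = extDeriv (loc c η) y := by
  have hs : ContMDiffOn (𝓡 4) (𝓡 4) ∞ c.symm c.target := fun y hy =>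
    (cmd_symm hc hy).contMDiffWithinAt
  have h1 := extDeriv_pbf η c.open_target hs hy (chart_mem_atlas _ (c.symm y))
    (mem_chart_source _ _) ((SmoothOn_at hU h (chart_mem_atlas _ _) (mem_chart_source _ _)
      hyU).differentiableAt (by simp))
  refine Eq.trans ?_ h1.symm
  ext v
  have h2 := fun a => fderiv_chart (chart_mem_atlas HS.E4 (c.symm y)) (mdiff_symm hc hy)
    (mem_chart_source _ _) a
  show extDeriv _ _ (fun i => dch _ (c.symm y) (mfderiv (𝓡 4) (𝓡 4) c.symm y (v i))) =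
    extDeriv _ _ fun i => fderiv ℝ _ y (v i)
  simp only [h2]

theorem dOn_dX {η : Form X 1} {U : Set X} (hU : IsOpen U) (h : SmoothOn U η) : DOn U η (dX η) :=
  fun _ hc _ hy hyU => (loc_dX hU h hc hy hyU).symm

theorem DOn_eq {η : Form X 1} {α : Form X 2} {U : Set X} (hU : IsOpen U) (h : SmoothOn U η)
    (hd : DOn U η α) {x : X} (hx : x ∈ U) : α x = dX η x := by
  have h1 := (chartAt HS.E4 x).map_source (mem_chart_source _ x)
  have h2 : (chartAt HS.E4 x).symm (chartAt HS.E4 x x) ∈ U := by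
    rw [(chartAt HS.E4 x).left_inv (mem_chart_source _ x)]; exact hx
  exact form_ext ((hd _ (chart_mem_atlas _ x) _ h1 h2).symm.trans
    (loc_dX hU h (chart_mem_atlas _ x) h1 h2).symm)

theorem contDiffAt_extDeriv {E : Type} [NormedAddCommGroup E] [NormedSpace ℝ E]
    {a : E → E [⋀^Fin k]→L[ℝ] ℝ} {y : E} (h : ContDiffAt ℝ ∞ a y) :
    ContDiffAt ℝ ∞ (extDeriv a) y := by
  have h1 : ContDiff ℝ ∞ (ContinuousAlternatingMap.alternatizeUncurryFinCLM ℝ E ℝ (n := k)) :=
    ContinuousLinearMap.contDiff _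
  exact h1.contDiffAt.comp y (h.fderiv_right (m := ∞) (by simp))

theorem smooth_dX {η : Form X k} (h : Smooth η) : Smooth (dX η) := fun c hc y hy => by
  refine (ContDiffAt.congr_of_eventuallyEq (contDiffAt_extDeriv
    ((h c hc).contDiffAt (c.open_target.mem_nhds hy))) ?_).contDiffWithinAt
  filter_upwards [c.open_target.mem_nhds hy] with y' hy'
  exact loc_dX isOpen_univ (smoothOn_univ.2 h) hc hy' trivial

theorem exact_dX {η : Form X 1} (h : Smooth η) : Exact (dX η) :=
  ⟨η, h, fun _ hc _ hy => (loc_dX isOpen_univ (smoothOn_univ.2 h) hc hy trivial).symm⟩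

theorem exact_iff {α : Form X 2} (h : Exact α) : ∃ η : Form X 1, Smooth η ∧ α = dX η := by
  obtain ⟨η, hη, hd⟩ := h
  exact ⟨η, hη, funext fun x => DOn_eq isOpen_univ (smoothOn_univ.2 hη)
    (fun c hc y hy _ => hd c hc y hy) trivial⟩

theorem dX_congr {η η' : Form X k} {x : X} (h : ∀ᶠ y in 𝓝 x, η y = η' y) : dX η x = dX η' x := by
  have h1 : loc (chartAt HS.E4 x) η =ᶠ[𝓝 (chartAt HS.E4 x x)] loc (chartAt HS.E4 x) η' := by
    have h2 := (chartAt HS.E4 x).continuousAt_symm
      ((chartAt HS.E4 x).map_source (mem_chart_source _ x))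
    rw [ContinuousAt, (chartAt HS.E4 x).left_inv (mem_chart_source _ x)] at h2
    filter_upwards [h2.eventually h] with y hy
    unfold loc
    rw [hy]
  unfold dX
  rw [h1.extDeriv_eq]

theorem dX_zero (x : X) : dX (fun _ => 0 : Form X k) x = 0 := by
  have h := (sc_zero (X := X) (k := k)).2 _ (chart_mem_atlas _ x) _
    ((chartAt HS.E4 x).map_source (mem_chart_source _ x))
  unfold dX
  rw [h]
  ext v; rfl

theorem dX_add {η η' : Form X k} (h : Smooth η) (h' : Smooth η') (x : X) :
    dX (fun x => η x + η' x) x = dX η x + dX η' x := by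
  have h1 := (chartAt HS.E4 x).open_target.mem_nhds
    ((chartAt HS.E4 x).map_source (mem_chart_source _ x))
  unfold dX
  rw [loc_add', extDeriv_fun_add
    (((h _ (chart_mem_atlas _ x)).contDiffAt h1).differentiableAt (by simp))
    (((h' _ (chart_mem_atlas _ x)).contDiffAt h1).differentiableAt (by simp))]
  ext v; rfl

theorem smooth_sum {ι : Type} (s : Finset ι) {α : ι → Form X k} (h : ∀ i ∈ s, Smooth (α i)) :
    Smooth fun x => ∑ i ∈ s, α i x := by
  classical
  induction s using Finset.induction_on with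
  | empty => simpa using smooth_zero
  | insert a s ha ih =>
    simpa only [Finset.sum_insert ha] using smooth_add (h a (Finset.mem_insert_self _ _))
      (ih fun i hi => h i (Finset.mem_insert_of_mem hi))

theorem dX_sum {ι : Type} (s : Finset ι) {α : ι → Form X k} (h : ∀ i ∈ s, Smooth (α i)) (x : X) :
    dX (fun x => ∑ i ∈ s, α i x) x = ∑ i ∈ s, dX (α i) x := by
  classical
  induction s using Finset.induction_on with
  | empty => simpa using dX_zero x
  | insert a s ha ih =>
    simp only [Finset.sum_insert ha]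
    rw [dX_add (h a (Finset.mem_insert_self _ _))
      (smooth_sum s fun i hi => h i (Finset.mem_insert_of_mem hi)),
      ih fun i hi => h i (Finset.mem_insert_of_mem hi)]

/-! ## Multiplication by functions -/

theorem loc_fsmul (c : OpenPartialHomeomorph X HS.E4) (f : X → ℝ) (α : Form X k) :
    loc c (fun x => f x • α x) = fun y => f (c.symm y) • loc c α y := by
  funext y; ext v; rfl

theorem cont_fsmul {f : X → ℝ} (hf : Continuous f) {α : Form X k} (h : Cont α) :
    Cont fun x => f x • α x := fun c hc => by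
  rw [loc_fsmul]
  exact (hf.comp_continuousOn c.continuousOn_symm).smul (h c hc)

theorem smooth_fsmul {f : X → ℝ} (hf : ContMDiff (𝓡 4) 𝓘(ℝ, ℝ) ∞ f) {α : Form X k}
    (h : Smooth α) : Smooth fun x => f x • α x := fun c hc => by
  rw [loc_fsmul]
  refine ContDiffOn.smul (f := fun y => f (c.symm y)) (fun y hy => ?_) (h c hc)
  exact ((hf _).comp y (cmd_symm hc hy)).contDiffAt.contDiffWithinAt

/-- a form which is smooth on `U` times a function with support in `U` -/
theorem smooth_cut {f : X → ℝ} (hf : ContMDiff (𝓡 4) 𝓘(ℝ, ℝ) ∞ f) {α : Form X k} {U : Set X}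
    (hU : IsOpen U) (h : SmoothOn U α) (hs : tsupport f ⊆ U) : Smooth fun x => f x • α x :=
  fun c hc y hy => by
  rw [loc_fsmul]
  apply ContDiffAt.contDiffWithinAt
  by_cases hx : c.symm y ∈ U
  · have h1 := SmoothOn_at hU h hc (c.map_target hy) hx
    rw [c.right_inv hy] at h1
    exact ((hf _).comp y (cmd_symm hc hy)).contDiffAt.smul h1
  · have h1 : ∀ᶠ x in 𝓝 (c.symm y), f x = 0 :=
      notMem_tsupport_iff_eventuallyEq.1 fun h => hx (hs h)
    refine (contDiffAt_const (c := 0)).congr_of_eventuallyEq ?_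
    filter_upwards [(c.continuousAt_symm hy).eventually h1] with y' hy'
    rw [hy', zero_smul]

theorem cont_zero : Cont (fun _ => 0 : Form X k) := cont_of_smooth smooth_zero

theorem cont_sum {ι : Type} (s : Finset ι) {α : ι → Form X k} (h : ∀ i ∈ s, Cont (α i)) :
    Cont fun x => ∑ i ∈ s, α i x := by
  classical
  induction s using Finset.induction_on with
  | empty => simpa using cont_zero
  | insert a s ha ih =>
    simpa only [Finset.sum_insert ha] using (h a (Finset.mem_insert_self _ _)).add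
      (ih fun i hi => h i (Finset.mem_insert_of_mem hi))

end Vale.Agent.P247C
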