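import Vale.Agent.P247C.T1

/-!
# P247, block C toolkit: discs, Stokes, change of variables
-/

set_option linter.all false

open scoped Manifold ContDiff Topology
open Set MeasureTheory Filter Metric

noncomputable section

namespace Vale.Agent.P247C

open Vale.Agent.P247.SCY Vale.Agent.P247.SCY.HS Vale.Agent.P247X
open Vale.Agent.P204.Mfd (dch dsym mdiff_chart mdiff_symm)

/-- the exterior derivative of the one-form `a ↦ P a z` on the plane -/
def curl (P : ℂ → ℂ → ℝ) (z : ℂ) : ℝ :=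
  fderiv ℝ (P Complex.I) z 1 - fderiv ℝ (P 1) z Complex.I

theorem curl_congr {P Q : ℂ → ℂ → ℝ} {z : ℂ} (h : ∀ a, P a =ᶠ[𝓝 z] Q a) : curl P z = curl Q z := by
  unfold curl
  rw [(h _).fderiv_eq, (h _).fderiv_eq]

theorem curl_add {P Q : ℂ → ℂ → ℝ} {z : ℂ} (hP : ∀ a, DifferentiableAt ℝ (P a) z)
    (hQ : ∀ a, DifferentiableAt ℝ (Q a) z) :
    curl (fun a w => P a w + Q a w) z = curl P z + curl Q z := by
  unfold curl
  rw [fderiv_fun_add (hP _) (hQ _), fderiv_fun_add (hP _) (hQ _)]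
  simp only [ContinuousLinearMap.add_apply]
  ring

theorem curl_mul {f : ℂ → ℝ} {P : ℂ → ℂ → ℝ} {z : ℂ} (hf : DifferentiableAt ℝ f z)
    (hP : ∀ a, DifferentiableAt ℝ (P a) z) : curl (fun a w => f w * P a w) z =
      f z * curl P z + (fderiv ℝ f z 1 * P Complex.I z - fderiv ℝ f z Complex.I * P 1 z) := by
  unfold curl
  rw [fderiv_fun_mul hf (hP _), fderiv_fun_mul hf (hP _)]
  simp only [ContinuousLinearMap.add_apply, ContinuousLinearMap.smul_apply, smul_eq_mul]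
  ring

theorem curl_grad {g : ℂ → ℝ} {z : ℂ} (hg : ContDiffAt ℝ ∞ g z) :
    curl (fun a w => fderiv ℝ g w a) z = 0 := by
  have h1 : HasFDerivAt (fderiv ℝ g) (fderiv ℝ (fderiv ℝ g) z) z :=
    ((hg.fderiv_right (m := ∞) (by simp)).differentiableAt (by simp)).hasFDerivAt
  have h2 : ∀ a b, fderiv ℝ (fun w => fderiv ℝ g w a) z b = fderiv ℝ (fderiv ℝ g) z b a := by
    intro a b
    rw [(h1.clm_apply (hasFDerivAt_const a z)).fderiv]
    simp
  unfold curl
  rw [h2, h2, hg.isSymmSndFDerivAt minS 1 Complex.I, sub_self]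

/-- Stokes for compactly supported one-forms on the plane -/
theorem int_curl_zero {P : ℂ → ℂ → ℝ} {Ω C s : Set ℂ} (hΩ : IsOpen Ω) (hC : IsCompact C)
    (hP : ∀ a, ContDiffOn ℝ ∞ (P a) Ω) (h0 : ∀ a, ∀ z ∈ Ω, z ∉ C → P a z = 0)
    (hs : MeasurableSet s) (h1 : C ⊆ s) (h2 : s ⊆ Ω) : ∫ z in s, curl P z = 0 := by
  classical
  set g : ℂ → ℂ → ℝ := fun a z => if z ∈ Ω then P a z else 0 with hg
  have hg0 : ∀ a z, z ∉ C → g a z = 0 := fun a z hz => by
    simp only [hg]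
    split_ifs with h
    exacts [h0 a z h hz, rfl]
  have hloc : ∀ a, ∀ z ∈ Ω, g a =ᶠ[𝓝 z] P a := fun a z hz => by
    filter_upwards [hΩ.mem_nhds hz] with w hw
    exact if_pos hw
  have hz0 : ∀ a z, z ∉ C → g a =ᶠ[𝓝 z] fun _ => 0 := fun a z hz => by
    filter_upwards [hC.isClosed.isOpen_compl.mem_nhds hz] with w hw
    exact hg0 a w hw
  have hsm : ∀ a, ContDiff ℝ ∞ (g a) := fun a => contDiff_iff_contDiffAt.2 fun z => by
    by_cases hz : z ∈ Ω
    · exact ((hP a).contDiffAt (hΩ.mem_nhds hz)).congr_of_eventuallyEq (hloc a z hz)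
    · exact contDiffAt_const.congr_of_eventuallyEq (hz0 a z fun h => hz (h2 (h1 h)))
  have hcs : ∀ a, HasCompactSupport (g a) := fun a => HasCompactSupport.intro hC (hg0 a)
  have hi : ∀ a b, Integrable fun z => fderiv ℝ (g a) z b := fun a b =>
    (((hsm _).continuous_fderiv (by simp)).clm_apply
      continuous_const).integrable_of_hasCompactSupport ((hcs _).fderiv_apply (𝕜 := ℝ) _)
  rw [setIntegral_congr_fun hs fun z hz => (curl_congr fun a => hloc a z (h2 hz)).symm,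
    setIntegral_eq_integral_of_forall_compl_eq_zero]
  · unfold curl
    rw [integral_sub (hi _ _) (hi _ _), P247.H821.int_fderiv_zero (hsm _) (hcs _),
      P247.H821.int_fderiv_zero (hsm _) (hcs _), sub_self]
  · intro z hz
    rw [curl_congr fun a => hz0 a z fun h => hz (h1 h)]
    simp [curl]

theorem det_eq (A : ℂ →L[ℝ] ℂ) :
    A.det = (A 1).re * (A Complex.I).im - (A Complex.I).re * (A 1).im := by
  rw [ContinuousLinearMap.det, ← LinearMap.det_toMatrix Complex.basisOneI, Matrix.det_fin_two]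
  simp [LinearMap.toMatrix_apply]

theorem alt2_lin {V : Type} [AddCommGroup V] [Module ℝ V] [TopologicalSpace V]
    (B : V [⋀^Fin 2]→L[ℝ] ℝ) (p q : V) (a b c d : ℝ) :
    B ![a • p + b • q, c • p + d • q] = (a * d - c * b) * B ![p, q] := by
  have h1 : ∀ x y z, B ![x + y, z] = B ![x, z] + B ![y, z] := fun x y z =>
    B.toAlternatingMap.map_vecCons_add ![z] x y
  have h2 : ∀ (r : ℝ) x z, B ![r • x, z] = r * B ![x, z] := fun r x z =>
    B.toAlternatingMap.map_vecCons_smul ![z] r x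
  have h3 : ∀ x y, B ![x, y] = - B ![y, x] := fun x y => by
    have h := B.toAlternatingMap.map_swap ![y, x] (i := 0) (j := 1) (by decide)
    have e : (![y, x] ∘ Equiv.swap (0 : Fin 2) 1) = ![x, y] := by
      funext i; fin_cases i <;> rfl
    rw [e] at h
    exact h
  have h4 : ∀ x, B ![x, x] = 0 := fun x => by linarith [h3 x x]
  rw [h1, h2, h2, h3 p, h3 q, h1, h1, h2, h2, h2, h2, h4, h4, h3 q p]
  ring

variable {X : Type} [TopologicalSpace X] [ChartedSpace HS.E4 X]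

/-- the pull-back of a one-form -/
def pull1 (η : Form X 1) (u : ℂ → X) (a z : ℂ) : ℝ := η (u z) ![dm u z a]

theorem pull2_pbf (φ : Form X 2) (u : ℂ → X) (z : ℂ) :
    pull2 φ u z = pbf φ u z ![1, Complex.I] := by
  refine congrArg (φ (u z)) ?_
  funext i; fin_cases i <;> rfl

theorem pull1_pbf (η : Form X 1) (u : ℂ → X) (a z : ℂ) : pull1 η u a z = pbf η u z ![a] := by
  refine congrArg (η (u z)) ?_
  funext i; fin_cases i; rfl

theorem pull2_congr {φ : Form X 2} {u v : ℂ → X} {z : ℂ} (h : u =ᶠ[𝓝 z] v) :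
    pull2 φ u z = pull2 φ v z := by
  have h1 : ∀ a, (dm u z a : HS.E4) = dm v z a := fun a => DFunLike.congr_fun h.mfderiv_eq a
  have h2 : (![dm u z 1, dm u z Complex.I] : Fin 2 → HS.E4) = ![dm v z 1, dm v z Complex.I] := by
    rw [h1, h1]; rfl
  have h3 : ∀ {x x' : X}, x = x' → ∀ v : Fin 2 → HS.E4, φ x v = φ x' v := by
    rintro x _ rfl v; rfl
  exact (congrArg (φ (u z)) h2).trans (h3 h.eq_of_nhds _)

theorem dm_expand (u : ℂ → X) (z a : ℂ) :
    dm u z a = a.re • dm u z 1 + a.im • dm u z Complex.I := by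
  have h : a = a.re • (1 : ℂ) + a.im • Complex.I := by apply Complex.ext <;> simp
  have h1 : ∀ L : ℂ →L[ℝ] HS.E4, L a = a.re • L 1 + a.im • L Complex.I := fun L => by
    conv_lhs => rw [h, map_add, map_smul, map_smul]
  exact h1 (mfderiv 𝓘(ℝ, ℂ) (𝓡 4) u z)

theorem dm_comp {u : ℂ → X} {ψ : ℂ → ℂ} {A : ℂ →L[ℝ] ℂ} {z : ℂ} (hψ : HasFDerivAt ψ A z)
    (hu : MDifferentiableAt 𝓘(ℝ, ℂ) (𝓡 4) u (ψ z)) (a : ℂ) :
    dm (fun w => u (ψ w)) z a = dm u (ψ z) (A a) :=
  DFunLike.congr_fun (hu.hasMFDerivAt.comp z hψ.hasMFDerivAt).mfderiv a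

theorem pull2_comp (φ : Form X 2) {u : ℂ → X} {ψ : ℂ → ℂ} {A : ℂ →L[ℝ] ℂ} {z : ℂ}
    (hψ : HasFDerivAt ψ A z) (hu : MDifferentiableAt 𝓘(ℝ, ℂ) (𝓡 4) u (ψ z)) :
    pull2 φ (fun w => u (ψ w)) z = A.det * pull2 φ u (ψ z) := by
  unfold pull2
  rw [dm_comp hψ hu, dm_comp hψ hu, dm_expand u (ψ z) (A 1), dm_expand u (ψ z) (A Complex.I),
    det_eq]
  exact alt2_lin (φ (u (ψ z))) _ _ _ _ _ _

/-- multiplication by a complex number -/
def mulC (a : ℂ) : ℂ →L[ℝ] ℂ := (ContinuousLinearMap.toSpanSingleton ℂ a).restrictScalars ℝ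

theorem mulC_apply (a b : ℂ) : mulC a b = b * a := rfl

theorem det_mulC (a : ℂ) : (mulC a).det = Complex.normSq a := by
  rw [det_eq, mulC_apply, mulC_apply, Complex.normSq_apply]
  simp

theorem hasF_mulC {ψ : ℂ → ℂ} {a z : ℂ} (h : HasDerivAt ψ a z) : HasFDerivAt ψ (mulC a) z :=
  h.hasFDerivAt.restrictScalars ℝ

section cv

variable (φ : Form X 2) {u : ℂ → X} {ψ ψ' : ℂ → ℂ} {s : Set ℂ} (hs : MeasurableSet s)
  (hψ : ∀ z ∈ s, HasDerivAt ψ (ψ' z) z) (hi : InjOn ψ s)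
  (hu : ∀ z ∈ s, MDifferentiableAt 𝓘(ℝ, ℂ) (𝓡 4) u (ψ z))
include hs hψ hi hu

theorem cv_aux : EqOn (fun z => |(mulC (ψ' z)).det| • pull2 φ u (ψ z))
    (pull2 φ fun w => u (ψ w)) s := fun z hz => by
  rw [pull2_comp φ (hasF_mulC (hψ z hz)) (hu z hz)]
  show |(mulC (ψ' z)).det| * _ = _
  rw [abs_of_nonneg (by rw [det_mulC]; exact Complex.normSq_nonneg _)]

/-- holomorphic change of variables -/
theorem int_comp : ∫ z in ψ '' s, pull2 φ u z = ∫ z in s, pull2 φ (fun w => u (ψ w)) z := by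
  rw [integral_image_eq_integral_abs_det_fderiv_smul volume hs
    (fun z hz => (hasF_mulC (hψ z hz)).hasFDerivWithinAt) hi]
  exact setIntegral_congr_fun hs (cv_aux φ hs hψ hi hu)

theorem integrableOn_comp : IntegrableOn (pull2 φ u) (ψ '' s) ↔
    IntegrableOn (pull2 φ fun w => u (ψ w)) s := by
  rw [integrableOn_image_iff_integrableOn_abs_det_fderiv_smul volume hs
    (fun z hz => (hasF_mulC (hψ z hz)).hasFDerivWithinAt) hi]
  exact integrableOn_congr_fun (cv_aux φ hs hψ hi hu) hs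

end cv

variable [IsManifold (𝓡 4) ∞ X] {u : ℂ → X} {Ω : Set ℂ} {z : ℂ}

theorem contOn_pull2 {φ : Form X 2} (hφ : Cont φ) (hΩ : IsOpen Ω)
    (hu : ContMDiffOn 𝓘(ℝ, ℂ) (𝓡 4) ∞ u Ω) : ContinuousOn (pull2 φ u) Ω := fun z hz => by
  have hc := chart_mem_atlas HS.E4 (u z)
  have hz' := mem_chart_source HS.E4 (u z)
  set c := chartAt HS.E4 (u z)
  have h := cd_chart hc (hu.contMDiffAt (hΩ.mem_nhds hz)) hz'
  have h1 : ContinuousAt (fun y => loc c φ (c (u y))) z :=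
    ContinuousAt.comp (g := loc c φ) ((hφ c hc).continuousAt (c.open_target.mem_nhds
      (c.map_source hz'))) h.continuousAt
  have h2 : ContinuousAt (fun y => fun i => fderiv ℝ (fun y => c (u y)) y (![1, Complex.I] i)) z :=
    continuousAt_pi.2 fun i => (h.fderiv_right (m := ∞) (by simp)).continuousAt.clm_apply
      continuousAt_const
  refine ((h1.eval h2).congr ?_).continuousWithinAt
  filter_upwards [pbf_ev φ hΩ hu hz hc hz'] with y hy
  rw [pull2_pbf, hy]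
  rfl

theorem cd_pull1 {η : Form X 1} {U : Set X} (hU : IsOpen U) (hη : SmoothOn U η) (hΩ : IsOpen Ω)
    (hu : ContMDiffOn 𝓘(ℝ, ℂ) (𝓡 4) ∞ u Ω) (hz : z ∈ Ω) (hzU : u z ∈ U) (a : ℂ) :
    ContDiffAt ℝ ∞ (pull1 η u a) z := by
  have hc := chart_mem_atlas HS.E4 (u z)
  have hz' := mem_chart_source HS.E4 (u z)
  set c := chartAt HS.E4 (u z)
  have h := cd_chart hc (hu.contMDiffAt (hΩ.mem_nhds hz)) hz'
  set L := (ContinuousAlternatingMap.ofSubsingletonLIE (𝕜 := ℝ) (E := HS.E4) (F := ℝ)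
    (0 : Fin 1)).symm with hL
  have h1 : ContDiffAt ℝ ∞ (fun y => L (loc c η (c (u y)))) z :=
    L.contDiff.contDiffAt.comp z (ContDiffAt.comp z (g := loc c η)
      (SmoothOn_at hU hη hc hz' hzU) h)
  have h2 : ContDiffAt ℝ ∞ (fun y => fderiv ℝ (fun y => c (u y)) y a) z :=
    (h.fderiv_right (m := ∞) (by simp)).clm_apply contDiffAt_const
  refine (h1.clm_apply h2).congr_of_eventuallyEq ?_
  filter_upwards [pbf_ev η hΩ hu hz hc hz'] with y hy
  rw [pull1_pbf, hy]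
  refine congrArg (loc c η (c (u y))) ?_
  funext i; fin_cases i; rfl

theorem pull2_dX {η : Form X 1} {U : Set X} (hU : IsOpen U) (hη : SmoothOn U η) (hΩ : IsOpen Ω)
    (hu : ContMDiffOn 𝓘(ℝ, ℂ) (𝓡 4) ∞ u Ω) (hz : z ∈ Ω) (hzU : u z ∈ U) :
    pull2 (dX η) u z = curl (pull1 η u) z := by
  have hc := chart_mem_atlas HS.E4 (u z)
  have hz' := mem_chart_source HS.E4 (u z)
  have hd := (SmoothOn_at hU hη hc hz' hzU).differentiableAt (by simp)
  have h1 := extDeriv_pbf η hΩ hu hz hc hz' hd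
  have h2 := diff_pbf η hΩ hu hz hc hz' hd
  have h3 : pbf (dX η) u z = extDeriv (pbf η u) z := by
    rw [h1, pbf_chart _ hc ((hu.contMDiffAt (hΩ.mem_nhds hz)).mdifferentiableAt (by simp)) hz',
      loc_dX hU hη hc ((chartAt HS.E4 (u z)).map_source hz')
        (by rw [(chartAt HS.E4 (u z)).left_inv hz']; exact hzU)]
  rw [pull2_pbf, h3, extDeriv_apply h2, Fin.sum_univ_two]
  have e0 : Fin.removeNth (0 : Fin 2) ![(1 : ℂ), Complex.I] = ![Complex.I] := by
    funext i; fin_cases i; rfl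
  have e1 : Fin.removeNth (1 : Fin 2) ![(1 : ℂ), Complex.I] = ![1] := by
    funext i; fin_cases i; rfl
  have e2 : ∀ a, (fun y => pbf η u y ![a]) = pull1 η u a := fun a =>
    funext fun y => (pull1_pbf η u a y).symm
  rw [e0, e1, e2, e2]
  simp [curl, sub_eq_add_neg]

theorem pull2_DOn {η : Form X 1} {α : Form X 2} {U : Set X} (hU : IsOpen U) (hη : SmoothOn U η)
    (hd : DOn U η α) (hΩ : IsOpen Ω) (hu : ContMDiffOn 𝓘(ℝ, ℂ) (𝓡 4) ∞ u Ω) (hz : z ∈ Ω)
    (hzU : u z ∈ U) : pull2 α u z = curl (pull1 η u) z := by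
  rw [← pull2_dX hU hη hΩ hu hz hzU]
  unfold pull2
  rw [DOn_eq hU hη hd hzU]

theorem cb12 : closedBall (0 : ℂ) 1 ⊆ ball 0 2 := closedBall_subset_ball (by norm_num)

theorem b12 : ball (0 : ℂ) 1 ⊆ ball 0 2 := ball_subset_ball (by norm_num)

theorem int_pull2 {φ : Form X 2} (hφ : Cont φ) (hu : ContMDiffOn 𝓘(ℝ, ℂ) (𝓡 4) ∞ u (ball 0 2)) :
    IntegrableOn (pull2 φ u) (ball 0 1) :=
  (((contOn_pull2 hφ isOpen_ball hu).mono cb12).integrableOn_compact
    (isCompact_closedBall 0 1)).mono_set ball_subset_closedBall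

theorem brX_lin (hu : ContMDiffOn 𝓘(ℝ, ℂ) (𝓡 4) ∞ u (ball 0 2)) : LinC (brX u) where
  add φ ψ hφ hψ := by
    unfold brX
    rw [← integral_add (int_pull2 hφ hu) (int_pull2 hψ hu)]
    rfl
  smul c φ _ := by
    unfold brX
    rw [← integral_const_mul]
    rfl

end Vale.Agent.P247C
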