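import Vale.Agent.P247C.RTPl
import Vale.Agent.P247C.T4

/-!
# P247, block C: the normalisation of an irreducible curve
-/

set_option linter.all false

open scoped Topology Manifold ContDiff
open Set Filter Metric

noncomputable section

namespace Vale.Agent.P247C.NR

open Vale.Agent.P247X Vale.Agent.P247.SCY RT

variable {X : Type} [TopologicalSpace X] [ChartedSpace HS.E4 X] {J : EndF X} {K : Set X}

/-- reparametrisation of branches -/
def R1 (J : EndF X) (K : Set X) : Prop := ∀ (x : X) (N N' : ℕ) (u : Fin N → ℂ → X)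
  (u' : Fin N' → ℂ → X) (U U' : Set X), BrsX J K x N u U → BrsX J K x N' u' U' →
  ∀ l, ∃ (l' : Fin N') (φ : ℂ → ℂ), φ 0 = 0 ∧
    ∀ᶠ z in 𝓝 (0 : ℂ), DifferentiableAt ℂ φ z ∧ u l z = u' l' (φ z)

/-- recentering of branches -/
def R2 (J : EndF X) (K : Set X) : Prop := ∀ (x : X) (N : ℕ) (u : Fin N → ℂ → X) (U : Set X),
  BrsX J K x N u U → ∀ l, ∀ z ∈ ball (0 : ℂ) 1, z ≠ 0 → u l z ∈ U →
  ∃ s : ℝ, 0 < s ∧ ∃ U', BrsX J K (u l z) 1 (fun _ w => u l (z + s * w)) U'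

section brs

variable {x : X} {N : ℕ} {u : Fin N → ℂ → X} {U : Set X}

theorem cont_br (h : BrsX J K x N u U) (l : Fin N) {z : ℂ} (hz : z ∈ ball (0 : ℂ) 2) :
    ContinuousAt (u l) z := (h.smooth l).continuousOn.continuousAt (isOpen_ball.mem_nhds hz)

theorem exists_rad (h : BrsX J K x N u U) : ∃ ρ, 0 < ρ ∧ ρ ≤ 1 ∧
    ∀ l, ∀ z ∈ ball (0 : ℂ) ρ, u l z ∈ U := by
  have h1 : ∀ᶠ z in 𝓝 (0 : ℂ), ∀ l, u l z ∈ U := eventually_all.2 fun l =>
    (cont_br h l (mem_ball_self two_pos)).eventually (h.opn.mem_nhds (by rw [h.zero]; exact h.memU))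
  obtain ⟨r, hr, hb⟩ := Metric.eventually_nhds_iff_ball.1 h1
  exact ⟨min r 1, lt_min hr one_pos, min_le_right _ _,
    fun l z hz => hb z (ball_subset_ball (min_le_left _ _) hz) l⟩

theorem inj_br (h : BrsX J K x N u U) (l : Fin N) : InjOn (u l) (ball 0 2) := by
  intro z hz z' hz' e
  rcases h.inj l l z hz z' hz' e with h1 | h1
  · exact h1.2
  · rw [h1.1, h1.2]

/-- two branches with comparable germs are equal -/
theorem eq_of_le (h : BrsX J K x N u U) {l l' : Fin N}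
    (hle : map (u l) (𝓝 0) ≤ map (u l') (𝓝 0)) : l = l' := by
  have h1 : ∀ᶠ z in 𝓝 (0 : ℂ), u l z ∈ u l' '' ball 0 2 :=
    hle (image_mem_map (ball_mem_nhds _ two_pos))
  have h2 : ∀ᶠ z in 𝓝[≠] (0 : ℂ), u l z ∈ u l' '' ball 0 2 ∧ z ∈ ball (0 : ℂ) 2 :=
    mem_nhdsWithin_of_mem_nhds (h1.and (ball_mem_nhds _ two_pos))
  obtain ⟨z, ⟨⟨z', hz', e⟩, hz⟩, h0⟩ := (h2.and self_mem_nhdsWithin).exists
  rcases h.inj l l' z hz z' hz' e.symm with h3 | h3
  · exact h3.1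
  · exact absurd h3.1 h0

theorem le_of_fac {f g : ℂ → X} {φ : ℂ → ℂ} (h0 : φ 0 = 0)
    (h : ∀ᶠ z in 𝓝 (0 : ℂ), DifferentiableAt ℂ φ z ∧ f z = g (φ z)) :
    map f (𝓝 0) ≤ map g (𝓝 0) := by
  have h1 : Tendsto φ (𝓝 0) (𝓝 0) := by
    have := h.self_of_nhds.1.continuousAt
    rwa [ContinuousAt, h0] at this
  rw [map_congr (h.mono fun z hz => hz.2)]
  exact (map_map (m := φ) (m' := g)).symm.trans_le (map_mono h1)

/-- reparametrisation, with equality of germs -/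
theorem rep_germ (h1 : R1 J K) {N' : ℕ} {u' : Fin N' → ℂ → X} {U' : Set X} (h : BrsX J K x N u U)
    (h' : BrsX J K x N' u' U') (l : Fin N) : ∃ (l' : Fin N') (φ : ℂ → ℂ), φ 0 = 0 ∧
    (∀ᶠ z in 𝓝 (0 : ℂ), DifferentiableAt ℂ φ z ∧ u l z = u' l' (φ z)) ∧
    map (u l) (𝓝 0) = map (u' l') (𝓝 0) := by
  obtain ⟨l', φ, a, b⟩ := h1 x N N' u u' U U' h h' l
  obtain ⟨l'', ψ, c, d⟩ := h1 x N' N u' u U' U h' h l'
  have e := eq_of_le h ((le_of_fac a b).trans (le_of_fac c d))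
  subst e
  exact ⟨l', φ, a, b, le_antisymm (le_of_fac a b) (le_of_fac c d)⟩

/-- small discs on the branches form a neighbourhood in `K` -/
theorem nhds_discs [T2Space X] (h : BrsX J K x N u U) {ρ : ℝ} (hρ : 0 < ρ) :
    ∀ᶠ y in 𝓝 x, y ∈ K → ∃ l, ∃ z ∈ ball (0 : ℂ) ρ, u l z = y := by
  have hc : IsClosed (⋃ l, u l '' (closedBall 0 1 \ ball 0 ρ)) := by
    refine isClosed_iUnion_of_finite fun l => (IsCompact.image_of_continuousOn
      ((isCompact_closedBall _ _).diff isOpen_ball) ?_).isClosed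
    exact (h.smooth l).continuousOn.mono
      (diff_subset.trans (closedBall_subset_ball (by norm_num)))
  have hx : x ∉ ⋃ l, u l '' (closedBall 0 1 \ ball 0 ρ) := by
    simp only [mem_iUnion, not_exists]
    rintro l ⟨z, hz, e⟩
    have := inj_br h l (closedBall_subset_ball (by norm_num) hz.1) (mem_ball_self two_pos)
      (e.trans (h.zero l).symm)
    exact hz.2 (this ▸ mem_ball_self hρ)
  filter_upwards [hc.isOpen_compl.mem_nhds hx, h.opn.mem_nhds h.memU] with y hy hyU hK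
  obtain ⟨l, z, hz, e⟩ := h.cov y hyU hK
  refine ⟨l, z, ?_, e⟩
  by_contra hn
  exact hy (mem_iUnion.2 ⟨l, z, ⟨ball_subset_closedBall hz, hn⟩, e⟩)

end brs

/-- branches -/
structure Br (J : EndF X) (K : Set X) where
  x : X
  N : ℕ
  u : Fin N → ℂ → X
  U : Set X
  h : BrsX J K x N u U
  l : Fin N

namespace Br

variable (b : Br J K)

def f : ℂ → X := b.u b.l
def ρ : ℝ := (exists_rad b.h).choose
theorem ρ_pos : 0 < b.ρ := (exists_rad b.h).choose_spec.1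
theorem ρ_le : b.ρ ≤ 1 := (exists_rad b.h).choose_spec.2.1
theorem ρ_U {z : ℂ} (hz : z ∈ ball (0 : ℂ) b.ρ) : b.f z ∈ b.U :=
  (exists_rad b.h).choose_spec.2.2 b.l z hz
theorem f_zero : b.f 0 = b.x := b.h.zero b.l
theorem sub2 : ball (0 : ℂ) b.ρ ⊆ ball 0 2 := ball_subset_ball (b.ρ_le.trans one_le_two)

theorem rec_at (h2 : R2 J K) {z : ℂ} (hz : z ∈ ball (0 : ℂ) b.ρ) : ∃ (c : Br J K) (s : ℝ),
    0 < s ∧ c.x = b.f z ∧ (∀ w, c.f w = b.f (z + s * w)) ∧
    map c.f (𝓝 0) = map b.f (𝓝 z) ∧ (z ≠ 0 → c.N = 1) := by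
  have key : ∀ (c : Br J K) (s : ℝ), 0 < s → (∀ w, c.f w = b.f (z + s * w)) →
      map c.f (𝓝 0) = map b.f (𝓝 z) := by
    intro c s hs h
    have hs' : (s : ℂ) ≠ 0 := by exact_mod_cast hs.ne'
    have e : c.f = b.f ∘ ((Homeomorph.mulLeft₀ (s : ℂ) hs').trans (Homeomorph.addLeft z)) :=
      funext h
    rw [e, ← map_map, Homeomorph.map_nhds_eq]
    simp
  by_cases h0 : z = 0
  · subst h0
    exact ⟨b, 1, one_pos, b.f_zero.symm, by simp, rfl, fun h => absurd rfl h⟩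
  · obtain ⟨s, hs, U', h⟩ := h2 _ _ _ _ b.h b.l z (ball_subset_ball b.ρ_le hz) h0 (b.ρ_U hz)
    exact ⟨⟨_, _, _, _, h, 0⟩, s, hs, rfl, fun _ => rfl, key _ s hs fun _ => rfl, fun _ => rfl⟩

end Br

/-- germs of branches -/
def Germ (J : EndF X) (K : Set X) : Type :=
  {p : X × Filter X // ∃ b : Br J K, p = (b.x, map b.f (𝓝 0))}

open Classical in
/-- the plot of a branch -/
def sig (h2 : R2 J K) (b : Br J K) (z : ℂ) : Germ J K :=
  if hz : z ∈ ball (0 : ℂ) b.ρ then ⟨(b.f z, map b.f (𝓝 z)), by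
    obtain ⟨c, s, -, h1, -, h3, -⟩ := b.rec_at h2 hz
    exact ⟨c, by rw [h1, h3]⟩⟩
  else ⟨_, b, rfl⟩

theorem sig_val (h2 : R2 J K) (b : Br J K) {z : ℂ} (hz : z ∈ ball (0 : ℂ) b.ρ) :
    (sig h2 b z).1 = (b.f z, map b.f (𝓝 z)) := by
  have : sig h2 b z = _ := dif_pos hz
  rw [this]

theorem sig_zero (h2 : R2 J K) (b : Br J K) : (sig h2 b 0).1 = (b.x, map b.f (𝓝 0)) := by
  rw [sig_val h2 b (mem_ball_self b.ρ_pos), b.f_zero]

theorem fibre (h1 : R1 J K) (h2 : R2 J K) {x : X} {N : ℕ} {u : Fin N → ℂ → X} {U : Set X}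
    (h : BrsX J K x N u U) (m : Germ J K) (hm : m.1.1 = x) :
    ∃ l, m = sig h2 ⟨x, N, u, U, h, l⟩ 0 := by
  obtain ⟨_, c, rfl⟩ := m
  subst hm
  obtain ⟨l, -, -, -, e⟩ := rep_germ h1 c.h h c.l
  exact ⟨l, Subtype.ext (by rw [sig_zero]; exact Prod.ext rfl e)⟩

/-- away from the centre the fibres are points -/
theorem fibre_one (h1 : R1 J K) (h2 : R2 J K) (b : Br J K) {z : ℂ} (hz : z ∈ ball (0 : ℂ) b.ρ)
    (h0 : z ≠ 0) (m : Germ J K) (hm : m.1.1 = b.f z) : m = sig h2 b z := by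
  obtain ⟨c, s, -, a1, -, -, a4⟩ := b.rec_at h2 hz
  obtain ⟨l, e⟩ := fibre h1 h2 c.h m (hm.trans a1.symm)
  obtain ⟨l', e'⟩ := fibre h1 h2 c.h (sig h2 b z) (by rw [sig_val h2 b hz, a1])
  have : l = l' := by
    have := a4 h0
    ext; omega
  rw [e, e', this]

/-- the plots of the normalisation -/
def plots (h1 : R1 J K) (h2 : R2 J K) : Plots (Germ J K) where
  ι := Br J K
  σ := sig h2
  r := Br.ρ
  inj := fun b z hz z' hz' e => by
    have := congrArg (fun m : Germ J K => m.1.1) e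
    simp only [sig_val h2 b hz, sig_val h2 b hz'] at this
    exact inj_br b.h b.l (b.sub2 hz) (b.sub2 hz') this
  cov := by
    rintro ⟨_, b, rfl⟩
    exact ⟨b, 0, mem_ball_self b.ρ_pos, Subtype.ext (sig_zero h2 b)⟩
  tr := by
    intro b b' z hz z' hz' e
    have e1 := congrArg Subtype.val e
    rw [sig_val h2 b hz, sig_val h2 b' hz', Prod.mk.injEq] at e1
    obtain ⟨c, s, hs, a1, a2, a3, -⟩ := b.rec_at h2 hz
    obtain ⟨c', s', hs', b1, b2, b3, -⟩ := b'.rec_at h2 hz'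
    have hx : c'.x = c.x := by rw [a1, b1, e1.1]
    obtain ⟨l, φ, d0, d1, d2⟩ := rep_germ h1 c.h (hx ▸ c'.h) c.l
    have hl : l = c'.l := eq_of_le c'.h (by
      rw [← d2]; exact (a3.trans (e1.2.trans b3.symm)).le)
    subst hl
    have hs0 : (s : ℂ) ≠ 0 := by exact_mod_cast hs.ne'
    have ht : Tendsto (fun t => (t - z) / s) (𝓝 z) (𝓝 0) := by
      have : ContinuousAt (fun t : ℂ => (t - z) / s) z := by fun_prop
      simpa [ContinuousAt] using this
    have hd : ∀ᶠ t in 𝓝 z, DifferentiableAt ℂ (fun t => z' + s' * φ ((t - z) / s)) t ∧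
        b.f t = b'.f (z' + s' * φ ((t - z) / s)) := by
      filter_upwards [ht.eventually d1] with t a
      refine ⟨(differentiableAt_const _).add ((differentiableAt_const _).mul
        (DifferentiableAt.comp t (g := φ) a.1 (by fun_prop))), ?_⟩
      rw [← b2]
      refine Eq.trans ?_ a.2
      show _ = c.f _
      rw [a2]; congr 1; field_simp; ring
    have hz0 : z' + s' * φ ((z - z) / s) = z' := by simp [d0]
    refine ⟨fun t => z' + s' * φ ((t - z) / s), hz0, ?_⟩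
    have hin : ∀ᶠ t in 𝓝 z, z' + s' * φ ((t - z) / s) ∈ ball (0 : ℂ) b'.ρ :=
      hd.self_of_nhds.1.continuousAt.eventually (isOpen_ball.mem_nhds (by
        show z' + s' * φ ((z - z) / s) ∈ _
        rw [hz0]; exact hz'))
    have hne : ∀ᶠ t in 𝓝 z, t = 0 → t = z := by
      by_cases h0 : z = 0
      · exact Eventually.of_forall fun t ht => ht.trans h0.symm
      · filter_upwards [isOpen_ne.mem_nhds h0] with t ht h using absurd h ht
    filter_upwards [hd, hin, isOpen_ball.mem_nhds hz, hne] with t a1' a2' a3' a4'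
    refine ⟨a1'.1, ?_⟩
    by_cases ht0 : t = 0
    · rw [a4' ht0, hz0]; exact e
    · exact (fibre_one h1 h2 b a3' ht0 _ (by rw [sig_val h2 b' a2']; exact a1'.2.symm)).symm

theorem exists_nrm [T2Space X] (h1 : R1 J K) (h2 : R2 J K) (hK : IsCompact K) (hne : K.Nonempty)
    (hloc : ∀ x ∈ K, ∃ (N : ℕ) (u : Fin N → ℂ → X) (U : Set X), BrsX J K x N u U)
    (hirr : IsPreconnected {x | x ∈ K ∧ RegPt J K x}) : Nonempty (Nrm J K) := by
  obtain ⟨t, c, hm, he⟩ := (plots h1 h2).exists_mfd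
  choose e he1 he2 he3 using he
  set n : Germ J K → X := fun m => m.1.1 with hn
  have he2' : ∀ b : Br J K, ⇑(e b) = sig h2 b := he2
  have he3' : ∀ b : Br J K, (e b).source = ball 0 b.ρ := he3
  have hns : ∀ (b : Br J K), ∀ z ∈ ball (0 : ℂ) b.ρ, n (sig h2 b z) = b.f z := fun b z hz => by
    simp only [hn, sig_val h2 b hz]
  have hcov : ∀ m : Germ J K, ∃ b : Br J K, m = sig h2 b 0 := by
    rintro ⟨_, b, rfl⟩
    exact ⟨b, Subtype.ext (sig_zero h2 b).symm⟩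
  have himg : ∀ (b : Br J K) {ρ : ℝ}, 0 < ρ → sig h2 b '' ball 0 ρ ∈ 𝓝 (sig h2 b 0) := by
    intro b ρ hρ
    rw [← he2']
    exact (e b).image_mem_nhds (by rw [he3']; exact mem_ball_self b.ρ_pos) (ball_mem_nhds _ hρ)
  have hsc : ∀ (b : Br J K), ContinuousOn (sig h2 b) (ball 0 b.ρ) := fun b => by
    rw [← he2', ← he3']; exact (e b).continuousOn
  have hcont : Continuous n := by
    rw [continuous_iff_continuousAt]
    intro m
    obtain ⟨b, rfl⟩ := hcov m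
    have h0 : (0 : ℂ) ∈ (e b).source := by rw [he3']; exact mem_ball_self b.ρ_pos
    have h3 : ContinuousAt (n ∘ e b) 0 := by
      refine (cont_br b.h b.l (mem_ball_self two_pos)).congr ?_
      filter_upwards [ball_mem_nhds (0 : ℂ) b.ρ_pos] with z hz
      rw [he2']; exact (hns b z hz).symm
    have h4 := ((e b).continuousAt_iff_continuousAt_comp_right ((e b).map_source h0)).2
      (by rwa [(e b).left_inv h0])
    rwa [he2'] at h4
  have hmemK : ∀ m, n m ∈ K := by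
    intro m
    obtain ⟨b, rfl⟩ := hcov m
    rw [hns b 0 (mem_ball_self b.ρ_pos)]
    exact b.h.mem b.l 0 (mem_ball_self two_pos)
  have hrng : range n = K := by
    refine Subset.antisymm (by rintro _ ⟨m, rfl⟩; exact hmemK m) fun x hx => ?_
    obtain ⟨N, u, U, h⟩ := hloc x hx
    exact ⟨sig h2 ⟨x, N, u, U, h, ⟨0, h.posN⟩⟩ 0, congrArg Prod.fst (sig_zero h2 _)⟩
  have hrad : ∀ {x : X} {N : ℕ} {u : Fin N → ℂ → X} {U : Set X} (h : BrsX J K x N u U) (l l'),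
      Br.ρ ⟨x, N, u, U, h, l⟩ = Br.ρ ⟨x, N, u, U, h, l'⟩ := fun _ _ _ => rfl
  have hinj : ∀ {x : X} {N : ℕ} {u : Fin N → ℂ → X} {U : Set X} (h : BrsX J K x N u U) (l l'),
      sig h2 ⟨x, N, u, U, h, l⟩ 0 = sig h2 ⟨x, N, u, U, h, l'⟩ 0 → l = l' := by
    intro x N u U h l l' hh
    have := congrArg (fun m : Germ J K => m.1.2) hh
    simp only [sig_zero] at this
    exact eq_of_le h this.le
  have hopn : ∀ b : Br J K, IsOpen (sig h2 b '' ball 0 b.ρ) := fun b => by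
    rw [← he2', ← he3', (e b).image_source_eq_target]; exact (e b).open_target
  have ht2 : T2Space (Germ J K) := by
    refine ⟨fun m m' hne => ?_⟩
    by_cases hx : n m = n m'
    · obtain ⟨N, u, U, h⟩ := hloc _ (hmemK m)
      obtain ⟨l, hl⟩ := fibre h1 h2 h m rfl
      obtain ⟨l', hl'⟩ := fibre h1 h2 h m' hx.symm
      refine ⟨_, _, hopn ⟨_, N, u, U, h, l⟩, hopn ⟨_, N, u, U, h, l'⟩,
        ⟨0, mem_ball_self (Br.ρ_pos _), hl.symm⟩, ⟨0, mem_ball_self (Br.ρ_pos _), hl'.symm⟩, ?_⟩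
      rw [Set.disjoint_left]
      rintro _ ⟨z, hz, rfl⟩ ⟨z', hz', e⟩
      have e1 := congrArg n e
      rw [hns _ z hz, hns _ z' hz'] at e1
      rcases h.inj l' l z' (Br.sub2 _ hz') z (Br.sub2 _ hz) e1 with h3 | h3
      · exact hne (hl.trans (h3.1 ▸ hl'.symm))
      · rw [h3.1, h3.2] at e
        exact hne (hl.trans (e.symm.trans hl'.symm))
    · exact separated_by_continuous hcont hx
  have hpre : ∀ {x : X} {N : ℕ} {u : Fin N → ℂ → X} {U : Set X} (h : BrsX J K x N u U) {δ : ℝ},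
      0 < δ → δ ≤ Br.ρ ⟨x, N, u, U, h, ⟨0, h.posN⟩⟩ → ∀ᶠ y in 𝓝 x, ∀ m, n m = y →
        ∃ l, ∃ z ∈ ball (0 : ℂ) δ, m = sig h2 ⟨x, N, u, U, h, l⟩ z := by
    intro x N u U h δ hδ hδ'
    filter_upwards [nhds_discs h hδ] with y hy m hm
    obtain ⟨l, z, hz, e⟩ := hy (hm ▸ hmemK m)
    by_cases h0 : z = 0
    · subst h0
      obtain ⟨l', hl'⟩ := fibre h1 h2 h m (hm.trans (e.symm.trans (h.zero l)))
      exact ⟨l', 0, hz, hl'⟩
    · exact ⟨l, z, hz, fibre_one h1 h2 ⟨x, N, u, U, h, l⟩ (ball_subset_ball hδ' hz) h0 m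
        (hm.trans e.symm)⟩
  have hcpt : CompactSpace (Germ J K) := by
    have key : ∃ C : Set (Germ J K), IsCompact C ∧ n ⁻¹' K ⊆ C := by
      refine hK.induction_on (p := fun S => ∃ C : Set (Germ J K), IsCompact C ∧ n ⁻¹' S ⊆ C)
        ⟨∅, isCompact_empty, by simp⟩ ?_ ?_ ?_
      · rintro S S' hS ⟨C, a, b⟩
        exact ⟨C, a, (preimage_mono hS).trans b⟩
      · rintro S S' ⟨C, a, b⟩ ⟨C', a', b'⟩
        exact ⟨C ∪ C', a.union a', by rw [preimage_union]; exact union_subset_union b b'⟩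
      · intro x hx
        obtain ⟨N, u, U, h⟩ := hloc x hx
        set ρ := Br.ρ ⟨x, N, u, U, h, ⟨0, h.posN⟩⟩ with hρ
        have hρ0 : 0 < ρ := Br.ρ_pos _
        refine ⟨_, mem_nhdsWithin_of_mem_nhds (hpre h (half_pos hρ0) (by linarith)),
          ⋃ l, sig h2 ⟨x, N, u, U, h, l⟩ '' closedBall 0 (ρ / 2), isCompact_iUnion fun l =>
            (isCompact_closedBall _ _).image_of_continuousOn ((hsc _).mono
              (closedBall_subset_ball (half_lt_self hρ0))), fun m hm => ?_⟩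
        obtain ⟨l, z, hz, e⟩ := hm m rfl
        exact mem_iUnion.2 ⟨l, z, ball_subset_closedBall hz, e.symm⟩
    obtain ⟨C, a, b⟩ := key
    exact ⟨by rwa [eq_univ_of_forall fun m => b (hmemK m)] at a⟩
  have hreg : ∀ O : Set (Germ J K), IsOpen O → O.Nonempty →
      ({x | x ∈ K ∧ RegPt J K x} ∩ n '' O).Nonempty := by
    rintro O hO ⟨m, hm⟩
    obtain ⟨b, rfl⟩ := hcov m
    have a1 : ∀ᶠ z in 𝓝 (0 : ℂ), sig h2 b z ∈ O :=
      ((hsc b).continuousAt (ball_mem_nhds _ b.ρ_pos)).eventually (hO.mem_nhds hm)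
    have a2 : ∀ᶠ z in 𝓝[≠] (0 : ℂ), sig h2 b z ∈ O ∧ z ∈ ball (0 : ℂ) b.ρ :=
      mem_nhdsWithin_of_mem_nhds (a1.and (ball_mem_nhds _ b.ρ_pos))
    obtain ⟨z, ⟨a3, a4⟩, a5⟩ := (a2.and self_mem_nhdsWithin).exists
    exact ⟨b.f z, ⟨b.h.mem b.l z (b.sub2 a4), b.h.regPt (b.sub2 a4) a5 (b.ρ_U a4)⟩, _, a3,
      hns b z a4⟩
  have hconn : ConnectedSpace (Germ J K) := by
    have hne' : Nonempty (Germ J K) := by
      obtain ⟨x, hx⟩ := hne
      obtain ⟨m, -⟩ : x ∈ range n := by rw [hrng]; exact hx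
      exact ⟨m⟩
    rw [connectedSpace_iff_clopen]
    refine ⟨hne', fun O hO => ?_⟩
    by_contra hcon
    push Not at hcon
    obtain ⟨x, ⟨hxK, u, U, h, -⟩, ⟨m, hm, e⟩, m', hm', e'⟩ := isPreconnected_closed_iff.1 hirr
      (n '' O) (n '' Oᶜ) (hO.isClosed.isCompact.image hcont).isClosed
      (hO.isOpen.isClosed_compl.isCompact.image hcont).isClosed
      (fun x hx => by
        obtain ⟨m, rfl⟩ : x ∈ range n := by rw [hrng]; exact hx.1
        by_cases hm : m ∈ O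
        exacts [Or.inl ⟨m, hm, rfl⟩, Or.inr ⟨m, hm, rfl⟩])
      (hreg O hO.isOpen hcon.1) (hreg Oᶜ hO.isClosed.isOpen_compl (nonempty_compl.2 hcon.2))
    obtain ⟨l, hl⟩ := fibre h1 h2 h m e
    obtain ⟨l', hl'⟩ := fibre h1 h2 h m' e'
    rw [Subsingleton.elim l' l, ← hl] at hl'
    exact hm' (hl' ▸ hm)
  refine ⟨⟨Germ J K, { t, c with mfd := hm, cpt := hcpt, t2 := ht2, conn := hconn }, n, hcont, hrng,
    fun x N u U h => ⟨fun l => sig h2 ⟨x, N, u, U, h, l⟩, Br.ρ ⟨x, N, u, U, h, ⟨0, h.posN⟩⟩,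
      Br.ρ_pos _, fun l z hz => ?_, fun m hm => fibre h1 h2 h m hm, hinj h⟩⟩⟩
  have hz' : z ∈ (e ⟨x, N, u, U, h, l⟩).source := by rw [he3']; exact hz
  refine ⟨hns ⟨x, N, u, U, h, l⟩ z hz, ?_, ?_⟩
  · have := (he1 _).mdifferentiableAt hz'
    rwa [he2'] at this
  · have := right_ne_zero_of_mul_eq_one (d1_symm (he1 _) hz')
    rwa [he2'] at this

end Vale.Agent.P247C.NR

namespace Vale.Agent.P247C

open Vale.Agent.P247X Vale.Agent.P247.SCY

/-- **NRM** -/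
theorem nrm : NRM := by
  intro X _ μ hμ w hw K
  refine NR.exists_nrm (fun x N N' u u' U U' h h' l => ?_) (fun x N u U h l z hz h0 hU => ?_)
    K.cpt K.ne (fun x hx => ?_) K.irr
  · obtain ⟨l', r, hr, -, φ, a, -, b, -, c⟩ := repar_one (jw_sq hw) h h' l
    refine ⟨l', φ, b, ?_⟩
    filter_upwards [ball_mem_nhds (0 : ℂ) hr] with z hz
    exact ⟨a.differentiableAt (isOpen_ball.mem_nhds hz), c z hz⟩
  · obtain ⟨s, V, hs, -, a, -⟩ := h.recenter' (b12 hz) h0 hU univ_mem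
    exact ⟨s, hs, V, a⟩
  · obtain ⟨N, u, U, h, -⟩ := K.loc x hx
    exact ⟨N, u, U, h⟩

end Vale.Agent.P247C
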