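import Vale.Agent.P247C.Vf
import Vale.Agent.P247C.Nrm
import Vale.Agent.P247C.RTTor

/-!
# P247, block C: the adjunction statement from the adjunction formula
-/

set_option linter.all false

open scoped Manifold ContDiff Topology
open Set MeasureTheory Filter Metric

noncomputable section

namespace Vale.Agent.P247C

open Vale.Agent.P247X Vale.Agent.P247.SCY Vale.Agent.P247.SCY.HS

theorem VFd.regPt {X : Type} [TopologicalSpace X] [ChartedSpace HS.E4 X] {J : EndF X} (K : Irr J)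
    {P : Finset X} {E : ∀ x : X, TangentSpace (𝓡 4) x} {o : X → ℤ} (h : VFd J K.K P E o) {x : X}
    (hx : x ∈ K.K) (hP : x ∉ P) : RegPt J K.K x := by
  obtain ⟨N, u, U, hb, -⟩ := K.loc x hx
  obtain ⟨rfl, h1⟩ := (h.reg x hx hP).2 N u U hb
  exact ⟨u, U, hb, (h1 0).1⟩

theorem adj_of (hA : ADJC) (hD : DICH) : ADJ_statement := by
  intro X _ μ hμ w hw K α hα
  obtain ⟨ν⟩ := nrm X μ hμ w hw K
  have hE := ends X μ hμ w hw K ν
  have hreg : ∀ {P : Finset X} {E : ∀ x : X, TangentSpace (𝓡 4) x} {o : X → ℤ},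
      VFd (Jw w) K.K P E o → (∀ p ∈ P, RegPt (Jw w) K.K p) → ∀ x ∈ K.K, RegPt (Jw w) K.K x :=
    fun {P _ _} h h1 x hx => by
      by_cases e : x ∈ P
      exacts [h1 x e, h.regPt K hx e]
  rcases hD ν.M with ⟨θ, hθ, h0⟩ | ⟨u, v, huv⟩
  · obtain ⟨P, E, o, hP, hV, ho, hz⟩ := vfa X μ hμ w hw K ν θ hθ h0
    obtain ⟨Δ, h1, h2⟩ := hA X μ hμ w hw K α hα P E o hP hV
    have h3 : ∀ p ∈ P, (0 : ℝ) ≤ (o p : ℝ) + Δ p := fun p _ =>
      add_nonneg (by exact_mod_cast ho p) (Nat.cast_nonneg _)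
    have h4 : 0 ≤ K.T α := h1 ▸ Finset.sum_nonneg h3
    refine ⟨by linarith, fun e => by linarith, fun e => Or.inl ?_⟩
    have h5 : ∀ p ∈ P, o p = 0 ∧ Δ p = 0 := fun p hp => by
      have e1 := (Finset.sum_eq_zero_iff_of_nonneg h3).1 (h1.symm.trans e) p hp
      have e2 : o p + Δ p = 0 := by exact_mod_cast e1
      have := ho p
      omega
    obtain ⟨t, τ, ht⟩ := torus ν.M θ hθ (hz fun p hp => (h5 p hp).1)
    exact (hE.1 (hreg hV fun p hp => (h2 p hp).choose_spec.choose_spec.choose_spec.2.2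
      (h5 p hp).2)).2 t τ ht
  · obtain ⟨P, E, o, hP, hV, ho⟩ := vfb X μ hμ w hw K ν u v huv
    obtain ⟨Δ, h1, h2⟩ := hA X μ hμ w hw K α hα P E o hP hV
    have h3 : K.T α = -2 + ((∑ p ∈ P, Δ p : ℕ) : ℝ) := by
      rw [h1, Finset.sum_add_distrib, ← Int.cast_sum, ho, Nat.cast_sum]
      norm_num
    refine ⟨by rw [h3]; exact le_add_of_nonneg_right (Nat.cast_nonneg _), fun e => ?_,
      fun e => Or.inr ?_⟩
    · have h4 : ∑ p ∈ P, Δ p = 0 := by exact_mod_cast (by linarith : ((∑ p ∈ P, Δ p : ℕ) : ℝ) = 0)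
      exact (hE.1 (hreg hV fun p hp => (h2 p hp).choose_spec.choose_spec.choose_spec.2.2
        (Finset.sum_eq_zero_iff.1 h4 p hp))).1 u v huv
    classical
    have h4 : ∑ p ∈ P, Δ p = 2 := by exact_mod_cast (by linarith : ((∑ p ∈ P, Δ p : ℕ) : ℝ) = 2)
    have h5 : ∀ p ∈ P, Δ p ≤ 2 := fun p hp => h4 ▸ Finset.single_le_sum (fun _ _ => Nat.zero_le _) hp
    obtain ⟨x₀, h6⟩ : ∃ x₀ : X, ∀ p ∈ P, p ≠ x₀ → Δ p ≤ 1 := by
      by_cases e1 : ∃ q ∈ P, 2 ≤ Δ q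
      · obtain ⟨q, hq, e2⟩ := e1
        refine ⟨q, fun p hp hpq => ?_⟩
        have := Finset.add_le_sum (f := Δ) (fun _ _ => Nat.zero_le _) hp hq hpq
        omega
      · push Not at e1
        exact ⟨K.ne.choose, fun p hp _ => Nat.lt_succ_iff.1 (e1 p hp)⟩
    refine hE.2 u v huv x₀ fun x hx => ?_
    by_cases e1 : x ∈ P
    · obtain ⟨N, b, U, hb, e2, -⟩ := h2 x e1
      have := hb.posN
      obtain ⟨n, rfl⟩ : ∃ n, N = n + 1 := ⟨N - 1, by omega⟩
      rw [Nat.add_sub_cancel] at e2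
      refine ⟨_, b, U, hb, ?_, fun e3 => ?_⟩
      · have := h5 x e1
        nlinarith
      · have := h6 x e1 e3
        nlinarith
    · obtain ⟨b, U, hb, -⟩ := hV.regPt K hx e1
      exact ⟨1, b, U, hb, one_le_two, fun _ => rfl⟩

end Vale.Agent.P247C
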