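import Vale.Agent.P247C.T6

/-!
# P247, block C: algebra of `OmX`, cones and winding numbers
-/

set_option linter.all false

open scoped Topology Manifold ContDiff
open Set Filter Metric

noncomputable section

namespace Vale.Agent.P247C.AS

open Vale.Agent.P247X Vale.Agent.P247.SCY Vale.Agent.P247.SCY.HS
open Vale.Agent.P247.H74 (HasWinding)

section wind

variable {f g : ℂ → ℂ} {ρ : ℝ} {m n : ℤ}

theorem w_congr (h : HasWinding f 0 ρ m) (e : ∀ z ∈ sphere (0 : ℂ) ρ, g z = f z) :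
    HasWinding g 0 ρ m := by
  obtain ⟨G, a, b⟩ := h
  exact ⟨G, a, fun z hz => (e z hz).trans (b z hz)⟩

theorem w_mul (hρ : 0 < ρ) (h : HasWinding f 0 ρ m) (h' : HasWinding g 0 ρ n) :
    HasWinding (fun z => f z * g z) 0 ρ (m + n) := by
  obtain ⟨G, a, b⟩ := h
  obtain ⟨G', a', b'⟩ := h'
  refine ⟨fun z => G z + G' z, a.add a', fun z hz => ?_⟩
  have hz0 : z - 0 ≠ 0 := by rw [sub_zero]; exact ne_of_mem_sphere hz hρ.ne'
  simp only []
  rw [b z hz, b' z hz, zpow_add₀ hz0, Complex.exp_add]; ring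

theorem w_inv (h : HasWinding f 0 ρ m) : HasWinding (fun z => (f z)⁻¹) 0 ρ (-m) := by
  obtain ⟨G, a, b⟩ := h
  refine ⟨fun z => - G z, a.neg, fun z hz => ?_⟩
  simp only []
  rw [b z hz, zpow_neg, Complex.exp_neg, mul_inv]

theorem w_cont (hρ : 0 < ρ) (h : HasWinding f 0 ρ m) :
    ContinuousOn f (sphere 0 ρ) ∧ ∀ z ∈ sphere (0 : ℂ) ρ, f z ≠ 0 := by
  obtain ⟨G, a, b⟩ := h
  have hz0 : ∀ z ∈ sphere (0 : ℂ) ρ, z - 0 ≠ 0 := fun z hz => by
    rw [sub_zero]; exact ne_of_mem_sphere hz hρ.ne'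
  refine ⟨ContinuousOn.congr (ContinuousOn.mul (ContinuousOn.zpow₀ (by fun_prop) m
    fun z hz => Or.inl (hz0 z hz)) a.cexp) b, fun z hz => ?_⟩
  rw [b z hz]
  exact mul_ne_zero (zpow_ne_zero _ (hz0 z hz)) (Complex.exp_ne_zero _)

theorem w_re (hc : ContinuousOn g (sphere 0 ρ)) (hp : ∀ z ∈ sphere (0 : ℂ) ρ, 0 < (g z).re) :
    HasWinding g 0 ρ 0 :=
  ⟨fun z => Complex.log (g z), hc.clog fun z hz => Or.inl (hp z hz), fun z hz => by
    rw [zpow_zero, one_mul, Complex.exp_log]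
    intro h
    have := hp z hz
    rw [h] at this
    simp at this⟩

theorem w_half (hρ : 0 < ρ) (h : HasWinding f 0 ρ m) (hc : ContinuousOn g (sphere 0 ρ))
    (hp : ∀ z ∈ sphere (0 : ℂ) ρ, 0 < (g z / f z).re) : HasWinding g 0 ρ m := by
  obtain ⟨a, b⟩ := w_cont hρ h
  have := w_mul hρ h (w_re (hc.div a b) hp)
  rw [add_zero] at this
  exact w_congr this fun z hz => (mul_div_cancel₀ _ (b z hz)).symm

theorem w_norm (hρ : 0 < ρ) (h : HasWinding f 0 ρ m) :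
    HasWinding (fun z => f z / (‖f z‖ : ℂ)) 0 ρ m := by
  obtain ⟨a, b⟩ := w_cont hρ h
  have hn : ∀ z ∈ sphere (0 : ℂ) ρ, (‖f z‖ : ℂ) ≠ 0 := fun z hz => by
    exact_mod_cast (norm_ne_zero_iff.2 (b z hz))
  refine w_half hρ h (a.div (Complex.continuous_ofReal.comp_continuousOn a.norm) hn)
    fun z hz => ?_
  rw [div_div_cancel_left' (b z hz), ← Complex.ofReal_inv, Complex.ofReal_re]
  exact inv_pos.2 (norm_pos_iff.2 (b z hz))

end wind

theorem freeze {c c₀ d Ω : ℂ} (h : ‖c * d - Ω‖ ≤ 1 / 4 * ‖Ω‖) (hc : ‖c₀ - c‖ ≤ ‖c‖ / 5) :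
    ‖c₀ * d - Ω‖ ≤ 1 / 2 * ‖Ω‖ := by
  have h1 : ‖c‖ * ‖d‖ ≤ 5 / 4 * ‖Ω‖ := by
    rw [← norm_mul]
    have := norm_add_le (c * d - Ω) Ω
    rw [sub_add_cancel] at this
    linarith
  have h2 : ‖(c₀ - c) * d‖ ≤ 1 / 4 * ‖Ω‖ := by
    rw [norm_mul]
    have := mul_le_mul_of_nonneg_right hc (norm_nonneg d)
    linarith
  have h3 := norm_add_le ((c₀ - c) * d) (c * d - Ω)
  rw [show (c₀ - c) * d + (c * d - Ω) = c₀ * d - Ω by ring] at h3
  linarith

theorem half_plane {a b d Ω : ℂ} (hΩ : Ω ≠ 0) (h1 : ‖a * d - Ω‖ ≤ 1 / 2 * ‖Ω‖)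
    (h2 : ‖b * d - Ω‖ ≤ 1 / 4 * ‖Ω‖) : 0 < (a / b).re := by
  have hΩ' := norm_pos_iff.2 hΩ
  have h3 : 3 / 4 * ‖Ω‖ ≤ ‖b * d‖ := by
    have := norm_sub_le (b * d) (b * d - Ω)
    rw [sub_sub_cancel] at this
    linarith
  have h4 : 1 / 2 * ‖Ω‖ ≤ ‖a * d‖ := by
    have := norm_sub_le (a * d) (a * d - Ω)
    rw [sub_sub_cancel] at this
    linarith
  have hb : b * d ≠ 0 := norm_pos_iff.1 (by linarith)
  have ha : a * d ≠ 0 := norm_pos_iff.1 (by linarith)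
  have h5 : ‖a * d - b * d‖ ≤ ‖b * d‖ := by
    have := norm_sub_le (a * d - Ω) (b * d - Ω)
    rw [sub_sub_sub_cancel_right] at this
    linarith
  have e : a / b = (a * d) / (b * d) := (mul_div_mul_right _ _ (right_ne_zero_of_mul hb)).symm
  have h6 : ‖a / b - 1‖ ≤ 1 := by
    rw [e, div_sub_one hb, norm_div, div_le_one (norm_pos_iff.2 hb)]; exact h5
  have h7 : a / b ≠ 0 := by rw [e]; exact div_ne_zero ha hb
  generalize a / b = t at h6 h7
  have h8 : Complex.normSq (t - 1) ≤ 1 := by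
    rw [Complex.normSq_eq_norm_sq]
    nlinarith [norm_nonneg (t - 1)]
  have h9 := Complex.normSq_pos.2 h7
  simp only [Complex.normSq_apply, Complex.sub_re, Complex.one_re, Complex.sub_im, Complex.one_im]
    at h8 h9
  nlinarith

variable {X : Type} [Cl4 X] {μ : Form X 4} {w : Tri X}

theorem om_ne (hw : Hypersymplectic μ w) (x : X) {a : TangentSpace (𝓡 4) x} (ha : a ≠ 0) :
    ∃ v, OmX w x a v ≠ 0 := by
  refine ⟨Jf (w 0) (w 1) (w 2) x a, fun h => ?_⟩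
  have h1 : 0 < w 0 x ![a, Jf (w 0) (w 1) (w 2) x a] :=
    Jf_tames' (defAt_of_triPos (tri_of_posDef hw.posDef)) x a ha
  have h2 := congrArg Complex.re h
  simp [OmX] at h2
  exact h1.ne' h2

theorem om_dm (hw : Hypersymplectic μ w) {u : ℂ → X} {z : ℂ} (h : JAt (Jw w) u z) (e : ℂ)
    (v : TangentSpace (𝓡 4) (u z)) : OmX w (u z) (dm u z e) v = e * OmX w (u z) (dm u z 1) v := by
  have anti : ∀ a b : TangentSpace (𝓡 4) (u z),
      w 0 (u z) ![Jw w (u z) a, Jw w (u z) b] = - w 0 (u z) ![a, b] :=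
    fun a b => Jf_anti_B (defAt hw) (u z) a b
  have lin : ∀ (a b c : TangentSpace (𝓡 4) (u z)) (s t : ℝ),
      w 0 (u z) ![s • a + t • b, c] = s * w 0 (u z) ![a, c] + t * w 0 (u z) ![b, c] := by
    intro a b c s t
    have h1 := (w 0 (u z)).map_update_add ![a, c] 0 (s • a) (t • b)
    have h2 := (w 0 (u z)).map_update_smul ![a, c] 0 s a
    have h3 := (w 0 (u z)).map_update_smul ![a, c] 0 t b
    have e : ∀ y, Function.update ![a, c] (0 : Fin 2) y = ![y, c] := fun y => by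
      funext i; fin_cases i <;> rfl
    simp only [e] at h1 h2 h3
    rw [h1, h2, h3]; rfl
  have neg : ∀ a c : TangentSpace (𝓡 4) (u z), w 0 (u z) ![a, -c] = - w 0 (u z) ![a, c] := by
    intro a c
    have h2 := (w 0 (u z)).map_update_smul ![a, c] 1 (-1 : ℝ) c
    have e : ∀ y, Function.update ![a, c] (1 : Fin 2) y = ![a, y] := fun y => by
      funext i; fin_cases i <;> rfl
    simp only [e, neg_one_smul] at h2
    exact h2
  have h1 : w 0 (u z) ![Jw w (u z) (dm u z 1), v] = w 0 (u z) ![dm u z 1, Jw w (u z) v] := by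
    have := anti (dm u z 1) (Jw w (u z) v)
    rw [jw_sq hw, neg] at this
    linarith
  unfold OmX
  rw [dm_expand u z e, h, lin, lin, h1, anti]
  apply Complex.ext
  · simp
  · simp; ring

theorem cn_mul (hw : Hypersymplectic μ w) {u : ℂ → X} {z : ℂ} (h : JAt (Jw w) u z) {q : ℝ}
    {s : X → ℂ} {c : ℂ} (hc : Cn q w s c (u z) (dm u z 1)) (e : ℂ) :
    Cn q w s (e * c) (u z) (dm u z e) := fun v => by
  rw [om_dm hw h, mul_assoc, ← mul_sub, norm_mul, norm_mul, mul_left_comm]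
  exact mul_le_mul_of_nonneg_left (hc v) (norm_nonneg _)

theorem cn_half (hw : Hypersymplectic μ w) {x : X} {a : TangentSpace (𝓡 4) x} (ha : a ≠ 0)
    {s : X → ℂ} {c c' : ℂ} (h : Cn (1 / 2) w s c x a) (h' : Cn (1 / 4) w s c' x a) :
    0 < (c / c').re := by
  obtain ⟨v, hv⟩ := om_ne hw x ha
  exact half_plane hv (h v) (h' v)

end Vale.Agent.P247C.AS
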