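import Vale.Agent.P247C.Asm0

/-!
# P247, block C: the line bundle of a curve and its degree
-/

set_option linter.all false

open scoped Topology Manifold ContDiff
open Set Filter Metric

noncomputable section

namespace Vale.Agent.P247C.AS

open Vale.Agent.P247X Vale.Agent.P247.SCY Vale.Agent.P247.SCY.HS
open Vale.Agent.P247.H74 (HasWinding)

variable {X : Type} [Cl4 X] {μ : Form X 4} {w : Tri X}

theorem ev_cball {p : ℂ → Prop} (h : ∀ᶠ z in 𝓝 (0 : ℂ), p z) :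
    ∀ᶠ ρ in 𝓝[>] (0 : ℝ), ∀ z ∈ closedBall (0 : ℂ) ρ, p z := by
  obtain ⟨r, hr, hb⟩ := Metric.eventually_nhds_iff_ball.1 h
  filter_upwards [Ioo_mem_nhdsGT hr] with ρ hρ z hz using hb z (closedBall_subset_ball hρ.2 hz)

/-- `DEG` for a section given by a trivialisation -/
theorem deg' (hDEG : DEG) (hμ : Volume μ) (hw : Hypersymplectic μ w) (K : Irr (Jw w)) (L : LB X)
    (i : Fin L.n) (P : Finset X) (N : X → ℕ) (u : ∀ p, Fin (N p) → ℂ → X) (U : X → Set X) {ρ : ℝ}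
    (hρ : 0 < ρ) (hρ1 : ρ < 1) (c : P → Fin L.n) (m : ∀ p : P, Fin (N p) → ℤ)
    (h1 : ∀ p : P, BrsX (Jw w) K.K p (N p) (u p) (U p) ∧
      ∀ l, (∀ z ∈ closedBall (0 : ℂ) ρ, u p l z ∈ U p ∩ L.U (c p)) ∧
        HasWinding (fun z => L.g (c p) i (u p l z)) 0 ρ (m p l))
    (h2 : ∀ p q : P, p ≠ q → ∀ l l', ∀ z ∈ closedBall (0 : ℂ) ρ,
      ∀ z' ∈ closedBall (0 : ℂ) ρ, u p l z ≠ u q l' z')
    (h3 : ∀ x ∈ K.K, (∀ p : P, ∀ l, ∀ z ∈ ball (0 : ℂ) ρ, x ≠ u p l z) → x ∈ L.U i) :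
    K.T L.F = ∑ p : P, ∑ l, (m p l : ℝ) := by
  classical
  have := hDEG X μ hμ w hw K L (L.U i) (fun j => L.g j i) (L.opn i)
    (fun j => by rw [inter_comm]; exact L.g_smooth j i)
    (fun j x hx h => by
      have := L.g_norm j i x ⟨hx.2, hx.1⟩
      rw [h] at this
      simp at this)
    (fun j k x hx => (L.g_co j k i x ⟨⟨hx.1.2, hx.2⟩, hx.1.1⟩).symm) P N u U (fun _ => ρ)
    (fun p => if h : p ∈ P then c ⟨p, h⟩ else i)
    (fun p l => if h : p ∈ P then m ⟨p, h⟩ l else 0)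
    (fun p hp => by
      simp only [dif_pos hp]
      exact ⟨(h1 ⟨p, hp⟩).1, (irr_cyc K).comp (jw_sq hw) (h1 ⟨p, hp⟩).1, hρ, hρ1, (h1 ⟨p, hp⟩).2⟩)
    (fun p hp q hq hne => h2 ⟨p, hp⟩ ⟨q, hq⟩ fun e => hne (congrArg Subtype.val e))
    (fun x hx h => h3 x hx fun p => h p.1 p.2)
  rw [this, ← Finset.sum_coe_sort P]
  refine Finset.sum_congr rfl fun p _ => Finset.sum_congr rfl fun l _ => ?_
  rw [dif_pos p.2]

theorem core (hLOC : LOC) (hTHOM : THOM) (hDEG : DEG) (hμ : Volume μ) (hw : Hypersymplectic μ w)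
    (K : Irr (Jw w)) (P : Finset X) (E : ∀ x : X, TangentSpace (𝓡 4) x) (o : X → ℤ)
    (hP : ↑P ⊆ K.K) (hV : VFd (Jw w) K.K P E o) (N' : X → ℕ) (v : ∀ p, Fin (N' p) → ℂ → X)
    (hv : ∀ p ∈ P, ∀ j, JBr (Jw w) p (v p j))
    (hv' : ∀ p ∈ P, ∀ j, ∀ᶠ z in 𝓝[≠] (0 : ℂ), v p j z ∉ K.K) (W : X → Set X)
    (hW : ∀ p ∈ P, W p ∈ 𝓝 p) :
    ∃ (L : LB X) (N : X → ℕ) (u : ∀ p, Fin (N p) → ℂ → X) (U : X → Set X) (Δ : P → ℕ)
      (m : ∀ p : P, Fin (N' p) → ℕ) (i₀ : Fin L.n) (c : P → Fin L.n) (Dl : P → Set X),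
      IsCls μ K.T L.F ∧ K.T L.F = ∑ p : P, ((o p : ℝ) + Δ p) ∧ L.U i₀ = (K.K ∪ ⋃ p, Dl p)ᶜ ∧
      (∀ p q : P, p ≠ q → Disjoint (L.U (c p)) (L.U (c q))) ∧
      ∀ p : P, BrsX (Jw w) K.K p (N p) (u p) (U p) ∧ N p * (N p - 1) ≤ Δ p ∧
        (Δ p = 0 → N p = 1 ∧ ∀ l, dm (u p l) 0 1 ≠ 0) ∧ Dl p ⊆ W p ∧ p.1 ∈ L.U (c p) ∧
        (∀ j, ∀ z ∈ ball (0 : ℂ) 1, z ≠ 0 → v p j z ∉ Dl p) ∧
        (∀ᶠ ρ in 𝓝[>] (0 : ℝ), ∀ j, HasWinding (fun z => L.g (c p) i₀ (v p j z)) 0 ρ (m p j)) ∧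
        ∀ j, 1 ≤ m p j ∧ (m p j = 1 ↔ N p = 1 ∧ ∀ (l : Fin (N p)) (a a' : HS.E4),
          a = dm (u p l) 0 1 → a' = dm (v p j) 0 1 → OmX w p a a' ≠ 0) := by
  obtain ⟨V, hV1, hV2, hT⟩ := hTHOM X μ hμ w hw K P E o hV
  have hloc : ∀ x ∈ K.K, ∃ (N : ℕ) (u : Fin N → ℂ → X) (U : Set X), BrsX (Jw w) K.K x N u U :=
    fun x hx => by
      obtain ⟨N, u, U, h, -⟩ := K.loc x hx
      exact ⟨N, u, U, h⟩
  choose! N u U hb₀ using hloc
  have hb : ∀ p : P, BrsX (Jw w) K.K p (N p) (u p) (U p) := fun p => hb₀ p (hP p.2)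
  choose e n he1 he2 using fun p : P => hV.wind p (hP p.2) _ _ _ (hb p)
  have hδ : ∀ p : P, ∃ δ > 0, ∀ z ∈ ball (0 : ℂ) δ, ∀ l, z ≠ 0 → ContinuousAt (e p l) z ∧
      e p l z ≠ 0 ∧ E (u p l z) = dm (u p l) z (e p l z) := fun p =>
    Metric.eventually_nhds_iff_ball.1 (eventually_all.2 fun l =>
      eventually_nhdsWithin_iff.1 (he2 p l).1)
  choose δ hδ0 hδ using hδ
  choose Λ c D m g1 g2 g3 g4 g5 g6 g7 g8 g9 using fun p : P =>
    hLOC X μ hμ w hw K.K p _ _ _ (hb p) _ (v p) (hv p p.2) (hv' p p.2) _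
      (inter_mem (inter_mem (hV1 p p.2) (hW p p.2)) ((hb p).near_zero (hδ0 p)))
  choose B' k1 k2 k3 k4 using fun p : P =>
    exists_open_between_and_isCompact_closure (Λ p).cpt (Λ p).opn (Λ p).sub
  have hBB : ∀ p, B' p ⊆ (Λ p).B := fun p => subset_closure.trans (k3 p)
  have hpB : ∀ p : P, p.1 ∈ B' p := fun p => k2 p (Λ p).mem
  have hdisj : ∀ p q : P, p ≠ q → Disjoint (Λ p).B (Λ q).B := fun p q h =>
    (hV2 p p.2 q q.2 fun e => h (Subtype.ext e)).mono (fun x hx => (g1 p hx).1.1)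
      fun x hx => (g1 q hx).1.1
  -- points of the branches in the boxes
  have hcn : ∀ (p : P) l, ∀ z ∈ ball (0 : ℂ) 2, z ≠ 0 → u p l z ∈ (Λ p).B →
      ContinuousAt (fun t => e p l t * c p l t) z ∧ e p l z * c p l z ≠ 0 ∧ E (u p l z) ≠ 0 ∧
      Cn (1 / 4) w (Λ p).s (e p l z * c p l z) (u p l z) (E (u p l z)) := by
    intro p l z hz h0 hB
    obtain ⟨a1, a2, a3⟩ := hδ p z ((g1 p hB).2.2 l z hz rfl) l h0
    obtain ⟨b1, b2, b3⟩ := g2 p l z ((hb p).in_one hz (g1 p hB).2.1) h0 hB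
    refine ⟨a1.mul b1, mul_ne_zero a2 b2, ?_, ?_⟩
    · rw [a3]
      exact fun h => a2 (dm_inj (jw_sq hw) ((hb p).hol l z hz) ((hb p).imm l z hz h0) h)
    · rw [a3]; exact cn_mul hw ((hb p).hol l z hz) b3 _
  have hld : ∀ p : P, ∀ x ∈ K.K ∩ (Λ p).B, x ≠ p → LDef w K.K E (Λ p).s x := by
    intro p x hx hne
    obtain ⟨l, z, hz, rfl⟩ := (hb p).cov x (g1 p hx.2).2.1 hx.1
    have h0 : z ≠ 0 := fun h => hne (by rw [h, (hb p).zero])
    obtain ⟨a1, a2, -, -⟩ := hcn p l z (b12 hz) h0 hx.2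
    have t1 : ∀ᶠ t in 𝓝 z, ‖e p l z * c p l z - e p l t * c p l t‖ < ‖e p l t * c p l t‖ / 5 :=
      (continuousAt_const.sub a1).norm.eventually_lt (a1.norm.div_const 5) (by
        simpa using norm_pos_iff.2 a2)
    have t2 : ∀ᶠ t in 𝓝 z, u p l t ∈ (Λ p).B :=
      ((hb p).cmd l (b12 hz)).continuousAt.eventually ((Λ p).opn.mem_nhds hx.2)
    obtain ⟨r, hr, hr'⟩ := Metric.eventually_nhds_iff_ball.1 ((t1.and t2).and
      ((isOpen_ne.eventually_mem h0).and (isOpen_ball.eventually_mem (b12 hz))))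
    refine ⟨e p l z * c p l z, ?_⟩
    filter_upwards [(hb p).image_mem (b12 hz) h0 (g1 p hx.2).2.1 hr] with y hy
    obtain ⟨t, ht, rfl⟩ := hy
    obtain ⟨⟨s1, s2⟩, s3, s4⟩ := hr' t ht
    exact fun a => freeze ((hcn p l t s4 s3 s2).2.2.2 a) s1.le
  -- the radius
  have r1 : ∀ᶠ ρ in 𝓝[>] (0 : ℝ), ∀ p : P, ∀ z ∈ closedBall (0 : ℂ) ρ, ∀ l, u p l z ∈ B' p :=
    eventually_all.2 fun p => ev_cball (eventually_all.2 fun l =>
      ((hb p).cmd l (mem_ball_self two_pos)).continuousAt.eventually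
        ((k1 p).mem_nhds (by rw [(hb p).zero]; exact hpB p)))
  have r2 : ∀ᶠ ρ in 𝓝[>] (0 : ℝ), ∀ p : P, ∀ l, HasWinding (e p l) 0 ρ (- n p l) :=
    eventually_all.2 fun p => eventually_all.2 fun l => (he2 p l).2
  obtain ⟨ρ, ⟨q1, q2⟩, q3, hρ, hρ1⟩ :=
    ((r1.and r2).and ((eventually_all.2 g3).and (Ioo_mem_nhdsGT one_pos))).exists
  have hc2 : closedBall (0 : ℂ) ρ ⊆ ball 0 2 := closedBall_subset_ball (by linarith)
  set S : Set X := ⋃ p : P, ⋃ l, u p l '' ball 0 ρ with hS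
  have hSm : ∀ x, x ∉ S ↔ ∀ (p : P) l, ∀ z ∈ ball (0 : ℂ) ρ, x ≠ u p l z := fun x => by
    simp only [hS, mem_iUnion, mem_image, not_exists, not_and]
    exact ⟨fun h p l z hz e => h p l z hz e.symm, fun h p l z hz e => h p l z hz e.symm⟩
  have hC : IsCompact (K.K \ S) := by
    refine K.cpt.of_isClosed_subset (isClosed_of_closure_subset fun x hx => ?_) diff_subset
    refine ⟨K.cpt.isClosed.closure_subset (closure_mono diff_subset hx), fun hxS => ?_⟩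
    have : S ∈ 𝓝[K.K] x := by
      obtain ⟨p, hp⟩ := mem_iUnion.1 hxS
      obtain ⟨l, z, hz, rfl⟩ := mem_iUnion.1 hp
      by_cases h0 : z = 0
      · rw [h0, (hb p).zero]
        exact mem_of_superset ((hb p).iUnion_mem hρ)
          (subset_iUnion (fun p : P => ⋃ l, u p l '' ball 0 ρ) p)
      · obtain ⟨r, hr, hr'⟩ := Metric.isOpen_iff.1 isOpen_ball z hz
        refine mem_of_superset ((hb p).image_mem (hc2 (ball_subset_closedBall hz)) h0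
          (g1 p (hBB p (q1 p z (ball_subset_closedBall hz) l))).2.1 hr) fun y hy => ?_
        exact mem_iUnion.2 ⟨p, mem_iUnion.2 ⟨l, image_mono hr' hy⟩⟩
    obtain ⟨y, a, b⟩ := ((mem_closure_iff_frequently.1 hx).and_eventually
      (eventually_nhdsWithin_iff.1 this)).exists
    exact a.2 (b a.1)
  obtain ⟨L, i₀, i₁, cc, q, f1, f2, f3, f4⟩ := hT Λ B' (K.K \ S)
    (fun p => ⟨fun x hx => (g1 p hx).1.1, k1 p, k2 p, k3 p, hld p⟩) hC
    (fun x hx => ⟨hx.1, fun hxP => (hSm x).1 hx.2 ⟨x, hxP⟩ ⟨0, (hb ⟨x, hxP⟩).posN⟩ 0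
      (mem_ball_self hρ) ((hb ⟨x, hxP⟩).zero _).symm⟩)
    (fun x hx => by
      by_cases hxS : x ∈ S
      · obtain ⟨p, hp⟩ := mem_iUnion.1 hxS
        obtain ⟨l, z, hz, rfl⟩ := mem_iUnion.1 hp
        exact Or.inr ⟨p, q1 p z (ball_subset_closedBall hz) l⟩
      · exact Or.inl ⟨hx, hxS⟩)
  have hne : ∀ p q : P, p ≠ q → ∀ l l', ∀ z ∈ closedBall (0 : ℂ) ρ,
      ∀ z' ∈ closedBall (0 : ℂ) ρ, u p l z ≠ u q l' z' := fun p q h l l' z hz z' hz' e =>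
    Set.disjoint_left.1 (hdisj p q h) (hBB p (q1 p z hz l)) (e ▸ hBB q (q1 q z' hz' l'))
  refine ⟨L, N, u, U, fun p => ∑ l, D p l, m, i₀, cc, fun p => (Λ p).Δ, f1, ?_, f2,
    fun p q h => by rw [(f4 p).1, (f4 q).1]; exact (hdisj p q h).mono (hBB p) (hBB q),
    fun p => ⟨hb p, g4 p, g5 p, fun x hx => (g1 p ((Λ p).sub hx)).1.2, by
      rw [(f4 p).1]; exact hpB p, fun j z hz h0 h => g7 p j z hz h0 ((Λ p).sub h) h, ?_, g9 p⟩⟩
  · rw [deg' hDEG hμ hw K L i₁ P N u U hρ hρ1 cc (fun p l => n p l + D p l) (fun p => ⟨hb p,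
      fun l => ⟨fun z hz => ⟨(g1 p (hBB p (q1 p z hz l))).2.1, by
        rw [(f4 p).1]; exact q1 p z hz l⟩, ?_⟩⟩) hne fun x hx h => f3 ⟨hx, (hSm x).2 h⟩]
    · refine Finset.sum_congr rfl fun p _ => ?_
      rw [← he1 p]
      push_cast
      rw [Finset.sum_add_distrib]
    · have hsp : ∀ z ∈ sphere (0 : ℂ) ρ, u p l z ∈ B' p ∩ L.U i₁ := by
        intro z hz
        have hz' := sphere_subset_closedBall hz
        refine ⟨q1 p z hz' l, f3 ⟨(hb p).mem l z (hc2 hz'), (hSm _).2 fun p' l' z' hz2 e => ?_⟩⟩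
        by_cases hpp : p = p'
        · subst hpp
          have h0 := ne_of_mem_sphere hz hρ.ne'
          rcases (hb p).inj l l' z (hc2 hz') z' (hc2 (ball_subset_closedBall hz2)) e with a | a
          · rw [← a.2, mem_ball] at hz2
            exact hz2.ne hz
          · exact h0 a.1
        · exact hne p p' hpp l l' z hz' z' (ball_subset_closedBall hz2) e
      have w1 : HasWinding (fun z => q p (u p l z)) 0 ρ (- n p l + -(D p l : ℤ)) := by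
        refine w_half hρ (w_mul hρ (q2 p l) (q3 p l)) ((f4 p).2.2.1.comp
          (((hb p).smooth l).continuousOn.mono (sphere_subset_closedBall.trans hc2)) hsp)
          fun z hz => ?_
        have hz' := sphere_subset_closedBall hz
        obtain ⟨r, hr, a⟩ := ((f4 p).2.2.2 _ (hsp z hz)).2.2 ((hb p).mem l z (hc2 hz'))
        obtain ⟨-, -, b1, b2⟩ := hcn p l z (hc2 hz') (ne_of_mem_sphere hz hρ.ne')
          (hBB p (hsp z hz).1)
        have := cn_half hw b1 a b2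
        rw [mul_div_assoc, Complex.re_ofReal_mul] at this
        exact (mul_pos_iff_of_pos_left hr).1 this
      have w2 := w_norm hρ (w_inv w1)
      rw [show -(- n p l + -(D p l : ℤ)) = n p l + D p l by ring] at w2
      exact w_congr w2 fun z hz => ((f4 p).2.2.2 _ (hsp z hz)).2.1
  · have s1 : ∀ᶠ ρ in 𝓝[>] (0 : ℝ), ∀ z ∈ closedBall (0 : ℂ) ρ, ∀ j,
        v p j z ∈ B' p ∧ (z ≠ 0 → v p j z ∉ K.K) := ev_cball (eventually_all.2 fun j =>
      ((((hv p p.2 j).smooth.continuousOn.continuousAt (ball_mem_nhds _ two_pos)).eventually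
        ((k1 p).mem_nhds (by rw [(hv p p.2 j).zero]; exact hpB p))).and
        (eventually_nhdsWithin_iff.1 (hv' p p.2 j))))
    filter_upwards [s1, g8 p, Ioo_mem_nhdsGT one_pos] with r a1 a2 a3 j
    refine w_congr (w_norm a3.1 (a2 j)) fun z hz => (f4 p).2.1 _ ?_
    have h0 := ne_of_mem_sphere hz a3.1.ne'
    obtain ⟨b1, b2⟩ := a1 z (sphere_subset_closedBall hz) j
    refine ⟨b1, ?_⟩
    rw [f2]
    rintro (h | h)
    · exact b2 h0 h
    · obtain ⟨p', h⟩ := mem_iUnion.1 h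
      by_cases hpp : p = p'
      · subst hpp
        exact g7 p j z (sphere_subset_ball a3.2 hz) h0 (hBB p b1) h
      · exact Set.disjoint_left.1 (hdisj p p' hpp) (hBB p b1) ((Λ p').sub h)

end Vale.Agent.P247C.AS
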