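import Vale.Agent.P247C.Asm1
import Vale.Agent.P247C.Nrm
import Vale.Agent.P247C.Vf
import Vale.Agent.P247.SCY.MFD7

/-!
# P247, block C: assembly of ADJC, ADJ and POS
-/

set_option linter.all false

open scoped Topology Manifold ContDiff
open Set Filter Metric

noncomputable section

namespace Vale.Agent.P247C

open Vale.Agent.P247X Vale.Agent.P247.SCY Vale.Agent.P247.SCY.HS AS
open Vale.Agent.P247.H74 (HasWinding)

theorem AS.regPt_of {X : Type} [TopologicalSpace X] [ChartedSpace HS.E4 X] {J : EndF X}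
    {K : Set X} {x : X} {N : ℕ} {u : Fin N → ℂ → X} {U : Set X} (h : BrsX J K x N u U)
    (h1 : N = 1) (h2 : ∀ l, dm (u l) 0 1 ≠ 0) : RegPt J K x := by
  subst h1
  exact ⟨u, U, h, h2 0⟩

/-- **ADJC** -/
theorem adjc_of (hLOC : LOC) (hTHOM : THOM) (hDEG : DEG) : ADJC := by
  classical
  intro X _ μ hμ w hw K α hα P E o hP hV
  obtain ⟨L, N, u, U, Δ, m, i₀, c, Dl, f1, f2, -, -, f3⟩ := core hLOC hTHOM hDEG hμ hw K P E o hP hV
    (fun _ => 0) (fun _ j => j.elim0) (fun _ _ j => j.elim0) (fun _ _ j => j.elim0)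
    (fun _ => univ) fun _ _ => univ_mem
  refine ⟨fun p => if h : p ∈ P then Δ ⟨p, h⟩ else 0, ?_, fun p hp => ⟨N p, u p, U p,
    (f3 ⟨p, hp⟩).1, ?_, ?_⟩⟩
  · rw [f1.2 α hα.1, P247.SCY.pair_comm, ← hα.2 _ f1.1, f2, ← Finset.sum_coe_sort P]
    exact Finset.sum_congr rfl fun p _ => by simp only [dif_pos p.2]
  · simp only [dif_pos hp]
    exact (f3 ⟨p, hp⟩).2.1
  · simp only [dif_pos hp]
    exact fun h => regPt_of (f3 ⟨p, hp⟩).1 ((f3 ⟨p, hp⟩).2.2.1 h).1 ((f3 ⟨p, hp⟩).2.2.1 h).2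

/-- **ADJ** -/
theorem adj_of2 (hD : DICH) (hA : ADJC) : ADJ_statement := by
  classical
  intro X _ μ hμ w hw K α hα
  obtain ⟨ν⟩ := nrm X μ hμ w hw K
  have hreg : ∀ {P : Finset X} {E : ∀ x : X, TangentSpace (𝓡 4) x} {o : X → ℤ},
      VFd (Jw w) K.K P E o → ∀ x ∈ K.K, x ∉ P → RegPt (Jw w) K.K x := by
    intro P E o hV x hx hP
    obtain ⟨N, u, U, hb⟩ := irr_loc K x hx
    obtain ⟨a, b⟩ := (hV.reg x hx hP).2 N u U hb
    exact regPt_of hb a fun l => (b l).1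
  rcases hD ν.M with ⟨θ, hθ, hne⟩ | ⟨u, v, h⟩
  · obtain ⟨P, E, o, hP, hV, ho, hz⟩ := vfa X μ hμ w hw K ν θ hθ hne
    obtain ⟨Δ, e, hΔ⟩ := hA X μ hμ w hw K α hα P E o hP hV
    have hnn : ∀ p ∈ P, (0 : ℝ) ≤ (o p : ℝ) + Δ p := fun p _ =>
      add_nonneg (by exact_mod_cast ho p) (Nat.cast_nonneg _)
    have h0 : 0 ≤ K.T α := e ▸ Finset.sum_nonneg hnn
    refine ⟨by linarith, fun h => by linarith, fun h => Or.inl ?_⟩
    rw [h, eq_comm, Finset.sum_eq_zero_iff_of_nonneg hnn] at e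
    have key : ∀ p ∈ P, o p = 0 ∧ Δ p = 0 := fun p hp => by
      have a : o p + (Δ p : ℤ) = 0 := by exact_mod_cast e p hp
      have b := ho p
      omega
    obtain ⟨u, τ, hT⟩ := torus ν.M θ hθ (hz fun p hp => (key p hp).1)
    refine ((ends X μ hμ w hw K ν).1 fun x hx => ?_).2 u τ hT
    by_cases hxP : x ∈ P
    · obtain ⟨_, _, _, -, -, a⟩ := hΔ x hxP
      exact a (key x hxP).2
    · exact hreg hV x hx hxP
  · obtain ⟨P, E, o, hP, hV, ho⟩ := vfb X μ hμ w hw K ν u v h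
    obtain ⟨Δ, e, hΔ⟩ := hA X μ hμ w hw K α hα P E o hP hV
    have e' : K.T α = -2 + ((∑ p ∈ P, Δ p : ℕ) : ℝ) := by
      rw [e, Finset.sum_add_distrib]
      have : ∑ p ∈ P, (o p : ℝ) = -2 := by exact_mod_cast ho
      rw [this]; push_cast; rfl
    refine ⟨by rw [e']; linarith [Nat.cast_nonneg (α := ℝ) (∑ p ∈ P, Δ p)], fun h2 => ?_,
      fun h2 => Or.inr ?_⟩
    · have a : ∑ p ∈ P, Δ p = 0 := by
        rw [h2] at e'
        exact_mod_cast (by linarith : ((∑ p ∈ P, Δ p : ℕ) : ℝ) = 0)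
      refine ((ends X μ hμ w hw K ν).1 fun x hx => ?_).1 u v h
      by_cases hxP : x ∈ P
      · obtain ⟨_, _, _, -, -, b⟩ := hΔ x hxP
        exact b (Finset.sum_eq_zero_iff.1 a x hxP)
      · exact hreg hV x hx hxP
    · have a : ∑ p ∈ P, Δ p = 2 := by
        rw [h2] at e'
        exact_mod_cast (by linarith : ((∑ p ∈ P, Δ p : ℕ) : ℝ) = 2)
      obtain ⟨x₀, hx₀⟩ : ∃ x₀ : X, ∀ p ∈ P, p ≠ x₀ → Δ p < 2 := by
        by_cases hh : ∃ p ∈ P, 2 ≤ Δ p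
        · obtain ⟨p, hp, h3⟩ := hh
          refine ⟨p, fun q hq hne => ?_⟩
          have := Finset.add_le_sum (f := Δ) (fun _ _ => Nat.zero_le _) hq hp hne
          omega
        · push Not at hh
          exact ⟨K.ne.choose, fun p hp _ => hh p hp⟩
      refine (ends X μ hμ w hw K ν).2 u v h x₀ fun x hx => ?_
      by_cases hxP : x ∈ P
      · obtain ⟨N, b, U, hb, c, -⟩ := hΔ x hxP
        have d : Δ x ≤ 2 := a ▸ Finset.single_le_sum (f := Δ) (fun _ _ => Nat.zero_le _) hxP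
        have hN := hb.posN
        obtain ⟨k, rfl⟩ : ∃ k, N = k + 1 := ⟨N - 1, by omega⟩
        rw [Nat.add_sub_cancel] at c
        refine ⟨_, b, U, hb, by nlinarith, fun hne => ?_⟩
        have := hx₀ x hxP hne
        nlinarith
      · obtain ⟨b, U, hb, -⟩ := hreg hV x hx hxP
        exact ⟨1, b, U, hb, one_le_two, fun _ => rfl⟩

theorem AS.exists_vfd (hD : DICH) {X : Type} [Cl4 X] {μ : Form X 4} (hμ : Volume μ) {w : Tri X}
    (hw : Hypersymplectic μ w) (K : Irr (Jw w)) (Q : Finset X) (hQ : ↑Q ⊆ K.K) :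
    ∃ (P : Finset X) (E : ∀ x : X, TangentSpace (𝓡 4) x) (o : X → ℤ), Q ⊆ P ∧ ↑P ⊆ K.K ∧
      VFd (Jw w) K.K P E o := by
  classical
  obtain ⟨ν⟩ := nrm X μ hμ w hw K
  obtain ⟨P, E, o, hP, hV⟩ : ∃ (P : Finset X) (E : ∀ x : X, TangentSpace (𝓡 4) x) (o : X → ℤ),
      ↑P ⊆ K.K ∧ VFd (Jw w) K.K P E o := by
    rcases hD ν.M with ⟨θ, hθ, hne⟩ | ⟨u, v, h⟩
    · obtain ⟨P, E, o, hP, hV, -⟩ := vfa X μ hμ w hw K ν θ hθ hne
      exact ⟨P, E, o, hP, hV⟩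
    · obtain ⟨P, E, o, hP, hV, -⟩ := vfb X μ hμ w hw K ν u v h
      exact ⟨P, E, o, hP, hV⟩
  refine ⟨Q ∪ P, E, o, Finset.subset_union_left, by rw [Finset.coe_union]; exact union_subset hQ hP,
    hV.wind, fun x hx h => hV.reg x hx fun h' => h (Finset.mem_union_right _ h')⟩

/-- every irreducible curve has a line bundle -/
theorem cls_of (hD : DICH) (hLOC : LOC) (hTHOM : THOM) (hDEG : DEG) {X : Type} [Cl4 X]
    {μ : Form X 4} (hμ : Volume μ) {w : Tri X} (hw : Hypersymplectic μ w) (K : Irr (Jw w)) :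
    ∃ L : LB X, IsCls μ K.T L.F := by
  obtain ⟨P, E, o, -, hP, hV⟩ := exists_vfd hD hμ hw K ∅ (by simp)
  obtain ⟨L, _, _, _, _, _, _, _, _, f1, -⟩ := core hLOC hTHOM hDEG hμ hw K P E o hP hV
    (fun _ => 0) (fun _ j => j.elim0) (fun _ _ j => j.elim0) (fun _ _ j => j.elim0)
    (fun _ => univ) fun _ _ => univ_mem
  exact ⟨L, f1⟩

/-- **POS** -/
theorem pos_of (hD : DICH) (hLOC : LOC) (hTHOM : THOM) (hDEG : DEG) (hFIN : FIN) (hTRA : TRA) :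
    POS_statement := by
  classical
  intro X _ μ hμ w hw K K' hne α hα
  have hfin := hFIN X μ hμ w hw K K' hne
  set Q := hfin.toFinset with hQ
  have hQm : ∀ x, x ∈ Q ↔ x ∈ K.K ∧ x ∈ K'.K := fun x => hfin.mem_toFinset
  obtain ⟨P, E, o, hQP, hP, hV⟩ := exists_vfd hD hμ hw K Q fun x hx => ((hQm x).1 hx).1
  have hloc : ∀ x : X, ∃ (N : ℕ) (v : Fin N → ℂ → X) (U : Set X), U ∈ 𝓝 x ∧
      (x ∈ K'.K → BrsX (Jw w) K'.K x N v U) ∧ (x ∉ K'.K → N = 0 ∧ U ⊆ K'.Kᶜ) := by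
    intro x
    by_cases hx : x ∈ K'.K
    · obtain ⟨N, v, U, h⟩ := irr_loc K' x hx
      exact ⟨N, v, U, h.opn.mem_nhds h.memU, fun _ => h, fun h' => absurd hx h'⟩
    · exact ⟨0, Fin.elim0, _, K'.cpt.isClosed.isOpen_compl.mem_nhds hx, fun h => absurd h hx,
        fun _ => ⟨rfl, Subset.rfl⟩⟩
  choose N' v U' hU hb hb' using hloc
  have hK' : ∀ x, Fin (N' x) → x ∈ K'.K := fun x j => by
    by_contra h
    have := (hb' x h).1
    have := j.2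
    omega
  obtain ⟨L, N, u, U, Δ, m, i₀, c, Dl, f1, -, f2, f3, f4⟩ := core hLOC hTHOM hDEG hμ hw K P E o
    hP hV N' v (fun p _ j => ⟨(hb p (hK' p j)).smooth j, (hb p (hK' p j)).hol j,
      (hb p (hK' p j)).zero j, (hb p (hK' p j)).injOn j⟩)
    (fun p _ j => by
      have h := hb p (hK' p j)
      have a : ∀ᶠ y in 𝓝 p, y ∉ (K.K ∩ K'.K) \ {p} :=
        (hfin.subset diff_subset).isClosed.isOpen_compl.mem_nhds fun h => h.2 rfl
      have b : ∀ᶠ z in 𝓝 (0 : ℂ), v p j z ∉ (K.K ∩ K'.K) \ {p} :=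
        (h.cmd j (mem_ball_self two_pos)).continuousAt.eventually (by rw [h.zero]; exact a)
      filter_upwards [mem_nhdsWithin_of_mem_nhds b,
        mem_nhdsWithin_of_mem_nhds (ball_mem_nhds (0 : ℂ) two_pos), self_mem_nhdsWithin]
        with z a1 a2 a3 a4
      exact a1 ⟨⟨a4, h.mem j z a2⟩, fun e => a3 (h.eq_zero a2 e)⟩) U' fun p _ => hU p
  set ι : Q → P := fun p => ⟨p.1, hQP p.2⟩ with hι
  have hbQ : ∀ p : Q, BrsX (Jw w) K'.K p (N' p) (v p) (U' p) := fun p => hb p ((hQm p).1 p.2).2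
  have r1 : ∀ᶠ ρ in 𝓝[>] (0 : ℝ), ∀ p : Q, ∀ z ∈ closedBall (0 : ℂ) ρ, ∀ l,
      v p l z ∈ U' p ∩ L.U (c (ι p)) :=
    eventually_all.2 fun p => ev_cball (eventually_all.2 fun l =>
      ((hbQ p).cmd l (mem_ball_self two_pos)).continuousAt.eventually (by
        rw [(hbQ p).zero]
        exact inter_mem (hU p) ((L.opn _).mem_nhds (f4 (ι p)).2.2.2.2.1)))
  obtain ⟨ρ, ⟨q1, q2⟩, hρ, hρ1⟩ := ((r1.and (eventually_all.2 fun p : Q =>
    (f4 (ι p)).2.2.2.2.2.2.1)).and (Ioo_mem_nhdsGT one_pos)).exists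
  have hsum : K.T α = ((∑ p : Q, ∑ l, m (ι p) l : ℕ) : ℝ) := by
    rw [f1.2 α hα.1, P247.SCY.pair_comm, ← hα.2 _ f1.1, deg' hDEG hμ hw K' L i₀ Q N' v U' hρ hρ1
      (fun p => c (ι p)) (fun p l => m (ι p) l)
      (fun p => ⟨hbQ p, fun l => ⟨fun z hz => q1 p z hz l, q2 p l⟩⟩)
      (fun p q h l l' z hz z' hz' e => Set.disjoint_left.1
        (f3 (ι p) (ι q) fun e' => h (Subtype.ext (congrArg (fun t : P => t.1) e')))
        (q1 p z hz l).2 (e ▸ (q1 q z' hz' l').2)) fun x hx h => ?_]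
    · push_cast; rfl
    · have hxQ : x ∉ Q := fun hxQ => h ⟨x, hxQ⟩ ⟨0, (hbQ ⟨x, hxQ⟩).posN⟩ 0 (mem_ball_self hρ)
        ((hbQ ⟨x, hxQ⟩).zero _).symm
      rw [f2]
      rintro (a | a)
      · exact hxQ ((hQm x).2 ⟨a, hx⟩)
      · obtain ⟨p, a⟩ := mem_iUnion.1 a
        have b := (f4 p).2.2.2.1 a
        by_cases hp : p.1 ∈ K'.K
        · obtain ⟨j, z, hz, rfl⟩ := (hb p hp).cov x b hx
          refine (f4 p).2.2.2.2.2.1 j z hz (fun h0 => hxQ ?_) a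
          rw [h0, (hb p hp).zero]
          exact (hQm _).2 ⟨hP p.2, hp⟩
        · exact (hb' p hp).2 b hx
  have hcard : ((K.K ∩ K'.K).ncard : ℝ) = ((∑ _p : Q, 1 : ℕ) : ℝ) := by
    rw [ncard_eq_toFinset_card _ hfin]; simp [hQ]
  have hm := fun p : Q => (f4 (ι p)).2.2.2.2.2.2.2
  have hN : ∀ p : Q, N' p ≤ ∑ l, m (ι p) l := fun p => by
    simpa using Finset.sum_le_sum (s := Finset.univ) fun l _ => (hm p l).1
  have hone : ∀ p : Q, 1 ≤ ∑ l, m (ι p) l := fun p => (hbQ p).posN.trans_le (hN p)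
  have hne0 : ∀ (x : X) (a a' : TangentSpace (𝓡 4) x), OmX w x a a' ≠ 0 → a ≠ 0 ∧ a' ≠ 0 := by
    intro x a a' h
    constructor
    · rintro rfl
      exact h (by
        have : ∀ y, w 0 x ![0, y] = 0 := fun y => (w 0 x).map_coord_zero 0 rfl
        unfold OmX; rw [this, this]; simp)
    · rintro rfl
      exact h (by
        have : w 0 x ![a, 0] = 0 := (w 0 x).map_coord_zero 1 rfl
        unfold OmX; rw [map_zero, this]; simp)
  have tra : ∀ (x : X) (N N' : ℕ) (u : Fin N → ℂ → X) (u' : Fin N' → ℂ → X) (U U' : Set X),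
      BrsX (Jw w) K.K x N u U → BrsX (Jw w) K'.K x N' u' U' → N = 1 → N' = 1 → ∀ l j,
      dm (u l) 0 1 ≠ 0 → dm (u' j) 0 1 ≠ 0 → ∀ a a' : HS.E4, a = dm (u l) 0 1 →
      a' = dm (u' j) 0 1 → (TransAt K.K K'.K x ↔ OmX w x a a' ≠ 0) := by
    intro x N N' u u' U U' h h' e e' l j
    subst e e'
    obtain rfl : l = 0 := Subsingleton.elim _ _
    obtain rfl : j = 0 := Subsingleton.elim _ _
    exact (hTRA X μ hμ w hw).1 _ _ x u u' U U' h h'
  rw [hsum, hcard]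
  refine ⟨hfin, by exact_mod_cast Finset.sum_le_sum fun p _ => hone p, fun h x hx => ?_,
    fun h => ?_⟩
  · have h1 : ∑ _p : Q, 1 = ∑ p : Q, ∑ l, m (ι p) l := by exact_mod_cast h
    set p : Q := ⟨x, (hQm x).2 hx⟩ with hp
    have h2 := (Finset.sum_eq_sum_iff_of_le fun p _ => hone p).1 h1 p (Finset.mem_univ _)
    have h3 : N' p = 1 := le_antisymm (h2 ▸ hN p) (hbQ p).posN
    set j : Fin (N' p) := ⟨0, (hbQ p).posN⟩
    have h4 : m (ι p) j = 1 := le_antisymm (h2 ▸ Finset.single_le_sum (f := m (ι p))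
      (fun _ _ => Nat.zero_le _) (Finset.mem_univ j)) (hm p j).1
    obtain ⟨h5, h6⟩ := (hm p j).2.1 h4
    set l : Fin (N x) := ⟨0, (f4 (ι p)).1.posN⟩
    have h7 := h6 l _ _ rfl rfl
    exact (tra x _ _ _ _ _ _ (f4 (ι p)).1 (hbQ p) h5 h3 l j (hne0 _ _ _ h7).1 (hne0 _ _ _ h7).2
      _ _ rfl rfl).2 h7
  · congr 1
    refine Finset.sum_congr rfl fun p _ => ?_
    obtain ⟨a1, a2, a3⟩ := h p ((hQm p).1 p.2)
    obtain ⟨b1, b2⟩ := regPt_one (jw_sq hw) (f4 (ι p)).1 a1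
    obtain ⟨c1, c2⟩ := regPt_one (jw_sq hw) (hbQ p) a2
    rw [Finset.sum_congr rfl fun j _ => (hm p j).2.2 ⟨b1, fun l a a' e e' =>
      (tra p _ _ _ _ _ _ (f4 (ι p)).1 (hbQ p) b1 c1 l j (b2 l) (c2 j) a a' e e').1 a3⟩]
    simpa using c1.symm

end Vale.Agent.P247C
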