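import Vale.Agent.P247.H58.LW.Tr

/-!
# P247, block C: local theory of branches, the leading term and the smooth inverse
-/

set_option linter.all false

open scoped ContDiff Topology
open Set MeasureTheory Filter Metric Asymptotics Polynomial

noncomputable section

namespace Vale.Agent.P247C.Lo

open Vale.Agent.P247.H74 Vale.Agent.P247.H74.CE Vale.Agent.P247.H58.LW
open Vale.Agent.P247.H74.CE.Lead (uh zt zt_zero)

variable {D : Data} {u : ℂ → R4} {k : ℕ} {a b : R4}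

/-- the expansion of the transversal difference -/
theorem cross_exp2 (h : LeadL D u k a b) {σ : ℂ → ℂ} (hσ : ContDiffAt ℝ 1 σ 0)
    (h0 : σ 0 = 0) (hne : ∀ᶠ z in 𝓝[≠] (0 : ℂ), σ z ≠ 0) {u' : ℂ → R4} (hu' : JHl D 0 u')
    (hu0 : u' 0 = u 0) {n : ℂ → ℂ} (hn1 : Cl 1 n) {m₀ : ℕ}
    (hnO : n =O[𝓝[≠] 0] fun z : ℂ => z ^ m₀)
    (hdiff : ∀ᶠ z in 𝓝 (0 : ℂ), u' z - u (σ z) = cm D (u 0) (n z) b)
    (hn0 : ∃ᶠ z in 𝓝[≠] (0 : ℂ), n z ≠ 0) :
    ∃ (m : ℕ) (A : ℂ), m₀ ≤ m ∧ A ≠ 0 ∧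
      (fun z => n z - A * z ^ m) =o[𝓝[≠] 0] (fun z => z ^ m) := by
  set l0 := Om D (u 0) a b with hl0
  have hl : l0 ≠ 0 := h.hab
  set P : ℂ → R4 →L[ℝ] ℂ := fun z => OmL D (u (σ z)) (uh D u k (σ z)) with hPdef
  have hP : Cl 1 (fun z => P z - OmL D (u 0) a) := P_clL h hσ h0 hne
  have hP0 : Cl 0 P := by
    refine ((hP.mono (m' := 0) (by norm_num)).add (Cl.const (OmL D (u 0) a))).congr
      (Eventually.of_forall fun z => ?_)
    abel
  set W := Wg D u k σ u' with hW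
  have hWP : ∀ z, W z = P z (u' z - u (σ z)) := fun z => rfl
  have hscl : Cl 1 (fun z => u' z - u (σ z)) := by
    refine (hn1.clm ((cmB D (u 0)).flip b)).congr ?_
    filter_upwards [nhdsWithin_le_nhds hdiff] with z hz
    rw [hz, ContinuousLinearMap.flip_apply, cmB_apply]
  have hWcl : Cl 1 W := by
    have := hP0.bil (ContinuousLinearMap.id ℝ (R4 →L[ℝ] ℂ)) hscl
    rw [zero_add] at this
    exact this
  -- `W = l0 n + o(n)`
  obtain ⟨K, hK0, hK⟩ : ∃ K, 0 < K ∧ ∀ t : ℂ, ‖cm D (u 0) t b‖ ≤ K * ‖t‖ := by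
    refine ⟨‖(cmB D (u 0)).flip b‖ + 1, by positivity, fun t => ?_⟩
    have := ((cmB D (u 0)).flip b).le_opNorm t
    rw [ContinuousLinearMap.flip_apply, cmB_apply] at this
    nlinarith [norm_nonneg t]
  have hWn : (fun z => W z - l0 * n z) =o[𝓝[≠] 0] n := by
    rw [isLittleO_iff]
    intro c hc
    have e1 : Tendsto (fun z => ‖P z - OmL D (u 0) a‖) (𝓝[≠] 0) (𝓝 0) := by
      simpa using (hP.tendsto le_rfl).norm
    have e2 := e1.eventually_le_const (show 0 < c / K by positivity)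
    filter_upwards [e2, nhdsWithin_le_nhds hdiff] with z e3 e4
    have e5 : W z - l0 * n z = (P z - OmL D (u 0) a) (cm D (u 0) (n z) b) := by
      rw [hWP, e4, _root_.sub_apply, OmL_apply D (u 0) a, Om_cm]
      ring
    rw [e5]
    calc ‖(P z - OmL D (u 0) a) (cm D (u 0) (n z) b)‖
        ≤ ‖P z - OmL D (u 0) a‖ * ‖cm D (u 0) (n z) b‖ := ContinuousLinearMap.le_opNorm _ _
      _ ≤ c / K * (K * ‖n z‖) := by gcongr; exact hK _
      _ = c * ‖n z‖ := by field_simp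
  have hlpos : 0 < ‖l0‖ := norm_pos_iff.2 hl
  have hnW : ∀ᶠ z in 𝓝[≠] (0 : ℂ), ‖n z‖ ≤ 2 / ‖l0‖ * ‖W z‖ := by
    filter_upwards [(isLittleO_iff.1 hWn) (show 0 < ‖l0‖ / 2 by positivity)] with z hz
    have e1 : ‖l0 * n z‖ ≤ ‖W z‖ + ‖W z - l0 * n z‖ := by
      have := norm_sub_le (W z) (W z - l0 * n z)
      rwa [sub_sub_cancel] at this
    rw [norm_mul] at e1
    have e2 : ‖l0‖ / 2 * ‖n z‖ ≤ ‖W z‖ := by linarith
    rw [div_mul_eq_mul_div, le_div_iff₀ hlpos]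
    linarith
  obtain ⟨C, hC⟩ := W_derivL h hσ h0 hne hu' hu0
  have hC' : ∀ᶠ z in 𝓝[≠] (0 : ℂ), ‖dbar W z‖ ≤ |C| * (K * (2 / ‖l0‖)) * ‖W z‖ := by
    filter_upwards [hC, hnW, nhdsWithin_le_nhds hdiff] with z e1 e2 e3
    refine e1.trans ?_
    rw [e3]
    calc C * ‖cm D (u 0) (n z) b‖ ≤ |C| * (K * (2 / ‖l0‖ * ‖W z‖)) := by
          gcongr
          · exact le_abs_self C
          · exact (hK _).trans (by gcongr)
      _ = _ := by ring
  -- the similarity principle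
  obtain ⟨R, hR, hball⟩ := Metric.eventually_nhds_iff_ball.1
    (eventually_nhdsWithin_iff.1 (hC'.and hWcl.c1))
  have hW0 : W 0 = 0 := by
    rw [hWP, h0, hu0, sub_self, map_zero]
  have hcont : ContinuousOn W (ball 0 R) := by
    intro z hz
    rcases eq_or_ne z 0 with rfl | hz0
    · refine ContinuousAt.continuousWithinAt ?_
      rw [continuousAt_iff_punctured_nhds, hW0]
      exact hWcl.tendsto (by omega)
    · exact (hball z hz hz0).2.continuousAt.continuousWithinAt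
  rcases SP.expansion hR hcont
    (fun z hz => (hball z hz.1 hz.2).2.contDiffWithinAt)
    (fun z hz => (hball z hz.1 hz.2).1) with ⟨r, hr, hz⟩ | ⟨m, A, hA, hexp⟩
  · exfalso
    have e2 : ∀ᶠ z in 𝓝[≠] (0 : ℂ), z ∈ ball (0 : ℂ) r := nhdsWithin_le_nhds (ball_mem_nhds 0 hr)
    obtain ⟨z, e3, e4, e5⟩ := (hn0.and_eventually (e2.and hnW)).exists
    rw [hz z e4, norm_zero, mul_zero] at e5
    exact e3 (norm_le_zero_iff.1 e5)
  · simp only [smul_eq_mul] at hexp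
    have hexp' := hexp.mono (nhdsWithin_le_nhds (s := {(0 : ℂ)}ᶜ))
    have hWO : W =O[𝓝[≠] 0] (fun z : ℂ => z ^ m) := by
      have e1 := hexp'.isBigO.add (isBigO_const_mul_self A (fun z : ℂ => z ^ m) (𝓝[≠] 0))
      refine e1.congr_left fun z => ?_
      ring
    have hnO' : n =O[𝓝[≠] 0] (fun z : ℂ => z ^ m) :=
      (IsBigO.of_bound _ hnW).trans hWO
    have h1 : (fun z => n z - (A / l0) * z ^ m) =o[𝓝[≠] 0] (fun z : ℂ => z ^ m) := by
      have e1 := (hexp'.sub (hWn.trans_isBigO hnO')).const_mul_left (l0⁻¹)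
      refine e1.congr_left fun z => ?_
      field_simp
      ring
    refine ⟨m, A / l0, ?_, div_ne_zero hA hl, h1⟩
    -- the order is at least `m₀`
    by_contra hcon
    have hm : m + 1 ≤ m₀ := by omega
    have e1 : n =o[𝓝[≠] 0] (fun z : ℂ => z ^ m) := by
      refine hnO.trans_isLittleO ?_
      rw [isLittleO_iff]
      intro c hc
      have e2 : ∀ᶠ z in 𝓝[≠] (0 : ℂ), z ∈ ball (0 : ℂ) c :=
        nhdsWithin_le_nhds (ball_mem_nhds 0 hc)
      filter_upwards [e2, small_ev, ne_ev] with z e3 e4 e5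
      rw [mem_ball_zero_iff] at e3
      rw [norm_pow, norm_pow]
      have e7 : ‖z‖ ^ m₀ ≤ ‖z‖ ^ (m + 1) := pow_le_pow_of_le_one (norm_nonneg _) e4.le hm
      calc ‖z‖ ^ m₀ ≤ ‖z‖ ^ (m + 1) := e7
        _ = ‖z‖ * ‖z‖ ^ m := by ring
        _ ≤ c * ‖z‖ ^ m := by gcongr
    have e2 : (fun z : ℂ => A / l0 * z ^ m) =o[𝓝[≠] 0] (fun z : ℂ => z ^ m) := by
      refine (e1.sub h1).congr_left fun z => ?_
      ring
    have hA' : A / l0 ≠ 0 := div_ne_zero hA hl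
    have e3 := (isLittleO_iff.1 e2) (show 0 < ‖A / l0‖ / 2 by
      have := norm_pos_iff.2 hA'
      positivity)
    obtain ⟨z, e4, e5⟩ := (e3.and ne_ev).exists
    rw [norm_mul] at e4
    have e6 : 0 < ‖z ^ m‖ := norm_pos_iff.2 (pow_ne_zero _ e5)
    have e7 := norm_pos_iff.2 hA'
    nlinarith

/-- a function with a leading term has no zeros near the origin -/
theorem ne_of_lead {n : ℂ → ℂ} {m : ℕ} {A : ℂ} (hA : A ≠ 0)
    (h : (fun z => n z - A * z ^ m) =o[𝓝[≠] 0] (fun z => z ^ m)) :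
    ∀ᶠ z in 𝓝[≠] (0 : ℂ), n z ≠ 0 := by
  have h0 := norm_pos_iff.2 hA
  filter_upwards [(isLittleO_iff.1 h) (half_pos h0), ne_ev] with z h1 hz h2
  rw [h2, zero_sub, norm_neg, norm_mul] at h1
  have h3 : 0 < ‖z ^ m‖ := norm_pos_iff.2 (pow_ne_zero _ hz)
  nlinarith

theorem zt_smooth (h : LeadL D u k a b) :
    ∀ᶠ z in 𝓝 (0 : ℂ), (z ≠ 0 ∨ k = 1) → ContDiffAt ℝ ∞ (zt D u k a b) z := by
  by_cases hk : k = 1
  · subst hk
    have e : zt D u 1 a b = fun z => p1 D (u 0) a b (u z - u 0) := by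
      funext z
      rw [← h.zt_pow z, pow_one]
    refine Eventually.of_forall fun z _ => ?_
    rw [e]
    exact ((p1 D (u 0) a b).contDiff.comp (h.hu.1.sub contDiff_const)).contDiffAt
  set ρ : ℂ → ℂ := fun z => p1 D (u 0) a b (u z - u 0 - cm D (u 0) (z ^ k) a) * z ^ (-(k : ℤ))
    with hρ
  have h1 : Cl ((k : ℤ) + 1 + (-(k : ℤ))) ρ :=
    (h.rem0.clm (p1 D (u 0) a b)).bil (ContinuousLinearMap.mul ℝ ℂ) (Cl.zpow (-(k : ℤ)))
  have h2 : Tendsto (fun z => 1 + ρ z) (𝓝[≠] 0) (𝓝 1) := by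
    simpa using (h1.tendsto (by omega)).const_add 1
  have h3 := h2.eventually (Complex.isOpen_slitPlane.mem_nhds Complex.one_mem_slitPlane)
  filter_upwards [eventually_nhdsWithin_iff.1 h3] with z hz hz'
  have hz0 : z ≠ 0 := hz'.resolve_right hk
  have h4 : ContDiffAt ℝ ∞ ρ z := by
    have e1 : ContDiff ℝ ∞ fun z : ℂ => u z - u 0 - cmB D (u 0) (z ^ k) a :=
      (h.hu.1.sub contDiff_const).sub
        (((cmB D (u 0)).contDiff.comp (contDiff_id.pow k)).clm_apply contDiff_const)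
    simp only [cmB_apply] at e1
    have e2 : AnalyticAt ℂ (fun z : ℂ => z ^ (-(k : ℤ))) z := analyticAt_id.zpow hz0
    exact ((p1 D (u 0) a b).contDiff.comp e1).contDiffAt.mul
      (e2.contDiffAt.restrict_scalars ℝ)
  have h5 : AnalyticAt ℂ (fun w : ℂ => w ^ ((k : ℂ)⁻¹)) (1 + ρ z) :=
    analyticAt_id.cpow analyticAt_const (hz hz0)
  exact contDiffAt_id.mul (ContDiffAt.comp (f := fun z => 1 + ρ z) z
    (h5.contDiffAt.restrict_scalars ℝ) (contDiffAt_const.add h4))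

/-- a branch with its leading term and the inverse of its coordinate -/
structure Bd (D : Data) (u : ℂ → R4) (k : ℕ) (a b : R4) (ξ : ℂ → ℂ) (δ : ℝ) : Prop where
  lead : LeadL D u k a b
  inv : Inv D u k a b ξ δ
  sm : ∀ c ∈ ball (0 : ℂ) δ, (c ≠ 0 ∨ k = 1) → ContDiffAt ℝ ∞ ξ c

theorem exists_bd (h : LeadL D u k a b) : ∃ ξ δ, Bd D u k a b ξ δ := by
  obtain ⟨ξ, δ, hi⟩ := h.inv
  have h1 : ContinuousAt (fderiv ℝ (zt D u k a b)) 0 :=
    (h.zt_c1.1.fderiv_right (m := 0) (by simp)).continuousAt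
  have h2 : ∀ᶠ z in 𝓝 (0 : ℂ), fderiv ℝ (zt D u k a b) z ∈
      range ((↑) : (ℂ ≃L[ℝ] ℂ) → ℂ →L[ℝ] ℂ) := by
    refine h1.eventually (ContinuousLinearEquiv.isOpen.mem_nhds ?_)
    exact ⟨ContinuousLinearEquiv.refl ℝ ℂ, h.zt_c1.2.fderiv.symm⟩
  have h3 : Tendsto ξ (𝓝 0) (𝓝 0) := by
    have := hi.ξc1.continuousAt.tendsto
    rwa [hi.zero] at this
  obtain ⟨δ', hδ', h4⟩ := Metric.eventually_nhds_iff_ball.1
    ((h3.eventually (h2.and ((zt_smooth h).and hi.left.eventually_nhds))).and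
      (ball_mem_nhds (0 : ℂ) hi.pos))
  refine ⟨ξ, δ', h, ⟨hδ', hi.zero, fun c hc => ?_, fun c hc => hi.right c (h4 c hc).2, hi.left⟩,
    fun c hc hc' => ?_⟩
  · exact (hi.c1.contDiffAt (isOpen_ball.mem_nhds (h4 c hc).2)).contDiffWithinAt
  obtain ⟨⟨⟨L, hL⟩, h5, h6⟩, h7⟩ := h4 c hc
  have h8 := hi.right c h7
  have h9 : ContDiffAt ℝ ∞ (zt D u k a b) (ξ c) := by
    refine h5 (hc'.imp_left fun h0 h1 => h0 ?_)
    rw [← h8, h1, zt_zero]
  have h10 : HasFDerivAt (zt D u k a b) (L : ℂ →L[ℝ] ℂ) (ξ c) := by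
    rw [hL]
    exact (h9.differentiableAt (by simp)).hasFDerivAt
  have hn : (∞ : WithTop ℕ∞) ≠ 0 := by simp
  have h11 := h9.to_localInverse h10 hn
  have h12 := (h9.hasStrictFDerivAt' h10 hn).localInverse_unique h6
  rw [h8] at h11 h12
  exact h11.congr_of_eventuallyEq h12

/-- winding numbers from a branched cover -/
theorem wind_root {H : ℂ → ℂ} {K : ℕ} (hK : 1 ≤ K) {M : ℤ}
    (hc : ∀ᶠ z in 𝓝[≠] (0 : ℂ), ContinuousAt H z ∧ H z ≠ 0)
    (hw : ∀ᶠ R in 𝓝[>] (0 : ℝ), HasWinding (fun τ => H (τ ^ K)) 0 R M) :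
    ∃ n : ℤ, K * n = M ∧ ∀ᶠ ρ in 𝓝[>] (0 : ℝ), HasWinding H 0 ρ n := by
  have h1 : ∀ᶠ R in 𝓝[>] (0 : ℝ), ∃ n : ℤ, K * n = M ∧ HasWinding H 0 (R ^ K) n := by
    filter_upwards [hw, (ev_pow_small hK).eventually (ev_sphere hc), self_mem_nhdsWithin]
      with R h1 h2 hR
    have hR : 0 < R := hR
    obtain ⟨n, hn⟩ := WWIND.W4 H 0 (R ^ K) (by positivity)
      (fun z hz => (h2 z hz).1.continuousWithinAt) fun z hz => (h2 z hz).2
    exact ⟨n, WWIND.W1 _ 0 R _ _ hR (wind_pow hn) h1, hn⟩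
  obtain ⟨R, n, hn, -⟩ := h1.exists
  refine ⟨n, hn, ev_root hK ?_⟩
  filter_upwards [h1] with R ⟨n', h2, h3⟩
  have : n' = n := mul_left_cancel₀ (show (K : ℤ) ≠ 0 by omega) (h2.trans hn.symm)
  rwa [← this]

/-- a local root -/
theorem exists_root {k : ℕ} (hk : k ≠ 0) {c : ℂ} (hc : c ≠ 0 ∨ k = 1) :
    ∃ g : ℂ → ℂ, ContDiffAt ℝ ∞ g (c ^ k) ∧ g (c ^ k) = c ∧ ∀ t, g t ^ k = t := by
  rcases hc with hc | rfl
  · have h0 := pow_ne_zero k hc
    refine ⟨fun t => c * (t / c ^ k) ^ ((k : ℂ)⁻¹), ?_, by simp [div_self h0], fun t => ?_⟩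
    · have h1 : AnalyticAt ℂ (fun t : ℂ => (t / c ^ k) ^ ((k : ℂ)⁻¹)) (c ^ k) := by
        refine AnalyticAt.cpow (by fun_prop) analyticAt_const ?_
        rw [div_self h0]
        exact Complex.one_mem_slitPlane
      exact contDiffAt_const.mul (h1.contDiffAt.restrict_scalars ℝ)
    · rw [mul_pow, Complex.cpow_nat_inv_pow _ hk]
      field_simp
  · exact ⟨id, contDiffAt_id, by simp, fun t => by simp⟩

/-- the derivative at the origin -/
theorem lead_d0 (h : LeadL D u k a b) : fderiv ℝ u 0 1 = if k = 1 then a else 0 := by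
  have h1 := h.rem1.tendsto (by have := h.hk; omega)
  have h2 : Continuous fun z => fderiv ℝ u z 1 - cmB D (u 0) (k * z ^ (k - 1)) a :=
    ((h.hu.1.continuous_fderiv (by simp)).clm_apply continuous_const).sub (by fun_prop)
  simp only [cmB_apply] at h2
  have h3 := tendsto_nhds_unique ((h2.tendsto 0).mono_left nhdsWithin_le_nhds) h1
  rw [sub_eq_zero] at h3
  rw [h3]
  split_ifs with hk
  · subst hk
    simp [cm_one]
  · rw [zero_pow (by have := h.hk; omega), mul_zero, cm_zero]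

end Vale.Agent.P247C.Lo
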