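import Vale.Agent.P247C.La

/-!
# P247, block C: the defining function of one branch
-/

set_option linter.all false

open scoped ContDiff Topology
open Set MeasureTheory Filter Metric Asymptotics Polynomial

noncomputable section

namespace Vale.Agent.P247C.Lo

open Vale.Agent.P247.H74 Vale.Agent.P247.H74.CE Vale.Agent.P247.H58.LW
open Vale.Agent.P247.H74.CE.Lead (uh zt zt_zero)

/-- the product of the vertical distances to the sheets of a branch -/
def Fb (D : Data) (u : ℂ → R4) (k : ℕ) (a b : R4) (ξ : ℂ → ℂ) (q : R4) : ℂ :=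
  Ph (U2 D u a b ξ) k (p1 D (u 0) a b (q - u 0)) (p2 D (u 0) a b (q - u 0))

/-- the product of the vertical distances to the other sheets, along the branch -/
def Hs (D : Data) (u : ℂ → R4) (k : ℕ) (a b : R4) (ξ : ℂ → ℂ) (t : ℂ) : ℂ :=
  ∏ w ∈ (nthRootsFinset k (1 : ℂ)).erase 1,
    (p2 D (u 0) a b (u t - u 0) - U2 D u a b ξ (w * zt D u k a b t))

theorem vert {D : Data} {x a b v : R4} (h : Om D x a b ≠ 0) (h1 : p1 D x a b v = 0) :
    v = cm D x (p2 D x a b v) b := by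
  have h3 := frame_decomp D x a b h v
  rwa [h1, cm_zero, zero_add] at h3

theorem p1_zero {D : Data} {x a b v : R4} (h : Om D x a b ≠ 0) :
    p1 D x a b v = 0 ↔ Om D x v b = 0 := by
  rw [p1_apply, mul_eq_zero, or_iff_right (inv_ne_zero h)]

namespace Bd

variable {D : Data} {u : ℂ → R4} {k : ℕ} {a b : R4} {ξ : ℂ → ℂ} {δ : ℝ}
  (h : Bd D u k a b ξ δ)
include h

theorem rot {w c : ℂ} (hw : w ∈ nthRootsFinset k (1 : ℂ)) (hc : c ∈ ball (0 : ℂ) δ) :
    w * c ∈ ball (0 : ℂ) δ ∧ w ≠ 0 := by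
  have h1 := norm_root h.lead.k0 ((mem_nthRootsFinset h.lead.hk 1).1 hw)
  rw [mem_ball_zero_iff] at hc ⊢
  exact ⟨by rwa [norm_mul, h1, one_mul], fun h0 => by simp [h0] at h1⟩

theorem U2_cont : ContinuousOn (U2 D u a b ξ) (ball 0 δ) :=
  (p2 D (u 0) a b).continuous.comp_continuousOn
    ((h.lead.cont.comp_continuousOn h.inv.c1.continuousOn).sub continuousOn_const)

theorem U2_smooth {c : ℂ} (hc : c ∈ ball (0 : ℂ) δ) (hc' : c ≠ 0 ∨ k = 1) :
    ContDiffAt ℝ ∞ (U2 D u a b ξ) c :=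
  (p2 D (u 0) a b).contDiff.contDiffAt.comp c
    ((h.lead.hu.1.contDiffAt.comp c (h.sm c hc hc')).sub contDiffAt_const)

theorem U2_zero : U2 D u a b ξ 0 = 0 := by
  rw [U2, h.inv.zero, sub_self, map_zero]

theorem p1_small {ε : ℝ} (hε : 0 < ε) :
    ∀ᶠ q in 𝓝 (u 0), ‖p1 D (u 0) a b (q - u 0)‖ < ε ^ k := by
  have h1 : Continuous fun q => ‖p1 D (u 0) a b (q - u 0)‖ := by fun_prop
  refine h1.continuousAt.eventually (gt_mem_nhds ?_)
  simp only [sub_self, map_zero, norm_zero]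
  positivity

theorem zt_tendsto : Tendsto (zt D u k a b) (𝓝 0) (𝓝 0) := by
  have := h.lead.zt_c1.1.continuousAt.tendsto
  rwa [zt_zero] at this

theorem xi_tendsto : Tendsto ξ (𝓝 0) (𝓝 0) := by
  have := h.inv.ξc1.continuousAt.tendsto
  rwa [h.inv.zero] at this

theorem u_tendsto : Tendsto u (𝓝 0) (𝓝 (u 0)) := h.lead.cont.tendsto 0

theorem Fb_cont : ∀ᶠ q in 𝓝 (u 0), ContinuousAt (Fb D u k a b ξ) q := by
  filter_upwards [h.p1_small h.inv.pos] with q hq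
  exact ContinuousAt.comp
    (f := fun q => (p1 D (u 0) a b (q - u 0), p2 D (u 0) a b (q - u 0)))
    (continuousAt_Ph h.lead.k0 h.inv.pos h.U2_cont hq) (by fun_prop)

/-- the factors are smooth for a local root -/
theorem factor_smooth {q : R4} {c : ℂ} (hc : c ∈ ball (0 : ℂ) δ) (hc' : c ≠ 0 ∨ k = 1)
    {g : ℂ → ℂ} (hg : ContDiffAt ℝ ∞ g (p1 D (u 0) a b (q - u 0)))
    (hgc : g (p1 D (u 0) a b (q - u 0)) = c) {w : ℂ} (hw : w ∈ nthRootsFinset k (1 : ℂ)) :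
    ContDiffAt ℝ ∞ (fun q => p2 D (u 0) a b (q - u 0) -
      U2 D u a b ξ (w * g (p1 D (u 0) a b (q - u 0)))) q := by
  have h1 : ContDiffAt ℝ ∞ (fun q => w * g (p1 D (u 0) a b (q - u 0))) q :=
    contDiffAt_const.mul (ContDiffAt.comp (f := fun q => p1 D (u 0) a b (q - u 0)) q hg
      (by fun_prop))
  refine ContDiffAt.sub (by fun_prop) (ContDiffAt.comp (g := U2 D u a b ξ) q ?_ h1)
  rw [hgc]
  exact h.U2_smooth (h.rot hw hc).1 (hc'.imp_left (mul_ne_zero (h.rot hw hc).2))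

theorem Fb_smooth : ∀ᶠ q in 𝓝 (u 0), (Om D (u 0) (q - u 0) b ≠ 0 ∨ k = 1) →
    ContDiffAt ℝ ∞ (Fb D u k a b ξ) q := by
  filter_upwards [h.p1_small h.inv.pos] with q hq hq'
  obtain ⟨c, hc⟩ := IsAlgClosed.exists_pow_nat_eq (p1 D (u 0) a b (q - u 0)) h.lead.hk
  have hc' : c ≠ 0 ∨ k = 1 := hq'.imp_left fun h1 h2 => h1 (by
    rw [← p1_zero h.lead.hab, ← hc, h2, zero_pow h.lead.k0])
  obtain ⟨g, h1, h2, h3⟩ := exists_root h.lead.k0 hc'
  rw [hc] at h1 h2
  have e : Fb D u k a b ξ = fun q => ∏ w ∈ nthRootsFinset k (1 : ℂ), (p2 D (u 0) a b (q - u 0) -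
      U2 D u a b ξ (w * g (p1 D (u 0) a b (q - u 0)))) :=
    funext fun q => Ph_eq h.lead.k0 (h3 _) _
  rw [e]
  exact contDiffAt_prod fun w hw =>
    h.factor_smooth (norm_root_lt h.lead.k0 h.inv.pos hc hq) hc' h1 h2 hw

theorem Fb_vert {q : R4} (hq : Om D (u 0) (q - u 0) b = 0) :
    Fb D u k a b ξ q = p2 D (u 0) a b (q - u 0) ^ k := by
  rw [Fb, (p1_zero h.lead.hab).2 hq, Ph_eq h.lead.k0 (zero_pow h.lead.k0), Pt]
  simp only [mul_zero, h.U2_zero, sub_zero, Finset.prod_const]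
  rw [(Complex.isPrimitiveRoot_exp k h.lead.k0).card_nthRootsFinset]

theorem Fb_zero {ε : ℝ} (hε : 0 < ε) : ∀ᶠ q in 𝓝 (u 0), Fb D u k a b ξ q = 0 →
    ∃ t ∈ ball (0 : ℂ) ε, q = u t := by
  obtain ⟨δ', hδ', h1⟩ := Metric.eventually_nhds_iff_ball.1
    ((h.xi_tendsto.eventually (ball_mem_nhds 0 hε)).and (ball_mem_nhds (0 : ℂ) h.inv.pos))
  filter_upwards [h.p1_small hδ'] with q hq h0
  obtain ⟨c, h2, h3⟩ := Ph_zero h.lead.k0 h0
  obtain ⟨h4, h5⟩ := h1 c (norm_root_lt h.lead.k0 hδ' h2 hq)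
  refine ⟨ξ c, h4, ?_⟩
  have e : q - u (ξ c) = (q - u 0) - (u (ξ c) - u 0) := by abel
  have h6 : p1 D (u 0) a b (q - u (ξ c)) = 0 := by
    rw [e, map_sub, ← h.lead.zt_pow, h.inv.right c h5, h2, sub_self]
  have h7 := vert h.lead.hab h6
  rw [show p2 D (u 0) a b (q - u (ξ c)) = 0 by rw [e, map_sub, h3, U2, sub_self], cm_zero] at h7
  exact sub_eq_zero.1 h7

theorem Fb_u : ∀ᶠ t in 𝓝 (0 : ℂ), Fb D u k a b ξ (u t) = 0 := by
  filter_upwards [h.inv.left] with t ht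
  rw [Fb, Ph_eq h.lead.k0 (h.lead.zt_pow t), Pt_split _ h.lead.k0, U2, ht, sub_self, zero_mul]

theorem Z_ne : ∀ᶠ t in 𝓝[≠] (0 : ℂ), Om D (u 0) (u t - u 0) b ≠ 0 := by
  filter_upwards [h.lead.zt_ne] with t ht
  rw [Ne, ← p1_zero h.lead.hab, ← h.lead.zt_pow]
  exact pow_ne_zero _ ht

/-- the derivative along the branch -/
theorem Fb_deriv : ∀ᶠ t in 𝓝 (0 : ℂ), (t ≠ 0 ∨ k = 1) → ∃ f' : R4 →L[ℝ] ℂ,
    HasFDerivAt (Fb D u k a b ξ) (Hs D u k a b ξ t • f') (u t) ∧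
      ∀ v, ∃ η, v = fderiv ℝ u t η + cm D (u 0) (f' v) b := by
  filter_upwards [h.inv.left, h.zt_tendsto.eventually (ball_mem_nhds 0 h.inv.pos),
    eventually_nhdsWithin_iff.1 h.lead.zt_ne] with t h1 h2 h3 ht
  have hc' : zt D u k a b t ≠ 0 ∨ k = 1 := ht.imp_left h3
  obtain ⟨g, g1, g2, g3⟩ := exists_root h.lead.k0 hc'
  rw [h.lead.zt_pow] at g1 g2
  set r : R4 → ℂ := fun q => g (p1 D (u 0) a b (q - u 0)) with hr
  set f : R4 → ℂ := fun q => p2 D (u 0) a b (q - u 0) - U2 D u a b ξ (r q) with hf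
  set G : R4 → ℂ := fun q => ∏ w ∈ (nthRootsFinset k (1 : ℂ)).erase 1,
    (p2 D (u 0) a b (q - u 0) - U2 D u a b ξ (w * r q)) with hG
  have e : Fb D u k a b ξ = fun q => f q * G q :=
    funext fun q => (Ph_eq h.lead.k0 (g3 _) _).trans (Pt_split _ h.lead.k0 _ _)
  have hrt : r (u t) = zt D u k a b t := g2
  have df : DifferentiableAt ℝ f (u t) := by
    have := h.factor_smooth h2 hc' g1 g2 (one_mem_nthRootsFinset h.lead.hk)
    simp only [one_mul] at this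
    exact this.differentiableAt (by simp)
  have dG : DifferentiableAt ℝ G (u t) :=
    (contDiffAt_prod fun w hw => h.factor_smooth h2 hc' g1 g2
      (Finset.mem_of_mem_erase hw)).differentiableAt (by simp)
  have f0 : f (u t) = 0 := by simp only [hf, hrt, U2, h1, sub_self]
  have hrs : ContDiffAt ℝ ∞ r (u t) :=
    ContDiffAt.comp (f := fun q => p1 D (u 0) a b (q - u 0)) (u t) g1 (by fun_prop)
  have hσ : DifferentiableAt ℝ (fun q => ξ (r q)) (u t) :=
    (ContDiffAt.comp (u t) (by rw [hrt]; exact h.sm _ h2 hc') hrs).differentiableAt (by simp)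
  refine ⟨fderiv ℝ f (u t), ?_, fun v => ⟨fderiv ℝ (fun q => ξ (r q)) (u t) v, ?_⟩⟩
  · rw [e]
    refine (df.hasFDerivAt.mul dG.hasFDerivAt).congr_fderiv ?_
    ext v
    simp only [_root_.add_apply, _root_.smul_apply, f0, smul_eq_mul, zero_mul, zero_add]
    simp only [hG, hrt, Hs]
  have e1 : (fun q => q - u (ξ (r q))) =ᶠ[𝓝 (u t)] fun q => (cmB D (u 0)).flip b (f q) := by
    filter_upwards [hrs.continuousAt.eventually (isOpen_ball.mem_nhds (hrt ▸ h2))] with q hq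
    have e2 : q - u (ξ (r q)) = (q - u 0) - (u (ξ (r q)) - u 0) := by abel
    have h6 : p1 D (u 0) a b (q - u (ξ (r q))) = 0 := by
      rw [e2, map_sub, ← h.lead.zt_pow, h.inv.right _ hq, g3, sub_self]
    rw [ContinuousLinearMap.flip_apply, cmB_apply, vert h.lead.hab h6, e2, map_sub]
    rfl
  have e3 : HasFDerivAt u (fderiv ℝ u t) (ξ (r (u t))) := by
    rw [hrt, h1]
    exact (h.lead.hu.1.differentiable (by simp) t).hasFDerivAt
  have e4 := ((hasFDerivAt_id (u t)).sub (e3.comp (u t) hσ.hasFDerivAt)).unique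
    ((((cmB D (u 0)).flip b).hasFDerivAt.comp (u t) df.hasFDerivAt).congr_of_eventuallyEq e1)
  have e5 := DFunLike.congr_fun e4 v
  simp only [_root_.sub_apply, ContinuousLinearMap.comp_apply, ContinuousLinearMap.id_apply,
    ContinuousLinearMap.flip_apply, cmB_apply] at e5
  rw [← e5]
  abel

theorem Hs_cont : ∀ᶠ t in 𝓝 (0 : ℂ), ContinuousAt (Hs D u k a b ξ) t := by
  filter_upwards [h.zt_tendsto.eventually (ball_mem_nhds 0 h.inv.pos),
    h.lead.zt_c1.1.eventually (by simp)] with t h1 h2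
  refine tendsto_finsetProd _ fun w hw => ?_
  have h3 := h.lead.cont
  refine ContinuousAt.sub (by fun_prop) (ContinuousAt.comp (f := fun t => w * zt D u k a b t)
    (h.U2_cont.continuousAt (isOpen_ball.mem_nhds (h.rot (Finset.mem_of_mem_erase hw) h1).1))
    (continuousAt_const.mul h2.continuousAt))

/-- the vertical direction is transversal -/
theorem cone : ∀ᶠ t in 𝓝 (0 : ℂ), (t ≠ 0 ∨ k = 1) → ∀ s : ℂ,
    ‖k * t ^ (k - 1) * Om D (u 0) a b * s - Om D (u t) (fderiv ℝ u t 1) (cm D (u 0) s b)‖ ≤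
      1 / 4 * ‖Om D (u t) (fderiv ℝ u t 1) (cm D (u 0) s b)‖ := by
  have h1 := tendsto_PL h.lead (σ := fun z => z) contDiffAt_id rfl ne_ev
  have h2 : Tendsto (fun z => ‖OmL D (u z) (uh D u k z) - OmL D (u 0) a‖) (𝓝[≠] 0) (𝓝 0) := by
    simpa using (h1.sub_const (OmL D (u 0) a)).norm
  have hl : 0 < ‖Om D (u 0) a b‖ := norm_pos_iff.2 h.lead.hab
  set K := ‖(cmB D (u 0)).flip b‖ + 1 with hK
  have hK0 : 0 < K := by positivity
  have h3 := h2.eventually_le_const (show 0 < ‖Om D (u 0) a b‖ / (5 * K) by positivity)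
  filter_upwards [eventually_nhdsWithin_iff.1 h3] with y hy hy' s
  rcases eq_or_ne y 0 with rfl | hy0
  · have hk := hy'.resolve_left (by simp)
    rw [lead_d0 h.lead, if_pos hk, Om_cm, hk]
    simp only [Nat.cast_one, Nat.sub_self, pow_zero, one_mul, mul_comm s, sub_self, norm_zero]
    positivity
  have h4 : Om D (u 0) a b * s - OmL D (u y) (uh D u k y) (cm D (u 0) s b) =
      -(OmL D (u y) (uh D u k y) - OmL D (u 0) a) (cm D (u 0) s b) := by
    rw [_root_.sub_apply, OmL_apply D (u 0) a, Om_cm]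
    ring
  have h5 : ‖cm D (u 0) s b‖ ≤ K * ‖s‖ := by
    have := ((cmB D (u 0)).flip b).le_opNorm s
    rw [ContinuousLinearMap.flip_apply, cmB_apply] at this
    nlinarith [norm_nonneg s]
  have h6 : ‖Om D (u 0) a b * s - OmL D (u y) (uh D u k y) (cm D (u 0) s b)‖ ≤
      1 / 5 * ‖Om D (u 0) a b * s‖ := by
    rw [h4, norm_neg, norm_mul]
    calc _ ≤ ‖OmL D (u y) (uh D u k y) - OmL D (u 0) a‖ * ‖cm D (u 0) s b‖ :=
          ContinuousLinearMap.le_opNorm _ _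
      _ ≤ ‖Om D (u 0) a b‖ / (5 * K) * (K * ‖s‖) := by gcongr; exact hy hy0
      _ = _ := by field_simp
  rw [h.lead.T_eq hy0, cm_Om, ← OmL_apply D (u y), mul_assoc _ _ s, ← mul_sub, norm_mul (_ * _),
    norm_mul (_ * _), mul_left_comm]
  gcongr
  have h7 := norm_sub_norm_le (Om D (u 0) a b * s) (OmL D (u y) (uh D u k y) (cm D (u 0) s b))
  linarith

end Bd

end Vale.Agent.P247C.Lo
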