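import Vale.Agent.P247C.Lb

/-!
# P247, block C: winding numbers of the defining function along branches
-/

set_option linter.all false

open scoped ContDiff Topology
open Set MeasureTheory Filter Metric Asymptotics Polynomial

noncomputable section

namespace Vale.Agent.P247C.Lo

open Vale.Agent.P247.H74 Vale.Agent.P247.H74.CE Vale.Agent.P247.H58.LW
open Vale.Agent.P247.H74.CE.Lead (uh zt zt_zero)

theorem ev_of_pow {K : ℕ} (hK : 1 ≤ K) {P : ℂ → Prop} (h : ∀ᶠ τ in 𝓝[≠] (0 : ℂ), P (τ ^ K)) :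
    ∀ᶠ t in 𝓝[≠] (0 : ℂ), P t := by
  obtain ⟨ε, hε, h1⟩ := Metric.eventually_nhds_iff_ball.1 (eventually_nhdsWithin_iff.1 h)
  filter_upwards [nhdsWithin_le_nhds (ball_mem_nhds (0 : ℂ) (pow_pos hε K)), ne_ev] with t h2 h3
  obtain ⟨τ, rfl⟩ := IsAlgClosed.exists_pow_nat_eq t hK
  refine h1 τ (norm_root_lt (by omega) hε rfl (mem_ball_zero_iff.1 h2)) fun h4 => h3 ?_
  rw [show τ = 0 from h4, zero_pow (by omega)]

theorem wind_uniq {f : ℂ → ℂ} {m n : ℤ} (h1 : ∀ᶠ ρ in 𝓝[>] (0 : ℝ), HasWinding f 0 ρ m)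
    (h2 : ∀ᶠ ρ in 𝓝[>] (0 : ℝ), HasWinding f 0 ρ n) : m = n := by
  obtain ⟨ρ, e1, e2, e3⟩ := (h1.and (h2.and self_mem_nhdsWithin)).exists
  exact WWIND.W1 f 0 ρ m n e3 e1 e2

theorem roots_one : nthRootsFinset 1 (1 : ℂ) = {1} := by
  ext w
  rw [mem_nthRootsFinset one_pos, pow_one, Finset.mem_singleton]

variable {D : Data} {u v : ℂ → R4} {k kl : ℕ} {a al b : R4} {ξ : ℂ → ℂ} {δ : ℝ} {κ : ℂ}

theorem exists_pair (h : Bd D u k a b ξ δ) (hl : LeadL D v kl al b) (h0 : v 0 = u 0) :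
    ∃ κ, PairD D v u kl k al a b ξ δ κ := by
  obtain ⟨κ, hκ⟩ := IsAlgClosed.exists_pow_nat_eq (Om D (u 0) al b / Om D (u 0) a b) h.lead.hk
  exact ⟨κ, hl, h.lead, h0, h.inv, hκ⟩

theorem Fb_pow (h : PairD D v u kl k al a b ξ δ κ) (τ : ℂ) : Fb D u k a b ξ (v (τ ^ k)) =
    ∏ w ∈ nthRootsFinset k (1 : ℂ), nn D v u kl k al a b ξ κ w τ := by
  rw [Fb, Ph_eq h.hj.k0 (h.Phi_pow τ), Pt]
  exact Finset.prod_congr rfl fun w _ => (PairD.nn_eq w τ).symm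

theorem nn_lead (h : PairD D v u kl k al a b ξ δ κ) {w : ℂ} (hw : w ^ k = 1) {m₀ : ℕ}
    (hO : (nn D v u kl k al a b ξ κ w) =O[𝓝[≠] 0] fun τ : ℂ => τ ^ m₀)
    (hne : ∃ᶠ τ in 𝓝[≠] (0 : ℂ), nn D v u kl k al a b ξ κ w τ ≠ 0) :
    ∃ m : ℕ, m₀ ≤ m ∧ (∀ᶠ τ in 𝓝[≠] (0 : ℂ), nn D v u kl k al a b ξ κ w τ ≠ 0) ∧
      ∀ᶠ R in 𝓝[>] (0 : ℝ), HasWinding (nn D v u kl k al a b ξ κ w) 0 R m := by
  have hw0 := h.root_ne hw
  have e0 : v (0 ^ k) = u 0 := by rw [zero_pow h.hj.k0, h.h0]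
  obtain ⟨m, A, hm, hA, ho⟩ := cross_exp2 h.hj (h.sw_c1 w) (h.sw_zero w) (h.sw_ne hw0)
    (u' := fun τ => v (τ ^ k)) (h.hl.pow h.hj.hk).hu e0 (h.nn_cl hw0) hO (h.nn_diff hw) hne
  exact ⟨m, hm, ne_of_lead hA ho, WWIND.W6 _ 0 A (m : ℤ) hA
    ((h.nn_cl hw0).c1.mono fun z hz => hz.continuousAt) (by simpa using ho)⟩

/-- a second branch lies in the first one, or meets it in an isolated point -/
theorem pair_dich (h : Bd D u k a b ξ δ) (hl : LeadL D v kl al b) (h0 : v 0 = u 0) :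
    (∀ᶠ t in 𝓝[≠] (0 : ℂ), Fb D u k a b ξ (v t) ≠ 0) ∨
      ∀ ε > 0, ∀ᶠ t in 𝓝 (0 : ℂ), ∃ s ∈ ball (0 : ℂ) ε, v t = u s := by
  obtain ⟨κ, hp⟩ := exists_pair h hl h0
  have hS : ∀ w ∈ nthRootsFinset k (1 : ℂ), w ^ k = 1 := fun w hw =>
    (mem_nthRootsFinset h.lead.hk 1).1 hw
  by_cases hc : ∀ w ∈ nthRootsFinset k (1 : ℂ),
      ∃ᶠ τ in 𝓝[≠] (0 : ℂ), nn D v u kl k al a b ξ κ w τ ≠ 0
  · refine Or.inl (ev_of_pow h.lead.hk ?_)
    have h1 : ∀ᶠ τ in 𝓝[≠] (0 : ℂ), ∀ w ∈ nthRootsFinset k (1 : ℂ),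
        nn D v u kl k al a b ξ κ w τ ≠ 0 := by
      rw [Filter.eventually_all_finset]
      exact fun w hw =>
        (nn_lead hp (hS w hw) (hp.nn_O (hp.root_ne (hS w hw))) (hc w hw)).choose_spec.2.1
    filter_upwards [h1] with τ hτ
    rw [Fb_pow hp]
    exact Finset.prod_ne_zero_iff.2 hτ
  push Not at hc
  obtain ⟨w, hw, h1⟩ := hc
  have h2 : ∀ᶠ t in 𝓝[≠] (0 : ℂ), Fb D u k a b ξ (v t) = 0 := by
    refine ev_of_pow h.lead.hk ?_
    filter_upwards [h1] with τ hτ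
    rw [Fb_pow hp]
    exact Finset.prod_eq_zero hw hτ
  refine Or.inr fun ε hε => ?_
  have h3 : Tendsto v (𝓝 0) (𝓝 (u 0)) := h0 ▸ hl.cont.tendsto 0
  filter_upwards [eventually_nhdsWithin_iff.1 h2, h3.eventually (h.Fb_zero hε)] with t e1 e2
  rcases eq_or_ne t 0 with rfl | ht
  · exact ⟨0, mem_ball_self hε, h0⟩
  · exact e2 (e1 ht)

theorem sq_O : (fun z : ℂ => ‖z‖ ^ ((1 : ℕ) + 1 : ℤ)) =O[𝓝[≠] 0] fun z : ℂ => z ^ 2 :=
  IsBigO.of_bound 1 (Eventually.of_forall fun τ => by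
    rw [show ((1 : ℕ) + 1 : ℤ) = (2 : ℕ) by rfl, zpow_natCast, norm_pow, norm_norm, norm_pow,
      one_mul])

theorem one_one (h : PairD D v u 1 1 al a b ξ δ κ) :
    (fun τ => nn D v u 1 1 al a b ξ κ 1 τ - (Om D (u 0) a b)⁻¹ * Om D (u 0) a al * τ)
      =O[𝓝[≠] 0] fun τ : ℂ => τ ^ 2 := by
  have e1 := (h.hl.rem0.clm (p2 D (u 0) a b)).bd.trans sq_O
  have e2 := h.comp_sw_O one_ne_zero (q := 1 + 1) (g := fun z => p2 D (u 0) a b (u z - u 0)) (by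
    have := h.hj.u2_cl.bd
    exact_mod_cast this)
  refine (e1.sub e2).congr_left fun τ => ?_
  rw [PairD.nn_eq, h.h0, map_sub, pow_one, p2_apply D (u 0) a b (cm _ _ _ _), Om_cm]
  ring

/-- the intersection number of two branches -/
theorem pair_wind (h : Bd D u k a b ξ δ) (hl : LeadL D v kl al b) (h0 : v 0 = u 0)
    (hne : ∀ᶠ t in 𝓝[≠] (0 : ℂ), Fb D u k a b ξ (v t) ≠ 0) :
    ∃ I : ℕ, kl * k ≤ I ∧
      (∀ᶠ ρ in 𝓝[>] (0 : ℝ), HasWinding (fun t => Fb D u k a b ξ (v t)) 0 ρ I) ∧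
      (kl = 1 → k = 1 → (I = 1 ↔ Om D (u 0) a al ≠ 0)) := by
  obtain ⟨κ, hp⟩ := exists_pair h hl h0
  have hk := h.lead.hk
  have hS : ∀ w ∈ nthRootsFinset k (1 : ℂ), w ^ k = 1 := fun w hw =>
    (mem_nthRootsFinset hk 1).1 hw
  have h1 : ∀ w ∈ nthRootsFinset k (1 : ℂ),
      ∃ᶠ τ in 𝓝[≠] (0 : ℂ), nn D v u kl k al a b ξ κ w τ ≠ 0 := fun w hw => by
    refine Eventually.frequently ?_
    filter_upwards [(pow_tendsto hk).eventually hne] with τ hτ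
    rw [Fb_pow hp] at hτ
    exact Finset.prod_ne_zero_iff.1 hτ w hw
  have h2 := fun w hw => nn_lead hp (hS w hw) (hp.nn_O (hp.root_ne (hS w hw))) (h1 w hw)
  choose! m h2 using h2
  have h3 : Tendsto v (𝓝 0) (𝓝 (u 0)) := h0 ▸ hl.cont.tendsto 0
  obtain ⟨n, h4, h5⟩ := wind_root (H := fun t => Fb D u k a b ξ (v t)) hk
    (M := ∑ w ∈ nthRootsFinset k (1 : ℂ), (m w : ℤ)) (by
      filter_upwards [hne, nhdsWithin_le_nhds (h3.eventually h.Fb_cont)] with t e1 e2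
      exact ⟨e2.comp hl.cont.continuousAt, e1⟩) (by
      filter_upwards [(Filter.eventually_all_finset _).2 fun w hw => (h2 w hw).2.2,
        self_mem_nhdsWithin] with R e1 e2
      exact wind_congr (wind_prod _ _ _ e2 e1) fun τ _ => (Fb_pow hp τ).symm)
  have h6 : (k : ℤ) * (kl * k) ≤ k * n := by
    rw [h4]
    have := Finset.card_nsmul_le_sum (nthRootsFinset k (1 : ℂ)) (fun w => (m w : ℤ)) (kl * k)
      fun w hw => by exact_mod_cast (h2 w hw).1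
    rwa [(Complex.isPrimitiveRoot_exp k h.lead.k0).card_nthRootsFinset, nsmul_eq_mul] at this
  have h7 : (kl * k : ℤ) ≤ n := le_of_mul_le_mul_left h6 (by omega)
  lift n to ℕ using le_trans (by positivity) h7
  refine ⟨n, by exact_mod_cast h7, h5, ?_⟩
  rintro rfl rfl
  have e : (fun t => Fb D u 1 a b ξ (v t)) = nn D v u 1 1 al a b ξ κ 1 := by
    funext t
    have := Fb_pow hp t
    rwa [pow_one, roots_one, Finset.prod_singleton] at this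
  rw [e] at h5
  have h8 := one_one hp
  by_cases hA : Om D (u 0) a al = 0
  · simp only [hA, mul_zero, zero_mul, sub_zero] at h8
    obtain ⟨m', e1, -, e2⟩ := nn_lead hp (one_pow 1) h8 (h1 1 (one_mem_nthRootsFinset hk))
    have := wind_uniq h5 e2
    simp only [hA, ne_eq, not_true_eq_false, iff_false]
    omega
  · have e2 := WWIND.W6 (nn D v u 1 1 al a b ξ κ 1) 0 _ 1
      (mul_ne_zero (inv_ne_zero h.lead.hab) hA)
      ((hp.nn_cl one_ne_zero).c1.mono fun z hz => hz.continuousAt) (by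
        simp only [sub_zero, zpow_one]
        exact h8.trans_isLittleO ((isLittleO_pow_id one_lt_two).mono nhdsWithin_le_nhds))
    have := wind_uniq h5 e2
    simp only [hA, ne_eq, not_false_eq_true, iff_true]
    omega

/-- the contribution of the other sheets of the branch -/
theorem self_wind (h : Bd D u k a b ξ δ)
    (hinj : ∃ ε > 0, ∀ z ∈ ball (0 : ℂ) ε, ∀ w ∈ ball (0 : ℂ) ε, u z = u w → z = w) :
    ∃ n : ℕ, (k - 1) * (k + 1) ≤ n ∧ (∀ᶠ t in 𝓝[≠] (0 : ℂ), Hs D u k a b ξ t ≠ 0) ∧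
      ∀ᶠ ρ in 𝓝[>] (0 : ℝ), HasWinding (Hs D u k a b ξ) 0 ρ n := by
  have hk : 1 ≤ k := h.lead.hk
  have hp := selfPair h.lead h.inv
  obtain ⟨ε, hε, hinj⟩ := hinj
  set R₀ := (nthRootsFinset k (1 : ℂ)).erase 1 with hR₀
  have hS : ∀ w ∈ R₀, w ^ k = 1 ∧ w ≠ 1 := by
    intro w hw
    rw [hR₀, Finset.mem_erase, mem_nthRootsFinset hk] at hw
    exact ⟨hw.2, hw.1⟩
  have hne : ∀ w ∈ R₀, ∀ᶠ τ in 𝓝[≠] (0 : ℂ), nn D u u k k a a b ξ 1 w τ ≠ 0 := by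
    intro w hw
    have hw0 := hp.root_ne (hS w hw).1
    have e1 : ∀ᶠ τ in 𝓝[≠] (0 : ℂ), τ ^ k ∈ ball (0 : ℂ) ε :=
      nhdsWithin_le_nhds ((pow_tendsto' hk).eventually (ball_mem_nhds 0 hε))
    have e2 : ∀ᶠ τ in 𝓝[≠] (0 : ℂ), PairD.sw D u k k a b ξ 1 w τ ∈ ball (0 : ℂ) ε :=
      (hp.sw_tendsto hw0).eventually (nhdsWithin_le_nhds (ball_mem_nhds 0 hε))
    filter_upwards [e1, e2, nhdsWithin_le_nhds (hp.nn_diff (hS w hw).1), hp.Phi_ne,
      nhdsWithin_le_nhds (hp.wPhi_small w)] with τ e1 e2 e3 e4 e5 e6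
    rw [e6, cm_zero, sub_eq_zero] at e3
    have e7 := hinj _ e1 _ e2 e3
    have e8 : zt D u k a b (PairD.sw D u k k a b ξ 1 w τ) = w * Phi D u k k a b 1 τ :=
      h.inv.right _ e5
    rw [← e7, ← Phi_self h.lead] at e8
    have e9 : (1 - w) * Phi D u k k a b 1 τ = 0 := by linear_combination e8
    rcases mul_eq_zero.1 e9 with e10 | e10
    · exact (hS w hw).2 (sub_eq_zero.1 e10).symm
    · exact e4 e10
  have hO : ∀ w ∈ R₀, (nn D u u k k a a b ξ 1 w) =O[𝓝[≠] 0] fun τ : ℂ => τ ^ (k * (k + 1)) := by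
    intro w hw
    have hw0 := hp.root_ne (hS w hw).1
    have e1 : (fun τ => p2 D (u 0) a b (u (τ ^ k) - u 0)) =O[𝓝[≠] 0]
        fun τ : ℂ => τ ^ (k * (k + 1)) := by
      refine (cl_compPow h.lead.u2_cl hk).bd.trans
        (IsBigO.of_bound 1 (Eventually.of_forall fun τ => ?_))
      have : (k : ℤ) * ((k : ℤ) + 1) = ((k * (k + 1) : ℕ) : ℤ) := by push_cast; ring
      rw [this, zpow_natCast, norm_pow, norm_norm, norm_pow, one_mul]
    have e2 := hp.comp_sw_O hw0 (q := k + 1) (g := fun z => p2 D (u 0) a b (u z - u 0)) (by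
      have := h.lead.u2_cl.bd
      exact_mod_cast this)
    refine (e1.sub e2).congr_left fun τ => ?_
    exact (PairD.nn_eq w τ).symm
  have h2 := fun w hw => nn_lead hp (hS w hw).1 (hO w hw) (hne w hw).frequently
  choose! m h2 using h2
  have e : ∀ τ, Hs D u k a b ξ (τ ^ k) = ∏ w ∈ R₀, nn D u u k k a a b ξ 1 w τ := fun τ =>
    Finset.prod_congr rfl fun w _ => by
      rw [PairD.nn_eq, ← Phi_self h.lead]
      rfl
  have h3 : ∀ᶠ t in 𝓝[≠] (0 : ℂ), Hs D u k a b ξ t ≠ 0 := by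
    refine ev_of_pow hk ?_
    filter_upwards [(Filter.eventually_all_finset _).2 hne] with τ hτ
    rw [e]
    exact Finset.prod_ne_zero_iff.2 hτ
  obtain ⟨n, h4, h5⟩ := wind_root (H := Hs D u k a b ξ) hk (M := ∑ w ∈ R₀, (m w : ℤ))
    ((h.Hs_cont.filter_mono nhdsWithin_le_nhds).and h3) (by
      filter_upwards [(Filter.eventually_all_finset _).2 fun w hw => (h2 w hw).2.2,
        self_mem_nhdsWithin] with R e1 e2
      exact wind_congr (wind_prod _ _ _ e2 e1) fun τ _ => (e τ).symm)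
  have h6 : (k : ℤ) * (((k - 1 : ℕ) : ℤ) * (k + 1)) ≤ k * n := by
    rw [h4]
    have := Finset.card_nsmul_le_sum R₀ (fun w => (m w : ℤ)) (k * (k + 1))
      fun w hw => by exact_mod_cast (h2 w hw).1
    rw [hR₀, card_roots h.lead.k0, nsmul_eq_mul] at this
    exact le_trans (le_of_eq (by ring)) this
  have h7 := le_of_mul_le_mul_left h6 (by omega)
  lift n to ℕ using le_trans (by positivity) h7
  exact ⟨n, by exact_mod_cast h7, h3, h5⟩

end Vale.Agent.P247C.Lo
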