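import Vale.Agent.P247C.Lc

/-!
# P247, block C: the defining function of a family of branches in `ℝ⁴`
-/

set_option linter.all false

open scoped ContDiff Topology
open Set MeasureTheory Filter Metric Asymptotics Polynomial

noncomputable section

namespace Vale.Agent.P247C.Lo

open Vale.Agent.P247.H74 Vale.Agent.P247.H74.CE Vale.Agent.P247.H58.LW
open Vale.Agent.P247.H74.CE.Lead (uh zt zt_zero)

/-- smoothing along the vertical line -/
theorem smoothing {S : R4 → ℂ} {x : R4} {Z Y : R4 →L[ℝ] ℂ} {M : ℕ}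
    (hP : ∀ v, Z v = 0 → Y v = 0 → v = 0) {W : Set R4} (hW : W ∈ 𝓝 x)
    (hc : ∀ q ∈ W, ContinuousAt S q) (hv : ∀ q, Z (q - x) = 0 → S q = Y (q - x) ^ M) :
    ∃ (B Δ : Set R4) (S' : R4 → ℂ), IsOpen B ∧ IsCompact Δ ∧ Δ ⊆ B ∧ x ∈ Δ ∧ B ⊆ W ∧
      (∀ q ∈ Δ, Z (q - x) = 0) ∧ (∀ q, ContDiffAt ℝ ∞ S q → ContDiffAt ℝ ∞ S' q) ∧
      (∀ q, q ∉ Δ → Z (q - x) = 0 → ContDiffAt ℝ ∞ S' q) ∧ (∀ q ∈ B, S' q = 0 ↔ S q = 0) ∧
      ∀ q ∈ B, S q = 0 → S' =ᶠ[𝓝 q] S := by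
  obtain ⟨K, hK, hA⟩ := LinearMap.exists_antilipschitzWith
    ((Z.prod Y : R4 →L[ℝ] ℂ × ℂ) : R4 →ₗ[ℝ] ℂ × ℂ) (LinearMap.ker_eq_bot'.2 fun v h =>
      hP v (Prod.ext_iff.1 h).1 (Prod.ext_iff.1 h).2)
  obtain ⟨ε, hε, hW'⟩ := Metric.nhds_basis_closedBall.mem_iff.1 hW
  have hK0 : (0 : ℝ) < K := hK
  set r := ε / (2 * K) with hr
  have hr0 : 0 < r := by positivity
  have h1 : ∀ q, ‖Z (q - x)‖ ≤ r → ‖Y (q - x)‖ ≤ 2 * r → q ∈ closedBall x ε := by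
    intro q e1 e2
    have e3 := hA.le_mul_norm (map_zero _) (q - x)
    have e4 : ‖((Z.prod Y : R4 →L[ℝ] ℂ × ℂ) : R4 →ₗ[ℝ] ℂ × ℂ) (q - x)‖ ≤ 2 * r :=
      norm_prod_le_iff.2 ⟨e1.trans (by linarith), e2⟩
    rw [mem_closedBall, dist_eq_norm]
    refine e3.trans ((mul_le_mul_of_nonneg_left e4 hK0.le).trans (le_of_eq ?_))
    rw [hr]
    field_simp
  have cZ : Continuous fun q => ‖Z (q - x)‖ := by fun_prop
  have cY : Continuous fun q => ‖Y (q - x)‖ := by fun_prop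
  set C := {q | ‖Z (q - x)‖ ≤ r} ∩ {q | r / 2 ≤ ‖Y (q - x)‖} ∩ {q | ‖Y (q - x)‖ ≤ 2 * r} with hC
  have hCc : IsClosed C := ((isClosed_le cZ continuous_const).inter
    (isClosed_le continuous_const cY)).inter (isClosed_le cY continuous_const)
  have hCs : C ⊆ closedBall x ε := fun q hq => h1 q hq.1.1 hq.2
  have h2 : IsClosed {q ∈ C | ‖Y (q - x) ^ M‖ ≤ ‖S q - Y (q - x) ^ M‖} :=
    hCc.isClosed_le (by fun_prop) fun q hq =>
      (((hc q (hW' (hCs hq))).sub (by fun_prop)).norm).continuousWithinAt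
  obtain ⟨η, hη, h3⟩ := exists_pos_lb ((isCompact_closedBall x ε).of_isClosed_subset h2
    fun q hq => hCs hq.1) cZ.continuousOn (fun q hq => norm_pos_iff.2 fun h0 => by
      have e1 := hq.2
      rw [hv q h0, sub_self, norm_zero, norm_pow] at e1
      have e2 : 0 < ‖Y (q - x)‖ := lt_of_lt_of_le (half_pos hr0) hq.1.1.2
      exact absurd (pow_pos e2 M) (not_lt.2 e1))
  let χ : ContDiffBump (0 : ℂ) := ⟨r / 2, r, half_pos hr0, half_lt_self hr0⟩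
  set S' : R4 → ℂ := fun q => Y (q - x) ^ M + (χ (Y (q - x)) : ℂ) * (S q - Y (q - x) ^ M) with hS'
  set B := {q | ‖Z (q - x)‖ < min η r} ∩ {q | ‖Y (q - x)‖ < 2 * r} with hB
  have h4 : ∀ q ∈ B, r / 2 ≤ ‖Y (q - x)‖ → ‖S q - Y (q - x) ^ M‖ < ‖Y (q - x) ^ M‖ := by
    intro q hq e1
    by_contra e2
    have e3 : ‖Z (q - x)‖ < min η r := hq.1
    have e4 : ‖Y (q - x)‖ < 2 * r := hq.2
    have e5 : q ∈ C := ⟨⟨(lt_min_iff.1 e3).2.le, e1⟩, e4.le⟩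
    exact absurd (h3 q ⟨e5, not_lt.1 e2⟩) (not_le.2 (lt_min_iff.1 e3).1)
  have h5 : ∀ q, ‖Y (q - x)‖ < r / 2 → S' =ᶠ[𝓝 q] S := fun q hq => by
    filter_upwards [cY.continuousAt.eventually (gt_mem_nhds hq)] with q' hq'
    simp only [hS']
    rw [χ.one_of_mem_closedBall (mem_closedBall_zero_iff.2 hq'.le)]
    simp
  have h6 : ∀ q ∈ B, S q = 0 → ‖Y (q - x)‖ < r / 2 := fun q hq h0 => by
    by_contra e1
    have := h4 q hq (not_lt.1 e1)
    rw [h0, zero_sub, norm_neg] at this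
    exact lt_irrefl _ this
  have sY : ContDiff ℝ ∞ fun q => Y (q - x) := by fun_prop
  refine ⟨B, {q | Z (q - x) = 0} ∩ {q | ‖Y (q - x)‖ ≤ r}, S',
    (isOpen_lt cZ continuous_const).inter (isOpen_lt cY continuous_const), ?_, fun q hq => ?_,
    ⟨by simp, by simp [hr0.le]⟩, fun q hq => hW' (h1 q (lt_min_iff.1 hq.1).2.le (le_of_lt hq.2)),
    fun q hq => hq.1, fun q hq => ?_, fun q hq h0 => ?_, fun q hq => ⟨fun h0 => ?_, fun h0 => ?_⟩,
    fun q hq h0 => h5 q (h6 q hq h0)⟩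
  · refine (isCompact_closedBall x ε).of_isClosed_subset ((isClosed_eq (by fun_prop)
      continuous_const).inter (isClosed_le cY continuous_const)) fun q hq => h1 q ?_ ?_
    · rw [show Z (q - x) = 0 from hq.1, norm_zero]; exact hr0.le
    · exact le_trans hq.2 (by linarith)
  · refine ⟨?_, lt_of_le_of_lt (b := r) hq.2 (by linarith)⟩
    show ‖Z (q - x)‖ < _
    rw [show Z (q - x) = 0 from hq.1, norm_zero]
    exact lt_min hη hr0
  · exact (sY.contDiffAt.pow M).add (((Complex.ofRealCLM.contDiff.comp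
      (χ.contDiff.comp sY)).contDiffAt).mul (hq.sub (sY.contDiffAt.pow M)))
  · have e1 : r < ‖Y (q - x)‖ := not_le.1 fun e => hq ⟨h0, e⟩
    refine (sY.contDiffAt.pow M).congr_of_eventuallyEq ?_
    filter_upwards [cY.continuousAt.eventually (lt_mem_nhds e1)] with q' hq'
    simp only [hS']
    rw [χ.zero_of_le_dist (by rw [dist_zero_right]; exact hq'.le)]
    simp
  · by_cases e1 : ‖Y (q - x)‖ < r / 2
    · exact (h5 q e1).self_of_nhds.symm.trans h0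
    have e2 := h4 q hq (not_lt.1 e1)
    rw [eq_neg_of_add_eq_zero_left h0, norm_neg, norm_mul, Complex.norm_real,
      Real.norm_of_nonneg χ.nonneg] at e2
    rw [← eq_neg_of_add_eq_zero_left h0] at e2
    have e3 : χ (Y (q - x)) ≤ 1 := χ.le_one
    nlinarith [norm_nonneg (S q - Y (q - x) ^ M)]
  · exact (h5 q (h6 q hq h0)).self_of_nhds.trans h0

/-- a family of branches through `x` with a common transversal direction -/
structure Fam (D : Data) (x : R4) {N : ℕ} (U : Fin N → ℂ → R4) (k : Fin N → ℕ) (a : Fin N → R4)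
    (b : R4) (ξ : Fin N → ℂ → ℂ) (δ : Fin N → ℝ) : Prop where
  pos : 0 < N
  bd : ∀ l, Bd D (U l) (k l) (a l) b (ξ l) (δ l)
  zero : ∀ l, U l 0 = x
  inj : ∃ ε > 0, ∀ l l', ∀ z ∈ ball (0 : ℂ) ε, ∀ z' ∈ ball (0 : ℂ) ε, U l z = U l' z' →
    (l = l' ∧ z = z') ∨ (z = 0 ∧ z' = 0)

section
variable (D : Data) (x : R4) {N : ℕ} (U : Fin N → ℂ → R4) (k : Fin N → ℕ) (a : Fin N → R4)
  (b : R4) (ξ : Fin N → ℂ → ℂ)

/-- the defining function -/
def SS (q : R4) : ℂ := ∏ l, Fb D (U l) (k l) (a l) b (ξ l) q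

/-- the other factors -/
def GG (l : Fin N) (q : R4) : ℂ := ∏ j ∈ Finset.univ.erase l, Fb D (U j) (k j) (a j) b (ξ j) q

/-- the normalising factor -/
def cc (l : Fin N) (t : ℂ) : ℂ := k l * t ^ (k l - 1) * Om D x (a l) b /
  (GG D U k a b ξ l (U l t) * Hs D (U l) (k l) (a l) b (ξ l) t)

end

/-- one immersed branch -/
def Imm {N : ℕ} (U : Fin N → ℂ → R4) : Prop := N = 1 ∧ ∀ l, fderiv ℝ (U l) 0 1 ≠ 0

namespace Fam

variable {D : Data} {x : R4} {N : ℕ} {U : Fin N → ℂ → R4} {k : Fin N → ℕ} {a : Fin N → R4}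
  {b : R4} {ξ : Fin N → ℂ → ℂ} {δ : Fin N → ℝ} (h : Fam D x U k a b ξ δ)
include h

theorem hab (l : Fin N) : Om D x (a l) b ≠ 0 := h.zero l ▸ (h.bd l).lead.hab

theorem k_one (l : Fin N) : fderiv ℝ (U l) 0 1 ≠ 0 ↔ k l = 1 := by
  rw [lead_d0 (h.bd l).lead]
  split_ifs with hk
  · simp [hk, (h.bd l).lead.a_ne]
  · simp [hk]

theorem tend (l : Fin N) : Tendsto (U l) (𝓝 0) (𝓝 x) := h.zero l ▸ (h.bd l).u_tendsto

theorem cont : ∀ᶠ q in 𝓝 x, ∀ l, ContinuousAt (Fb D (U l) (k l) (a l) b (ξ l)) q :=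
  eventually_all.2 fun l => h.zero l ▸ (h.bd l).Fb_cont

theorem SS_cont : ∀ᶠ q in 𝓝 x, ContinuousAt (SS D U k a b ξ) q :=
  h.cont.mono fun _ hq => tendsto_finsetProd _ fun l _ => hq l

theorem smooth : ∀ᶠ q in 𝓝 x, (Om D x (q - x) b ≠ 0 ∨ Imm U) →
    ∀ l, ContDiffAt ℝ ∞ (Fb D (U l) (k l) (a l) b (ξ l)) q := by
  have h1 : ∀ l, ∀ᶠ q in 𝓝 x, (Om D x (q - x) b ≠ 0 ∨ k l = 1) →
      ContDiffAt ℝ ∞ (Fb D (U l) (k l) (a l) b (ξ l)) q := fun l => h.zero l ▸ (h.bd l).Fb_smooth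
  filter_upwards [eventually_all.2 h1] with q hq hq' l
  exact hq l (hq'.imp_right fun e => (h.k_one l).1 (e.2 l))

theorem SS_smooth : ∀ᶠ q in 𝓝 x, (Om D x (q - x) b ≠ 0 ∨ Imm U) →
    ContDiffAt ℝ ∞ (SS D U k a b ξ) q :=
  h.smooth.mono fun _ hq hq' => contDiffAt_prod fun l _ => hq hq' l

theorem SS_vert {a₀ : R4} (ha : Om D x a₀ b ≠ 0) {q : R4} (hq : Om D x (q - x) b = 0) :
    SS D U k a b ξ q = p2 D x a₀ b (q - x) ^ (∑ l, k l) := by
  rw [SS, ← Finset.prod_pow_eq_pow_sum]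
  refine Finset.prod_congr rfl fun l _ => ?_
  rw [(h.bd l).Fb_vert (by rw [h.zero l]; exact hq), h.zero l]
  conv_lhs => rw [vert ha ((p1_zero ha).2 hq), p2_b D x _ b (h.hab l)]

theorem SS_zero {ε : ℝ} (hε : 0 < ε) : ∀ᶠ q in 𝓝 x, SS D U k a b ξ q = 0 →
    ∃ l, ∃ t ∈ ball (0 : ℂ) ε, q = U l t := by
  have h1 : ∀ l, ∀ᶠ q in 𝓝 x, Fb D (U l) (k l) (a l) b (ξ l) q = 0 →
      ∃ t ∈ ball (0 : ℂ) ε, q = U l t := fun l => h.zero l ▸ (h.bd l).Fb_zero hε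
  filter_upwards [eventually_all.2 h1] with q hq h0
  obtain ⟨l, -, hl⟩ := Finset.prod_eq_zero_iff.1 h0
  exact ⟨l, hq l hl⟩

theorem SS_u (l : Fin N) : ∀ᶠ t in 𝓝 (0 : ℂ), SS D U k a b ξ (U l t) = 0 :=
  (h.bd l).Fb_u.mono fun _ ht => Finset.prod_eq_zero (Finset.mem_univ l) ht

theorem Z_ne (l : Fin N) : ∀ᶠ t in 𝓝[≠] (0 : ℂ), Om D x (U l t - x) b ≠ 0 :=
  h.zero l ▸ (h.bd l).Z_ne

theorem cross_ne {l j : Fin N} (hj : j ≠ l) :
    ∀ᶠ t in 𝓝[≠] (0 : ℂ), Fb D (U j) (k j) (a j) b (ξ j) (U l t) ≠ 0 := by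
  obtain ⟨ε, hε, hi⟩ := h.inj
  have h1 := (h.bd j).Fb_zero hε
  rw [h.zero j] at h1
  filter_upwards [nhdsWithin_le_nhds ((h.tend l).eventually h1),
    nhdsWithin_le_nhds (ball_mem_nhds (0 : ℂ) hε), ne_ev] with t e1 e2 e3 e4
  obtain ⟨s, e5, e6⟩ := e1 e4
  rcases hi l j t e2 s e5 e6 with e | e
  · exact hj e.1.symm
  · exact e3 e.1

theorem self_inj (l : Fin N) :
    ∃ ε > 0, ∀ z ∈ ball (0 : ℂ) ε, ∀ w ∈ ball (0 : ℂ) ε, U l z = U l w → z = w := by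
  obtain ⟨ε, hε, hi⟩ := h.inj
  exact ⟨ε, hε, fun z hz w hw e => (hi l l z hz w hw e).elim (·.2) fun e => e.1.trans e.2.symm⟩

theorem den_ne (l : Fin N) : ∀ᶠ t in 𝓝 (0 : ℂ), (t ≠ 0 ∨ Imm U) →
    GG D U k a b ξ l (U l t) * Hs D (U l) (k l) (a l) b (ξ l) t ≠ 0 := by
  have h1 := (Filter.eventually_all_finset (Finset.univ.erase l)).2
    fun j hj => h.cross_ne (l := l) (Finset.ne_of_mem_erase hj)
  have h2 := (self_wind (h.bd l) (h.self_inj l)).choose_spec.2.1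
  filter_upwards [eventually_nhdsWithin_iff.1 (h1.and h2)] with t e1 e2
  rcases eq_or_ne t 0 with rfl | ht
  · obtain ⟨rfl, e3⟩ := e2.resolve_left (by simp)
    rw [GG, Hs, (h.k_one l).1 (e3 l), roots_one, Finset.erase_singleton, Finset.prod_empty,
      show Finset.univ.erase l = ∅ by rw [Subsingleton.elim l 0]; rfl, Finset.prod_empty]
    simp
  · exact mul_ne_zero (Finset.prod_ne_zero_iff.2 (e1 ht).1) (e1 ht).2

theorem den_cont (l : Fin N) : ∀ᶠ t in 𝓝 (0 : ℂ), ContinuousAt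
    (fun t => GG D U k a b ξ l (U l t) * Hs D (U l) (k l) (a l) b (ξ l) t) t := by
  filter_upwards [(h.tend l).eventually h.cont, (h.bd l).Hs_cont] with t e1 e2
  exact ContinuousAt.mul (tendsto_finsetProd _ fun j _ =>
    (e1 j).comp (h.bd l).lead.cont.continuousAt) e2

/-- the normalised differential is close to `Om` -/
theorem cn (l : Fin N) : ∀ᶠ t in 𝓝 (0 : ℂ), (t ≠ 0 ∨ Imm U) →
    ContinuousAt (cc D x U k a b ξ l) t ∧ cc D x U k a b ξ l t ≠ 0 ∧ ∀ v,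
      ‖cc D x U k a b ξ l t * fderiv ℝ (SS D U k a b ξ) (U l t) v -
        Om D (U l t) (fderiv ℝ (U l) t 1) v‖ ≤ 1 / 4 * ‖Om D (U l t) (fderiv ℝ (U l) t 1) v‖ := by
  filter_upwards [h.den_ne l, h.den_cont l, (h.bd l).Fb_deriv, (h.bd l).cone, (h.bd l).Fb_u,
    (h.tend l).eventually h.smooth, eventually_nhdsWithin_iff.1 (h.Z_ne l), (h.bd l).lead.hu.2]
    with t e1 e2 e3 e4 e5 e6 e7 e8 ht
  have ht' : t ≠ 0 ∨ k l = 1 := ht.imp_right fun e => (h.k_one l).1 (e.2 l)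
  refine ⟨ContinuousAt.div (by fun_prop) e2 (e1 ht), div_ne_zero (mul_ne_zero (mul_ne_zero
    (h.bd l).lead.k0c ?_) (h.hab l)) (e1 ht), fun v => ?_⟩
  · rcases ht' with e | e
    · exact pow_ne_zero _ e
    · simp [e]
  obtain ⟨f', e9, e10⟩ := e3 ht'
  obtain ⟨η, e11⟩ := e10 v
  have dG : DifferentiableAt ℝ (GG D U k a b ξ l) (U l t) :=
    (contDiffAt_prod fun j _ => e6 (ht.imp_left e7) j).differentiableAt (by simp)
  have e12 : SS D U k a b ξ = fun q => Fb D (U l) (k l) (a l) b (ξ l) q * GG D U k a b ξ l q :=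
    funext fun q => (Finset.mul_prod_erase _ _ (Finset.mem_univ l)).symm
  have e13 : cc D x U k a b ξ l t * fderiv ℝ (SS D U k a b ξ) (U l t) v =
      k l * t ^ (k l - 1) * Om D x (a l) b * f' v := by
    rw [e12, (e9.fun_mul dG.hasFDerivAt).fderiv]
    simp only [_root_.add_apply, _root_.smul_apply, e5, smul_eq_mul, zero_mul, zero_add, cc]
    have := e1 ht
    field_simp [left_ne_zero_of_mul this, right_ne_zero_of_mul this]
  have e14 : Om D (U l t) (fderiv ℝ (U l) t 1) v =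
      Om D (U l t) (fderiv ℝ (U l) t 1) (cm D (U l 0) (f' v) b) := by
    conv_lhs => rw [e11, Om_add, fderiv_cmL D e8 η, Om_cm, Om_self, mul_zero, zero_add]
  rw [e13, e14, ← h.zero l]
  exact e4 ht' _

end Fam

end Vale.Agent.P247C.Lo
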