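import Vale.Agent.P247C.Ld

/-!
# P247, block C: winding numbers for a family of branches in `ℝ⁴`
-/

set_option linter.all false

open scoped ContDiff Topology
open Set MeasureTheory Filter Metric Asymptotics Polynomial

noncomputable section

namespace Vale.Agent.P247C.Lo

open Vale.Agent.P247.H74 Vale.Agent.P247.H74.CE Vale.Agent.P247.H58.LW
open Vale.Agent.P247.H74.CE.Lead (uh zt zt_zero)

theorem wind_inv {f : ℂ → ℂ} {c : ℂ} {r : ℝ} {m : ℤ} (h : HasWinding f c r m) :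
    HasWinding (fun z => (f z)⁻¹) c r (-m) := by
  obtain ⟨g, h1, h2⟩ := h
  exact ⟨fun z => - g z, h1.neg, fun z hz => by
    simp only [h2 z hz, mul_inv, zpow_neg, Complex.exp_neg]⟩

theorem exists_fam {D : Data} {x : R4} {N N' : ℕ} {U : Fin N → ℂ → R4} {V : Fin N' → ℂ → R4}
    (hN : 0 < N) (hU : ∀ l, JHl D 0 (U l) ∧ U l 0 = x) (hV : ∀ j, JHl D 0 (V j) ∧ V j 0 = x)
    (hi : ∃ ε > 0, ∀ l l', ∀ z ∈ ball (0 : ℂ) ε, ∀ z' ∈ ball (0 : ℂ) ε, U l z = U l' z' →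
      (l = l' ∧ z = z') ∨ (z = 0 ∧ z' = 0))
    (hi' : ∀ j, ∃ ε > 0, ∀ z ∈ ball (0 : ℂ) ε, ∀ w ∈ ball (0 : ℂ) ε, V j z = V j w → z = w) :
    ∃ k a b ξ δ, Fam D x U k a b ξ δ ∧ ∀ j, ∃ k' a', LeadL D (V j) k' a' b := by
  have h1 : ∀ i : Fin N ⊕ Fin N', ∃ k a b, LeadL D (Sum.elim U V i) k a b := by
    rintro (l | j)
    · obtain ⟨ε, hε, hi⟩ := hi
      exact exists_lead (hU l).1 ⟨ε, hε, fun z hz w hw e =>
        (hi l l z hz w hw e).elim (·.2) fun e => e.1.trans e.2.symm⟩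
    · exact exists_lead (hV j).1 (hi' j)
  choose k a b h1 using h1
  have h0 : ∀ i, Sum.elim U V i 0 = x := by
    rintro (l | j)
    exacts [(hU l).2, (hV j).2]
  obtain ⟨b', hb⟩ := exists_common D x (fun i => a (finSumFinEquiv.symm i))
    (fun i => b (finSumFinEquiv.symm i)) fun i => h0 _ ▸ (h1 _).hab
  have h2 : ∀ i, LeadL D (Sum.elim U V i) (k i) (a i) b' := fun i => (h1 i).change (by
    rw [h0]
    simpa using hb (finSumFinEquiv i))
  choose ξ δ h3 using fun l => exists_bd (h2 (Sum.inl l))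
  exact ⟨_, _, b', ξ, δ, ⟨hN, h3, fun l => (hU l).2, hi⟩, fun j => ⟨_, _, h2 (Sum.inr j)⟩⟩

namespace Fam

variable {D : Data} {x : R4} {N : ℕ} {U : Fin N → ℂ → R4} {k : Fin N → ℕ} {a : Fin N → R4}
  {b : R4} {ξ : Fin N → ℂ → ℂ} {δ : Fin N → ℝ} (h : Fam D x U k a b ξ δ)
include h

theorem wind_one (l : Fin N) : ∃ d : ℕ, k l * (k l - 1) + (N - 1) ≤ d ∧
    ∀ᶠ ρ in 𝓝[>] (0 : ℝ), HasWinding (cc D x U k a b ξ l) 0 ρ (-(d : ℤ)) := by
  have hk := (h.bd l).lead.hk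
  obtain ⟨n, h1, -, h2⟩ := self_wind (h.bd l) (h.self_inj l)
  have h3 := fun j (hj : j ∈ Finset.univ.erase l) => pair_wind (h.bd j) (h.bd l).lead
    ((h.zero l).trans (h.zero j).symm) (h.cross_ne (Finset.ne_of_mem_erase hj))
  choose! I h3 using h3
  have h4 : N - 1 ≤ ∑ j ∈ Finset.univ.erase l, I j := by
    have := Finset.card_nsmul_le_sum (Finset.univ.erase l) I 1 fun j hj =>
      le_trans (Nat.mul_pos hk (h.bd j).lead.hk) (h3 j hj).1
    simpa using this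
  obtain ⟨k', hk'⟩ : ∃ k', k l = k' + 1 := ⟨k l - 1, by omega⟩
  have h5 : (k' + 1) * k' + k' ≤ n := by
    rw [hk', Nat.add_sub_cancel] at h1
    nlinarith
  refine ⟨∑ j ∈ Finset.univ.erase l, I j + n - k', ?_, ?_⟩
  · rw [hk', Nat.add_sub_cancel]
    omega
  filter_upwards [h2, (Filter.eventually_all_finset _).2 fun j hj => (h3 j hj).2.1,
    self_mem_nhdsWithin] with ρ e1 e2 hρ
  have e3 := WWIND.W2 _ _ 0 ρ _ _ hρ (WWIND.hasWinding_zpow (c := 0) (r := ρ)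
    (mul_ne_zero (h.bd l).lead.k0c (h.hab l)) k')
    (wind_inv (WWIND.W2 _ _ 0 ρ _ _ hρ (wind_prod _ _ _ hρ e2) e1))
  rw [Nat.cast_sub (by omega), neg_sub, sub_eq_add_neg, Nat.cast_add, Nat.cast_sum]
  refine wind_congr e3 fun z _ => ?_
  rw [cc, div_eq_mul_inv, sub_zero, zpow_natCast, show k l - 1 = k' by omega, GG]
  ring

theorem wind_cc : ∃ d : Fin N → ℕ,
    (∀ᶠ ρ in 𝓝[>] (0 : ℝ), ∀ l, HasWinding (cc D x U k a b ξ l) 0 ρ (-(d l : ℤ))) ∧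
    N * (N - 1) ≤ ∑ l, d l ∧ (∑ l, d l = 0 → Imm U) := by
  choose d h1 h2 using h.wind_one
  have h3 : N * (N - 1) ≤ ∑ l, d l := by
    simpa using Finset.card_nsmul_le_sum Finset.univ d (N - 1) fun l _ =>
      le_trans (Nat.le_add_left _ _) (h1 l)
  refine ⟨d, eventually_all.2 h2, h3, fun h0 => ⟨?_, fun l => (h.k_one l).2 ?_⟩⟩
  · have := h.pos
    rw [h0, Nat.le_zero, mul_eq_zero] at h3
    omega
  · have e1 := h1 l
    have e2 := (h.bd l).lead.hk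
    rw [Finset.sum_eq_zero_iff.1 h0 l (Finset.mem_univ l), Nat.le_zero, Nat.add_eq_zero_iff,
      mul_eq_zero] at e1
    omega

variable {V : ℂ → R4} {k' : ℕ} {a' : R4} (hV : LeadL D V k' a' b) (h0 : V 0 = x)
include hV h0

theorem dich : (∀ᶠ t in 𝓝[≠] (0 : ℂ), SS D U k a b ξ (V t) ≠ 0) ∨
    ∃ l, ∀ ε > 0, ∀ᶠ t in 𝓝 (0 : ℂ), ∃ s ∈ ball (0 : ℂ) ε, V t = U l s := by
  by_contra hc
  push Not at hc
  refine hc.1 ?_
  have h1 := fun l => (pair_dich (h.bd l) hV (h0.trans (h.zero l).symm)).resolve_right fun e => by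
    obtain ⟨ε, hε, e1⟩ := hc.2 l
    obtain ⟨t, e2, s, e3, e4⟩ := (e1.and_eventually (e ε hε)).exists
    exact e2 s e3 e4
  filter_upwards [eventually_all.2 h1] with t ht
  exact Finset.prod_ne_zero_iff.2 fun l _ => ht l

theorem wind_v (hne : ∀ᶠ t in 𝓝[≠] (0 : ℂ), SS D U k a b ξ (V t) ≠ 0) : ∃ m : ℕ,
    (∀ᶠ ρ in 𝓝[>] (0 : ℝ), HasWinding (fun t => SS D U k a b ξ (V t)) 0 ρ m) ∧ 1 ≤ m ∧
    (m = 1 ↔ N = 1 ∧ ∀ l, Om D x (fderiv ℝ (U l) 0 1) (fderiv ℝ V 0 1) ≠ 0) := by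
  choose I h1 h2 h3 using fun l => pair_wind (h.bd l) hV (h0.trans (h.zero l).symm)
    (hne.mono fun t ht => Finset.prod_ne_zero_iff.1 ht l (Finset.mem_univ l))
  have h4 : ∀ l, 1 ≤ I l := fun l => le_trans (Nat.mul_pos hV.hk (h.bd l).lead.hk) (h1 l)
  have h5 : N ≤ ∑ l, I l := by
    simpa using Finset.card_nsmul_le_sum Finset.univ I 1 fun l _ => h4 l
  refine ⟨∑ l, I l, ?_, le_trans h.pos h5, fun e => ?_, ?_⟩
  · filter_upwards [eventually_all.2 h2, self_mem_nhdsWithin] with ρ e1 hρ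
    rw [Nat.cast_sum]
    exact wind_prod _ _ _ hρ fun l _ => e1 l
  · obtain rfl : N = 1 := by have := h.pos; omega
    refine ⟨rfl, fun l => ?_⟩
    rw [Fin.sum_univ_one, Subsingleton.elim 0 l] at e
    have e1 : k' * k l = 1 := le_antisymm (e ▸ h1 l) (Nat.mul_pos hV.hk (h.bd l).lead.hk)
    have e2 := Nat.eq_one_of_mul_eq_one_right e1
    have e3 := Nat.eq_one_of_mul_eq_one_left e1
    rw [lead_d0 hV, lead_d0 (h.bd l).lead, if_pos e2, if_pos e3, ← h.zero l]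
    exact (h3 l e2 e3).1 e
  · rintro ⟨rfl, e⟩
    have e1 := e 0
    rw [lead_d0 hV, lead_d0 (h.bd 0).lead] at e1
    rw [Fin.sum_univ_one]
    split_ifs at e1 with e2 e3
    · exact (h3 0 e3 e2).2 (by rw [h.zero]; exact e1)
    all_goals simp [← OmL_apply] at e1

end Fam

end Vale.Agent.P247C.Lo
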