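import Vale.Agent.P247C.Le
import Vale.Agent.P247C.Defs

/-!
# P247, block C: branches in a transplant chart
-/

set_option linter.all false

open scoped Manifold ContDiff Topology
open Set MeasureTheory Filter Metric

noncomputable section

namespace Vale.Agent.P247C.Lo

open Vale.Agent.P247X Vale.Agent.P247.SCY Vale.Agent.P247.SCY.HS
open Vale.Agent.P247.H74 Vale.Agent.P247.H74.CE Vale.Agent.P247.H58.LW

variable {X : Type} [TopologicalSpace X] [ChartedSpace HS.E4 X] {w : Tri X} (t : LocT w)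

/-- the differential of the inverse chart -/
def dS (y : R4) : R4 →L[ℝ] HS.E4 := mfderiv 𝓘(ℝ, R4) (𝓡 4) t.κ.symm y

theorem cmk {x : X} (hx : x ∈ t.κ.source) : ContMDiffAt (𝓡 4) 𝓘(ℝ, R4) ∞ t.κ x :=
  t.smooth.contMDiffAt (t.κ.open_source.mem_nhds hx)

theorem cms {y : R4} (hy : y ∈ t.κ.target) : ContMDiffAt 𝓘(ℝ, R4) (𝓡 4) ∞ t.κ.symm y :=
  t.smooth_symm.contMDiffAt (t.κ.open_target.mem_nhds hy)

theorem dS_bij {y : R4} (hy : y ∈ t.κ.target) : Function.Bijective (dS t y) :=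
  OpenPartialHomeomorph.MDifferentiable.mfderiv_bijective (e := t.κ.symm)
    ⟨t.smooth_symm.mdifferentiableOn (by simp), t.smooth.mdifferentiableOn (by simp)⟩ hy

/-- the factor between `OmX` and `Om` -/
def gf (y : R4) : ℂ := 1 - Complex.I * (t.D.c y 0 0 : ℝ)

theorem gf_ne (y : R4) : gf t y ≠ 0 := fun h => by simpa [gf] using congrArg Complex.re h

theorem gf_cont : Continuous (gf t) := by
  have := (contDiff_pi.1 (contDiff_pi.1 t.D.c_smooth 0) 0).continuous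
  unfold gf
  fun_prop

theorem omx {x : X} (hx : x ∈ t.κ.source) (a v : R4) :
    OmX w x (dS t (t.κ x) a) (dS t (t.κ x) v) = gf t (t.κ x) * Om t.D (t.κ x) a v := by
  have key : ∀ y ∈ t.κ.target, OmX w (t.κ.symm y) (dS t y a) (dS t y v) =
      gf t y * Om t.D y a v := by
    intro y hy
    have h1 : w 0 (t.κ.symm y) ![dS t y a, dS t y v] = (t.D.η 0).val y a v := (t.eta 0 y hy a v).symm
    have h2 : w 0 (t.κ.symm y) ![dS t y a, Jw w (t.κ.symm y) (dS t y v)] =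
        (t.D.η 0).val y a (t.D.J y v) := by
      have e := t.J y hy v
      exact (congrArg (fun q : HS.E4 => w 0 (t.κ.symm y) ![dS t y a, q]) e.symm).trans
        (t.eta 0 y hy a _).symm
    have h3 : (t.D.c y 1 0 : ℂ) ≠ 0 := by exact_mod_cast c10_ne t.D y
    have h5 : (t.D.c y 0 0 : ℂ) * (t.D.c y 0 0 : ℂ) + (t.D.c y 0 1 : ℂ) * (t.D.c y 1 0 : ℂ) = -1 := by
      exact_mod_cast c_det t.D y
    have h6 : gf t y * P247.H74.chi t.D y = - Complex.I * (t.D.c y 0 1 : ℂ) := by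
      rw [gf, P247.H74.chi]
      field_simp
      linear_combination Complex.I * h5 - (t.D.c y 0 0 : ℂ) * Complex.I_mul_I
    refine (congrArg₂ (fun p q : ℝ => (p : ℂ) - Complex.I * (q : ℂ)) h1 h2).trans ?_
    rw [t.D.η_J, Fin.sum_univ_two, Om, mul_add (gf t y), ← mul_assoc, h6, gf]
    push_cast
    ring
  have h := key _ (t.κ.map_source hx)
  rwa [show OmX w (t.κ.symm (t.κ x)) = fun a v : HS.E4 => OmX w x a v by
    rw [t.κ.left_inv hx]] at h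

theorem dfc_comp {x : X} (hx : x ∈ t.κ.source) {S : R4 → ℂ} (hS : DifferentiableAt ℝ S (t.κ x))
    (v : R4) : dfc (fun y => S (t.κ y)) x (dS t (t.κ x) v) = fderiv ℝ S (t.κ x) v := by
  have h1 := mfderiv_comp x hS.mdifferentiableAt ((cmk t hx).mdifferentiableAt (by simp))
  rw [mfderiv_eq_fderiv] at h1
  have h2 := OpenPartialHomeomorph.MDifferentiable.comp_symm_deriv (e := t.κ)
    ⟨t.smooth.mdifferentiableOn (by simp), t.smooth_symm.mdifferentiableOn (by simp)⟩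
    (t.κ.map_source hx)
  have h3 : (mfderiv (𝓡 4) 𝓘(ℝ, R4) t.κ x : HS.E4 →L[ℝ] R4) (dS t (t.κ x) v) = v := by
    have e : (mfderiv (𝓡 4) 𝓘(ℝ, R4) t.κ x : HS.E4 →L[ℝ] R4) =
        mfderiv (𝓡 4) 𝓘(ℝ, R4) t.κ (t.κ.symm (t.κ x)) := by rw [t.κ.left_inv hx]
    rw [e]
    exact DFunLike.congr_fun h2 v
  exact (DFunLike.congr_fun h1 _).trans (congrArg (fderiv ℝ S (t.κ x)) h3)

/-- `U` is a global extension of the curve `u` read in the chart -/
structure Gl (u : ℂ → X) (U : ℂ → R4) : Prop where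
  hol : JHl t.D 0 U
  ev : ∀ᶠ z in 𝓝 (0 : ℂ), u z ∈ t.κ.source ∧ t.κ (u z) = U z ∧
    ∀ a, (dm u z a : HS.E4) = dS t (U z) (fderiv ℝ U z a)

theorem exists_gl {u : ℂ → X} (hu : ContMDiffOn 𝓘(ℝ, ℂ) (𝓡 4) ∞ u (ball 0 2))
    (hJ : ∀ z ∈ ball (0 : ℂ) 2, JAt (Jw w) u z) (h0 : u 0 ∈ t.κ.source) : ∃ U, Gl t u U := by
  have b2 : ball (0 : ℂ) 2 ∈ 𝓝 (0 : ℂ) := ball_mem_nhds 0 two_pos
  obtain ⟨ε, hε, h1⟩ := Metric.eventually_nhds_iff_ball.1
    (((hu.contMDiffAt b2).continuousAt.eventually (t.κ.open_source.mem_nhds h0)).and b2)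
  obtain ⟨U, h2, h3⟩ := exists_ext (n := ∞) le_rfl (isCompact_singleton (x := (0 : ℂ))) isOpen_ball
    (singleton_subset_iff.2 (mem_ball_self hε)) (f := fun z => t.κ (u z)) fun z hz =>
      (((cmk t (h1 z hz).1).comp z (hu.contMDiffAt
        (isOpen_ball.mem_nhds (h1 z hz).2))).contDiffAt).contDiffWithinAt
  rw [nhdsSet_singleton] at h3
  have h4 : ∀ᶠ z in 𝓝 (0 : ℂ), u z ∈ t.κ.source ∧ t.κ (u z) = U z ∧
      ∀ a, (dm u z a : HS.E4) = dS t (U z) (fderiv ℝ U z a) := by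
    filter_upwards [h3.eventually_nhds, ball_mem_nhds 0 hε] with z e1 e2
    have e3 := e1.self_of_nhds
    refine ⟨(h1 z e2).1, e3.symm, fun a => ?_⟩
    have e4 : u =ᶠ[𝓝 z] t.κ.symm ∘ U := by
      filter_upwards [e1, isOpen_ball.mem_nhds e2] with y e5 e6
      rw [Function.comp_apply, e5, t.κ.left_inv (h1 y e6).1]
    have e5 := mfderiv_comp z ((cms t (y := U z) (e3 ▸ t.κ.map_source (h1 z e2).1)).mdifferentiableAt
      (by simp)) (h2.differentiable (by simp) z).mdifferentiableAt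
    rw [mfderiv_eq_fderiv] at e5
    exact DFunLike.congr_fun (e4.mfderiv_eq.trans e5) a
  refine ⟨U, ⟨h2, ?_⟩, h4⟩
  filter_upwards [h4, b2] with z ⟨e1, e2, e3⟩ e4
  have e5 : U z ∈ t.κ.target := e2 ▸ t.κ.map_source e1
  refine (dS_bij t e5).1 (((e3 _).symm.trans (hJ z e4)).trans ?_)
  refine Eq.trans ?_ (t.J _ e5 _).symm
  have e6 : u z = t.κ.symm (U z) := by rw [← e2, t.κ.left_inv e1]
  have e7 : ∀ x x' : X, x = x' → ∀ v : HS.E4, (Jw w x v : HS.E4) = Jw w x' v := by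
    rintro x _ rfl v
    rfl
  exact (congrArg (fun q : HS.E4 => (Jw w (u z) q : HS.E4)) (e3 1)).trans (e7 _ _ e6 _)

theorem far_small [T2Space X] {u : ℂ → X} {p : X} (hu : ContinuousOn u (ball 0 2))
    (h0 : ∀ z ∈ ball (0 : ℂ) 2, u z = p → z = 0) {ε : ℝ} (hε : 0 < ε) :
    ∀ᶠ y in 𝓝 p, ∀ z ∈ ball (0 : ℂ) 1, u z = y → z ∈ ball (0 : ℂ) ε := by
  have h1 : closedBall (0 : ℂ) 1 \ ball 0 ε ⊆ ball 0 2 :=
    diff_subset.trans (closedBall_subset_ball one_lt_two)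
  have h2 := (((isCompact_closedBall (0 : ℂ) 1).diff isOpen_ball).image_of_continuousOn
    (hu.mono h1)).isClosed.isOpen_compl.mem_nhds (x := p) fun ⟨z, hz, e⟩ =>
      hz.2 (h0 z (h1 hz) e ▸ mem_ball_self hε)
  filter_upwards [h2] with y hy z hz e
  by_contra hc
  exact hy ⟨z, ⟨ball_subset_closedBall hz, hc⟩, e⟩

theorem brs_far [T2Space X] {J : EndF X} {K : Set X} {p : X} {N : ℕ} {u : Fin N → ℂ → X}
    {U : Set X} (h : BrsX J K p N u U) {ε : ℝ} (hε : 0 < ε) :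
    ∀ᶠ y in 𝓝 p, ∀ l, ∀ z ∈ ball (0 : ℂ) 1, u l z = y → z ∈ ball (0 : ℂ) ε :=
  eventually_all.2 fun l => far_small (h.smooth l).continuousOn (fun z hz e =>
    (h.inj l l z hz 0 (mem_ball_self two_pos) (e.trans (h.zero l).symm)).elim (·.2) (·.1)) hε

theorem setup {K : Set X} {p : X} {N : ℕ} {u : Fin N → ℂ → X} {U : Set X}
    (h : BrsX (Jw w) K p N u U) {N' : ℕ} {v : Fin N' → ℂ → X} (hv : ∀ j, JBr (Jw w) p (v j))
    (hp : p ∈ t.κ.source) : ∃ (U' : Fin N → ℂ → R4) (V' : Fin N' → ℂ → R4) (k : Fin N → ℕ)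
      (a : Fin N → R4) (b : R4) (ξ : Fin N → ℂ → ℂ) (δ : Fin N → ℝ), (∀ l, Gl t (u l) (U' l)) ∧
      Fam t.D (t.κ p) U' k a b ξ δ ∧
      ∀ j, Gl t (v j) (V' j) ∧ V' j 0 = t.κ p ∧ ∃ k' a', LeadL t.D (V' j) k' a' b := by
  choose U' hU using fun l => exists_gl t (h.smooth l) (h.hol l) (h.zero l ▸ hp)
  choose V' hV using fun j => exists_gl t (hv j).smooth (hv j).hol ((hv j).zero ▸ hp)
  have b2 : ball (0 : ℂ) 2 ∈ 𝓝 (0 : ℂ) := ball_mem_nhds 0 two_pos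
  have h0 : ∀ j, V' j 0 = t.κ p := fun j => by rw [← (hV j).ev.self_of_nhds.2.1, (hv j).zero]
  obtain ⟨k, a, b, ξ, δ, h1, h2⟩ := exists_fam (D := t.D) (x := t.κ p) (U := U') (V := V') h.posN
    (fun l => ⟨(hU l).hol, by rw [← (hU l).ev.self_of_nhds.2.1, h.zero]⟩)
    (fun j => ⟨(hV j).hol, h0 j⟩) (by
      obtain ⟨ε, hε, e⟩ := Metric.eventually_nhds_iff_ball.1
        ((eventually_all.2 fun l => (hU l).ev).and b2)
      refine ⟨ε, hε, fun l l' z hz z' hz' e1 => h.inj l l' z (e z hz).2 z' (e z' hz').2 ?_⟩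
      refine t.κ.injOn ((e z hz).1 l).1 ((e z' hz').1 l').1 ?_
      rw [((e z hz).1 l).2.1, ((e z' hz').1 l').2.1, e1]) fun j => by
      obtain ⟨ε, hε, e⟩ := Metric.eventually_nhds_iff_ball.1 ((hV j).ev.and b2)
      refine ⟨ε, hε, fun z hz z' hz' e1 => (hv j).inj (e z hz).2 (e z' hz').2 ?_⟩
      refine t.κ.injOn (e z hz).1.1 (e z' hz').1.1 ?_
      rw [(e z hz).1.2.1, (e z' hz').1.2.1, e1]
  exact ⟨U', V', k, a, b, ξ, δ, hU, h1, fun j => ⟨hV j, h0 j, h2 j⟩⟩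

theorem zero_iff [T2Space X] {K : Set X} {p : X} {N : ℕ} {u : Fin N → ℂ → X} {U : Set X}
    (h : BrsX (Jw w) K p N u U) (hp : p ∈ t.κ.source) {U' : Fin N → ℂ → R4} {k : Fin N → ℕ}
    {a : Fin N → R4} {b : R4} {ξ : Fin N → ℂ → ℂ} {δ : Fin N → ℝ} (hU : ∀ l, Gl t (u l) (U' l))
    (hF : Fam t.D (t.κ p) U' k a b ξ δ) :
    ∀ᶠ y in 𝓝 p, SS t.D U' k a b ξ (t.κ y) = 0 ↔ y ∈ K := by
  obtain ⟨ε, hε, e⟩ := Metric.eventually_nhds_iff_ball.1 ((eventually_all.2 fun l =>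
    (hU l).ev.and (hF.SS_u l)).and (ball_mem_nhds (0 : ℂ) two_pos))
  filter_upwards [(cmk t hp).continuousAt.eventually (hF.SS_zero hε), brs_far h hε,
    t.κ.open_source.mem_nhds hp, h.opn.mem_nhds h.memU] with y e1 e2 e3 e4
  refine ⟨fun e5 => ?_, fun e5 => ?_⟩
  · obtain ⟨l, s, e6, e7⟩ := e1 e5
    rw [t.κ.injOn e3 ((e s e6).1 l).1.1 (e7.trans ((e s e6).1 l).1.2.1.symm)]
    exact h.mem l s (e s e6).2
  · obtain ⟨l, z, e6, rfl⟩ := h.cov y e4 e5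
    have e7 := (e z (e2 l z e6 rfl)).1 l
    rw [e7.1.2.1]
    exact e7.2

end Vale.Agent.P247C.Lo
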