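import Vale.Agent.P247C.Cht
import Vale.Agent.P247C.T5

/-!
# P247, block C, row PLX: the regularised argument form and the local limit
-/

set_option linter.all false

open scoped Manifold ContDiff Topology ComplexConjugate
open Set MeasureTheory Filter Metric Function

noncomputable section

namespace Vale.Agent.P247C.Pl

open Vale.Agent.P247X Vale.Agent.P247.SCY.HS Vale.Agent.P247M
open Vale.Agent.P267.H175 (SmAt dF)
open Vale.Agent.P267

variable {X : Type} [Cl4 X] {s : X → ℂ} {x : X}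

/-- the square of the norm -/
def nq (s : X → ℂ) (y : X) : ℝ := (s y).re * (s y).re + (s y).im * (s y).im

theorem nq_eq (s : X → ℂ) (y : X) : nq s y = ‖s y‖ ^ 2 := by
  rw [Complex.sq_norm, Complex.normSq_apply, nq]

theorem smF_nq (h : SmC s x) : SmF (nq s) x := (h.re.mul h.re).add (h.im.mul h.im)

theorem smF_mm (h : SmC s x) : SmF (fun y => mm (nq s y)) x :=
  mm_cd.contDiffAt.comp_contMDiffAt (smF_nq h)

theorem Df_mm (h : SmC s x) (v : E4) : Df (fun y => mm (nq s y)) x v = deriv mm (nq s x) *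
    (2 * ((s x).re * (dfc s x v).re + (s x).im * (dfc s x v).im)) := by
  have h1 := mm_der (nq s x)
  rw [← symm_self x] at h1
  have h2 := (h1.comp_hasFDerivAt (chartAt E4 x x) (smF_nq h).diff.hasFDerivAt).fderiv
  rw [symm_self] at h2
  have h3 : Df (nq s) x = _ := Df_add (h.re.mul h.re) (h.im.mul h.im)
  rw [Df_mul h.re h.re, Df_mul h.im h.im] at h3
  refine (DFunLike.congr_fun h2 v).trans ?_
  show deriv mm (nq s x) * Df (nq s) x v = _
  rw [h3]
  simp only [ContinuousLinearMap.add_apply, ContinuousLinearMap.smul_apply, Df_re h, Df_im h,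
    smul_eq_mul]
  ring

/-- the regularised argument form -/
def lam (s : X → ℂ) : RF X 1 :=
  (fun y => (mm (nq s y) * (s y).re) • d0 (fun y => (s y).im) y) -
    fun y => (mm (nq s y) * (s y).im) • d0 (fun y => (s y).re) y

theorem lam_apply (h : SmC s x) (v : E4) :
    lam s x ![v] = mm (‖s x‖ ^ 2) * (conj (s x) * dfc s x v).im := by
  show mm (nq s x) * (s x).re * Df (fun y => (s y).im) x v -
    mm (nq s x) * (s x).im * Df (fun y => (s y).re) x v = _
  rw [Df_re h, Df_im h, nq_eq]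
  simp
  ring

section onV

variable {V : Set X} (hV : IsOpen V) (hs : ∀ y ∈ V, SmC s y) (hx : x ∈ V)
include hV hs hx

theorem smAt_lam : SmAt (lam s) x :=
  smAt_sub (smAt_fsmul ((smF_mm (hs x hx)).mul (hs x hx).re) (smAt_d0 hV (fun y h => (hs y h).im) hx))
    (smAt_fsmul ((smF_mm (hs x hx)).mul (hs x hx).im) (smAt_d0 hV (fun y h => (hs y h).re) hx))

theorem dF_lam (a b : E4) :
    dF (lam s) x ![a, b] = ff (‖s x‖ ^ 2) * (conj (dfc s x a) * dfc s x b).im := by
  have h := hs x hx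
  have h1 := smAt_d0 hV (fun y h => (hs y h).im) hx
  have h2 := smAt_d0 hV (fun y h => (hs y h).re) hx
  have h3 : SmF (fun y => mm (nq s y) * (s y).re) x := (smF_mm h).mul h.re
  have h4 : SmF (fun y => mm (nq s y) * (s y).im) x := (smF_mm h).mul h.im
  rw [lam, dF_sub (smAt_fsmul h3 h1) (smAt_fsmul h4 h2), dF_fsmul h3 h1, dF_fsmul h4 h2,
    dF_d0 hV (fun y h => (hs y h).im) hx, dF_d0 hV (fun y h => (hs y h).re) hx, smul_zero,
    smul_zero, add_zero, add_zero, ContinuousAlternatingMap.sub_apply, d0, d0, wd_one, wd_one,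
    Df_mul (smF_mm h) h.re, Df_mul (smF_mm h) h.im, ← nq_eq, ← ff_eq]
  simp only [ContinuousLinearMap.add_apply, ContinuousLinearMap.smul_apply, Df_re h, Df_im h,
    smul_eq_mul, Df_mm h, Complex.mul_im, Complex.conj_re, Complex.conj_im]
  generalize mm (nq s x) = m
  generalize deriv mm (nq s x) = m'
  unfold nq
  ring

end onV

/-- far from the zero set the form is the logarithmic derivative of the transition function -/
theorem lam_far {g : X → ℂ} (h : SmC s x) (hg : SmC g x)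
    (he : ∀ᶠ y in 𝓝 x, g y = s y / (‖s y‖ : ℂ)) (h1 : 1 ≤ ‖s x‖) (v : E4) :
    lam s x ![v] = (conj (g x) * dfc g x v).im := by
  have h0 : (0 : ℝ) < ‖s x‖ := by linarith
  have h2 : ∀ᶠ y in 𝓝 x, (conj (g y) * s y).im = 0 := by
    filter_upwards [he] with y hy
    rw [hy, map_div₀, Complex.conj_ofReal, div_mul_eq_mul_div, Complex.conj_mul',
      ← Complex.ofReal_pow, ← Complex.ofReal_div, Complex.ofReal_im]
  have h3 := Df_im (hg.conj.mul h) v
  rw [Df_of_const h2, dfc_mul hg.conj h, dfc_conj hg] at h3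
  have h4 : s x = (‖s x‖ : ℂ) * g x := by
    rw [he.self_of_nhds, mul_div_cancel₀ _ (by exact_mod_cast h0.ne')]
  rw [lam_apply h, mm_one (by nlinarith)]
  generalize ‖s x‖ = n at h0 h4
  rw [h4] at h3 ⊢
  simp at h3 ⊢
  field_simp
  linear_combination -h3

/-- rescaling -/
def sc (ε : ℝ) (s : X → ℂ) : X → ℂ := fun y => ((ε⁻¹ : ℝ) : ℂ) * s y

theorem smC_sc (ε : ℝ) (h : SmC s x) : SmC (sc ε s) x := SmC.mul contMDiffAt_const h

theorem dfc_sc (ε : ℝ) (h : SmC s x) (v : E4) :
    dfc (sc ε s) x v = ((ε⁻¹ : ℝ) : ℂ) * dfc s x v := by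
  have h1 := dfc_mul (contMDiffAt_const (c := ((ε⁻¹ : ℝ) : ℂ))) h v
  rw [dfc_const, mul_zero, add_zero] at h1
  exact h1

theorem smAt_cut {k : ℕ} {χ : X → ℝ} (hχ : ContMDiff (𝓡 4) 𝓘(ℝ, ℝ) ∞ χ) {a : RF X k}
    (ha : ∀ y ∈ tsupport χ, SmAt a y) (x : X) : SmAt (fun y => χ y • a y) x := by
  by_cases h : x ∈ tsupport χ
  · exact smAt_fsmul (hχ x) (ha x h)
  · refine smAt_of_zero ?_
    filter_upwards [notMem_tsupport_iff_eventuallyEq.1 h] with y hy
    rw [hy, Pi.zero_apply, zero_smul]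

theorem Df_off {χ : X → ℝ} (h : x ∉ tsupport χ) : Df χ x = 0 :=
  Df_of_const (c := 0) (notMem_tsupport_iff_eventuallyEq.1 h)

theorem dF_cut {k : ℕ} {χ : X → ℝ} (hχ : ContMDiff (𝓡 4) 𝓘(ℝ, ℝ) ∞ χ) {a : RF X k}
    (ha : ∀ y ∈ tsupport χ, SmAt a y) (x : X) :
    dF (fun y => χ y • a y) x = wd (Df χ x) (a x) + χ x • dF a x := by
  by_cases h : x ∈ tsupport χ
  · exact dF_fsmul (hχ x) (ha x h)
  · rw [Df_off h, wd_zero_left, image_eq_zero_of_notMem_tsupport h, zero_smul, add_zero]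
    refine dF_of_zero ?_
    filter_upwards [notMem_tsupport_iff_eventuallyEq.1 h] with y hy
    rw [hy, Pi.zero_apply, zero_smul]

/-- the local limit in an adapted chart -/
theorem loc_lim {μ : Form X 4} (hμ : Volume μ) {K : Set X} {u : ℂ → X} {δ : ℝ} {Θ : ℂ × ℂ → X}
    (h : Cht μ K u s δ Θ) {V : Set X} (hV : IsOpen V) (hs : ∀ y ∈ V, SmC s y)
    (hΘV : Θ '' ball 0 δ ⊆ V) {χ : X → ℝ} (hχ : ContMDiff (𝓡 4) 𝓘(ℝ, ℝ) ∞ χ)
    (hsupp : tsupport χ ⊆ Θ '' ball 0 δ) {β : Form X 2} (hβ : Cont β) :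
    Tendsto (fun ε => pair μ (P247M.hs fun y => χ y • dF (lam (sc ε s)) y) β) (𝓝[>] 0)
      (𝓝 (2 * Real.pi * ∫ t in ball (0 : ℂ) δ, pull2 (fun y => χ y • β y) u t)) := by
  obtain ⟨e, he1, he2, he3, -⟩ := P247Y.globInv isOpen_ball h.smooth h.bij h.inj
  set G : ℂ × ℂ → ℝ := (ball (0 : ℂ × ℂ) δ).indicator
    fun q => χ (Θ q) * pb Θ β q ![(1, 0), (Complex.I, 0)] with hG
  have hC : IsCompact (e.symm '' tsupport χ) := (isClosed_tsupport χ).isCompact.image_of_continuousOn
    (e.continuousOn_symm.mono (he2 ▸ hsupp))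
  have hG0 : ∀ q, q ∉ e.symm '' tsupport χ → G q = 0 := fun q hq => by
    by_cases h1 : q ∈ ball (0 : ℂ × ℂ) δ
    · rw [hG, indicator_of_mem h1, image_eq_zero_of_notMem_tsupport fun h2 =>
        hq ⟨_, h2, by rw [← he3, e.left_inv (he1 ▸ h1)]⟩, zero_mul]
    · exact indicator_of_notMem h1 _
  have hGc : Continuous G := by
    refine ContinuousOn.continuous_of_tsupport_subset (s := ball 0 δ) ?_ isOpen_ball ?_
    · refine ContinuousOn.congr ?_ fun q hq => indicator_of_mem hq _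
      exact (hχ.continuous.comp_continuousOn h.smooth.continuousOn).mul
        ((continuous_eval_const _).comp_continuousOn (continuousOn_pb isOpen_ball h.smooth hβ))
    · refine (closure_minimal (fun q hq => ?_) hC.isClosed).trans ?_
      · by_contra hn
        exact hq (hG0 q hn)
      · rintro _ ⟨y, hy, rfl⟩
        exact he1 ▸ e.map_target (he2 ▸ hsupp hy)
  have h1 : ∫ t, G (t, 0) = ∫ t in ball (0 : ℂ) δ, pull2 (fun y => χ y • β y) u t := by
    rw [← integral_indicator measurableSet_ball]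
    refine integral_congr_ae (Eventually.of_forall fun t => ?_)
    by_cases ht : t ∈ ball (0 : ℂ) δ
    · have ht' : ((t, 0) : ℂ × ℂ) ∈ ball (0 : ℂ × ℂ) δ := by simpa using ht
      have h2 : u =ᶠ[𝓝 t] fun z => Θ (z, 0) := by
        filter_upwards [isOpen_ball.mem_nhds ht] with z hz using (h.axis z hz).symm
      have h3 : ∀ a, (dm (fun z => Θ (z, 0)) t a : E4) = dP Θ (t, 0) (a, 0) := fun a =>
        DFunLike.congr_fun ((param_diff isOpen_ball h.smooth ht').hasMFDerivAt.comp t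
          (ContinuousLinearMap.inl ℝ ℂ ℂ).hasMFDerivAt).mfderiv a
      simp only [hG]
      rw [indicator_of_mem ht, indicator_of_mem ht', pull2_congr h2, pull2_fsmul, pb_two, pull2,
        h3, h3]
      rfl
    · simp only [hG]
      rw [indicator_of_notMem ht, indicator_of_notMem (by simpa using ht)]
  rw [← h1]
  refine (tendsto_int hGc (HasCompactSupport.intro hC hG0)).congr fun ε => ?_
  have hs' : ∀ y ∈ V, SmC (sc ε s) y := fun y hy => smC_sc ε (hs y hy)
  rw [pair_param preserving_TC isOpen_ball h.smooth hμ measurableSet_ball subset_rfl h.inj (σ := 1)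
    (fun q hq => ?_) (α := P247M.hs fun y => χ y • dF (lam (sc ε s)) y) (cont_of_smooth (smooth_iff.2 (smAt_cut hχ fun y hy => H175.smAt_dF hV
      (fun _ => smAt_lam hV hs') (hΘV (hsupp hy))))) hβ (Eventually.of_forall fun y hy => Or.inl ?_),
    one_mul, ← integral_indicator measurableSet_ball]
  · refine integral_congr_ae (Eventually.of_forall fun q => ?_)
    by_cases hq : q ∈ ball (0 : ℂ × ℂ) δ
    · have hq' := hΘV (mem_image_of_mem Θ hq)
      have h2 : ∀ a, dfc s (Θ q) (dP Θ q a) = a.2 := fun a => by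
        have h3 := mfderiv_comp q ((hs _ hq').mdifferentiableAt (by simp))
          (param_diff isOpen_ball h.smooth hq)
        have h4 : s ∘ Θ =ᶠ[𝓝 q] ContinuousLinearMap.snd ℝ ℂ ℂ := by
          filter_upwards [isOpen_ball.mem_nhds hq] with z hz using h.snd z hz
        rw [h4.mfderiv_eq, ContinuousLinearMap.mfderiv_eq] at h3
        exact (DFunLike.congr_fun h3 a).symm
      have h3 : ∀ a b, pb Θ (P247M.hs fun y => χ y • dF (lam (sc ε s)) y) q ![a, b] =
          χ (Θ q) * (ff (‖ε⁻¹ • q.2‖ ^ 2) * (ε⁻¹ ^ 2 * (conj a.2 * b.2).im)) := fun a b => by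
        rw [pb_two]
        show χ (Θ q) * dF (lam (sc ε s)) (Θ q) ![dP Θ q a, dP Θ q b] = _
        rw [dF_lam hV hs' hq', dfc_sc ε (hs _ hq'), dfc_sc ε (hs _ hq'), h2, h2, im_conj_mul,
          Complex.normSq_ofReal, sc, h.snd q hq, Complex.real_smul, sq ε⁻¹]
      simp only [hG]
      rw [indicator_of_mem hq, indicator_of_mem hq, fr_TC, wedge]
      simp only [h3]
      simp
      ring
    · simp only [hG]
      rw [indicator_of_notMem hq, indicator_of_notMem hq, mul_zero]
  · have h2 : 0 < pb Θ μ q (fr TC) := by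
      rw [fr_TC, pb_apply]
      refine (h.ori q hq).trans_eq (congrArg _ ?_)
      funext i
      fin_cases i <;> rfl
    rw [abs_of_pos h2, one_mul]
  · show χ y • dF (lam (sc ε s)) y = 0
    rw [image_eq_zero_of_notMem_tsupport fun h2 => hy (hsupp h2), zero_smul]

end Vale.Agent.P247C.Pl
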