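import Vale.Agent.P247C.RTTor

/-!
# P247, block C: Riemann surfaces from plots, factorisation of holomorphic plots
-/

set_option linter.all false

open scoped Topology Manifold ContDiff
open Set Filter Metric

noncomputable section

namespace Vale.Agent.P247C.RT

/-- a family of injective plots with holomorphic transitions -/
structure Plots (M : Type) where
  ι : Type
  σ : ι → ℂ → M
  r : ι → ℝ
  inj : ∀ i, InjOn (σ i) (ball 0 (r i))
  cov : ∀ m, ∃ i, ∃ z ∈ ball (0 : ℂ) (r i), σ i z = m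
  tr : ∀ i j, ∀ z ∈ ball (0 : ℂ) (r i), ∀ z' ∈ ball (0 : ℂ) (r j), σ i z = σ j z' →
    ∃ φ : ℂ → ℂ, φ z = z' ∧ ∀ᶠ t in 𝓝 z, DifferentiableAt ℂ φ t ∧ σ i t = σ j (φ t)

namespace Plots

variable {M : Type} (P : Plots M)

/-- the topology -/
@[instance_reducible] def top : TopologicalSpace M where
  IsOpen O := ∀ i, IsOpen (ball 0 (P.r i) ∩ P.σ i ⁻¹' O)
  isOpen_univ := fun i => by simpa using isOpen_ball
  isOpen_inter := fun s t hs ht i => by
    have := (hs i).inter (ht i)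
    convert this using 1
    ext z; simp only [mem_inter_iff, mem_preimage]; tauto
  isOpen_sUnion := fun S hS i => by
    rw [preimage_sUnion, inter_iUnion₂]
    exact isOpen_biUnion fun t ht => hS t ht i

theorem cont (i : P.ι) : @ContinuousOn _ _ _ P.top (P.σ i) (ball 0 (P.r i)) := by
  letI := P.top
  exact (continuousOn_open_iff isOpen_ball).2 fun t ht => ht i

theorem opn (i : P.ι) {V : Set ℂ} (hV : IsOpen V) (hs : V ⊆ ball 0 (P.r i)) :
    @IsOpen _ P.top (P.σ i '' V) := by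
  intro j
  rw [isOpen_iff_mem_nhds]
  rintro z' ⟨hz', z, hz, hzz⟩
  obtain ⟨φ, h1, h2⟩ := P.tr j i z' hz' z (hs hz) hzz.symm
  have h3 : ∀ᶠ t in 𝓝 z', φ t ∈ V :=
    h2.self_of_nhds.1.continuousAt.eventually (hV.mem_nhds (h1 ▸ hz))
  filter_upwards [h2, h3, isOpen_ball.mem_nhds hz'] with t a b c
  exact ⟨c, _, b, a.2.symm⟩

/-- the plots as partial homeomorphisms -/
def ph (i : P.ι) : @OpenPartialHomeomorph ℂ M _ P.top :=
  letI := P.top
  OpenPartialHomeomorph.ofContinuousOpenRestrict ((P.inj i).toPartialEquiv _ _) (P.cont i)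
    (by
      intro V hV
      have h1 : IsOpen (Subtype.val '' V) := isOpen_ball.isOpenMap_subtype_val V hV
      have h2 := P.opn i h1 (by rintro _ ⟨z, -, rfl⟩; exact z.2)
      convert h2 using 1
      rw [image_image]; rfl) isOpen_ball

theorem ph_coe (i : P.ι) : (letI := P.top; ⇑(P.ph i)) = P.σ i := rfl
theorem ph_source (i : P.ι) : (letI := P.top; (P.ph i).source) = ball 0 (P.r i) := rfl

/-- the charted space -/
@[instance_reducible] def chs : @ChartedSpace ℂ _ M P.top :=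
  letI := P.top
  { atlas := range fun i => (P.ph i).symm
    chartAt := fun m => (P.ph (P.cov m).choose).symm
    mem_chart_source := fun m => by
      obtain ⟨z, hz, h⟩ := (P.cov m).choose_spec
      have := (P.ph (P.cov m).choose).map_source (x := z) hz
      rw [ph_coe, h] at this
      exact this
    chart_mem_atlas := fun m => ⟨_, rfl⟩ }

theorem mfd : letI := P.top; letI := P.chs; IsManifold 𝓘(ℂ) 1 M := by
  letI := P.top; letI := P.chs
  apply isManifold_of_contDiffOn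
  rintro _ _ ⟨i, rfl⟩ ⟨j, rfl⟩
  simp only [modelWithCornersSelf_coe, modelWithCornersSelf_coe_symm, Function.comp_id,
    Function.id_comp, preimage_id, range_id, inter_univ, OpenPartialHomeomorph.symm_symm]
  refine DifferentiableOn.contDiffOn ?_ (OpenPartialHomeomorph.open_source _)
  intro z hz
  have hz1 : z ∈ ball (0 : ℂ) (P.r i) := hz.1
  have hz2 : P.σ i z ∈ (P.ph j).target := hz.2
  have hz3 : (P.ph j).symm (P.σ i z) ∈ ball (0 : ℂ) (P.r j) := (P.ph j).map_target hz2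
  obtain ⟨φ, h1, h2⟩ := P.tr i j z hz1 _ hz3 ((P.ph j).right_inv hz2).symm
  have h3 : ∀ᶠ t in 𝓝 z, φ t ∈ ball (0 : ℂ) (P.r j) :=
    h2.self_of_nhds.1.continuousAt.eventually (isOpen_ball.mem_nhds (h1 ▸ hz3))
  refine (h2.self_of_nhds.1.congr_of_eventuallyEq ?_).differentiableWithinAt
  filter_upwards [h2, h3] with t a b
  show (P.ph j).symm (P.σ i t) = φ t
  rw [a.2]
  exact (P.ph j).left_inv b

theorem exists_mfd : ∃ (t : TopologicalSpace M) (c : @ChartedSpace ℂ _ M t),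
    IsManifold 𝓘(ℂ) 1 M ∧ ∀ i, ∃ e : OpenPartialHomeomorph ℂ M, e.MDifferentiable 𝓘(ℂ) 𝓘(ℂ) ∧
      ⇑e = P.σ i ∧ e.source = ball 0 (P.r i) := by
  letI := P.top; letI := P.chs
  haveI := P.mfd
  refine ⟨P.top, P.chs, P.mfd, fun i => ⟨P.ph i, ?_, rfl, rfl⟩⟩
  have hm : (P.ph i).symm ∈ atlas ℂ M := mem_range_self (f := fun i => (P.ph i).symm) i
  exact (mdifferentiable_of_mem_atlas (I := 𝓘(ℂ)) hm).symm

end Plots

variable {M : Type} [TopologicalSpace M] [ChartedSpace ℂ M]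

theorem d1_chart [IsManifold 𝓘(ℂ) 1 M] (m : M) : d1 (chartAt ℂ m) m = 1 := by
  have h := mfderiv_extChartAt_self (I := 𝓘(ℂ)) (x := m)
  have e : (extChartAt 𝓘(ℂ) m : M → ℂ) = chartAt ℂ m := by
    funext y; simp
  rw [e] at h
  unfold d1
  rw [h]; rfl

theorem d1_chart_symm [IsManifold 𝓘(ℂ) 1 M] (m : M) :
    d1 (chartAt ℂ m).symm (chartAt ℂ m m) = 1 := by
  have := d1_symm (mdifferentiable_chart (I := 𝓘(ℂ)) m) (mem_chart_source ℂ m)
  rwa [d1_chart, mul_one] at this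

theorem _root_.Vale.Agent.P247C.HolAt.self {σ : ℂ → M} {z : ℂ} (h : HolAt σ z) :
    MDifferentiableAt 𝓘(ℂ) 𝓘(ℂ) σ z := h.self_of_nhds

theorem _root_.Vale.Agent.P247C.HolAt.ev {σ : ℂ → M} {z : ℂ} (h : HolAt σ z) :
    ∀ᶠ t in 𝓝 z, HolAt σ t := h.eventually_nhds

theorem _root_.Vale.Agent.P247C.HolAt.comp {σ : ℂ → M} {ζ : ℂ → ℂ} {z : ℂ} (h : HolAt σ (ζ z))
    (hζ : AnalyticAt ℂ ζ z) : HolAt (σ ∘ ζ) z := by
  filter_upwards [hζ.continuousAt.eventually h, hζ.eventually_analyticAt] with t a b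
  exact a.comp t b.differentiableAt.mdifferentiableAt

theorem an_of_hol {σ : ℂ → M} {z : ℂ} (h : HolAt σ z) {f : M → ℂ}
    (hf : ∀ᶠ y in 𝓝 (σ z), MDifferentiableAt 𝓘(ℂ) 𝓘(ℂ) f y) : AnalyticAt ℂ (f ∘ σ) z := by
  rw [Complex.analyticAt_iff_eventually_differentiableAt]
  filter_upwards [h, h.self.continuousAt.eventually hf] with t a b
  exact (b.comp t a).differentiableAt

theorem dM_comp {σ : ℂ → M} {ζ : ℂ → ℂ} {z : ℂ} (h : MDifferentiableAt 𝓘(ℂ) 𝓘(ℂ) σ (ζ z))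
    (hζ : DifferentiableAt ℂ ζ z) : dM (σ ∘ ζ) z = dM σ (ζ z) * deriv ζ z := by
  rw [dM_eq, dM_eq, d1_comp h hζ.mdifferentiableAt, d1_deriv]

theorem dM_congr {σ σ' : ℂ → M} {z : ℂ} (h : σ =ᶠ[𝓝 z] σ') : dM σ z = dM σ' z := d1_congr h

/-- factorisation through a holomorphic immersion -/
theorem fac [IsManifold 𝓘(ℂ) 1 M] {σ σ' : ℂ → M} {z z' : ℂ} (h : HolAt σ z) (h' : HolAt σ' z')
    (he : σ z = σ' z') (hd : dM σ' z' ≠ 0) :
    ∃ ζ : ℂ → ℂ, AnalyticAt ℂ ζ z ∧ ζ z = z' ∧ σ =ᶠ[𝓝 z] σ' ∘ ζ := by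
  set φ := chartAt ℂ (σ' z') with hφ
  have hφd : φ.MDifferentiable 𝓘(ℂ) 𝓘(ℂ) := mdifferentiable_chart _
  have hm : σ' z' ∈ φ.source := mem_chart_source ℂ _
  have hev : ∀ᶠ y in 𝓝 (σ' z'), MDifferentiableAt 𝓘(ℂ) 𝓘(ℂ) φ y := by
    filter_upwards [φ.open_source.mem_nhds hm] with y hy
    exact hφd.mdifferentiableAt hy
  have a1 : AnalyticAt ℂ (φ ∘ σ) z := an_of_hol h (he ▸ hev)
  have a2 : AnalyticAt ℂ (φ ∘ σ') z' := an_of_hol h' hev
  have hd2 : deriv (φ ∘ σ') z' ≠ 0 := by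
    rw [← d1_deriv, d1_comp (hφd.mdifferentiableAt hm) h'.self, d1_chart, one_mul]
    exact hd
  have hst := a2.hasStrictDerivAt
  set g := hst.localInverse _ _ _ hd2 with hg
  have hr : ∀ᶠ y in 𝓝 ((φ ∘ σ') z'), (φ ∘ σ') (g y) = y := hst.eventually_right_inverse hd2
  have hg0 : g ((φ ∘ σ') z') = z' := (hst.eventually_left_inverse hd2).self_of_nhds
  have hga : AnalyticAt ℂ g ((φ ∘ σ') z') := by
    have hc : ContDiffAt ℂ ω (φ ∘ σ') z' := a2.contDiffAt
    have := hc.to_localInverse (f' := ContinuousLinearEquiv.unitsEquivAut ℂ (Units.mk0 _ hd2))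
      (hst.hasStrictFDerivAt_equiv hd2).hasFDerivAt (by simp)
    exact this.analyticAt
  have hz : (φ ∘ σ) z = (φ ∘ σ') z' := by simp [he]
  refine ⟨g ∘ (φ ∘ σ), hga.comp_of_eq a1 hz, by rw [Function.comp_apply, hz, hg0], ?_⟩
  have t1 : Tendsto (φ ∘ σ) (𝓝 z) (𝓝 ((φ ∘ σ') z')) := hz ▸ a1.continuousAt
  have t2 : Tendsto g (𝓝 ((φ ∘ σ') z')) (𝓝 z') := by
    have := hga.continuousAt
    rwa [ContinuousAt, hg0] at this
  have t3 : ∀ᶠ t in 𝓝 z', σ' t ∈ φ.source := h'.self.continuousAt.eventually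
    (φ.open_source.mem_nhds hm)
  have t4 : ∀ᶠ t in 𝓝 z, σ t ∈ φ.source := h.self.continuousAt.eventually
    (φ.open_source.mem_nhds (he ▸ hm))
  filter_upwards [t1.eventually hr, (t2.comp t1).eventually t3, t4] with t a b c
  exact φ.injOn c b a.symm

end Vale.Agent.P247C.RT
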