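import Vale.Agent.P247C.T5

/-!
# P247, block C toolkit: existence and uniqueness of the current of a compact curve
-/

set_option linter.all false

open scoped Manifold ContDiff Topology
open Set MeasureTheory Filter Metric

noncomputable section

namespace Vale.Agent.P247C

open Vale.Agent.P247.SCY Vale.Agent.P247.SCY.HS Vale.Agent.P247X

variable {X : Type} [Cl4 X] {J : EndF X} {T T' : Form X 2 → ℝ} {K U U' : Set X} {x x' : X}
  {N N' : ℕ} {u : Fin N → ℂ → X} {u' : Fin N' → ℂ → X}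

theorem at_pt (h : BrsX J K x N u U) {y : X} (hy : y ∈ U) (hK : y ∈ K) :
    ∃ (M : ℕ) (v : Fin M → ℂ → X) (V : Set X), BrsX J K y M v V ∧
      ∀ ψ, SuppIn ψ V → ∑ l, brX (u l) ψ = ∑ l, brX (v l) ψ := by
  by_cases hx : y = x
  · subst hx
    exact ⟨N, u, U, h, fun _ _ => rfl⟩
  obtain ⟨l, z, hz, rfl⟩ := h.cov y hy hK
  obtain ⟨s, V, -, -, h1, -, h2⟩ := h.recenter' (b12 hz) (fun e => hx (by rw [e, h.zero])) hy
    univ_mem
  refine ⟨1, _, V, h1, fun ψ hψ => ?_⟩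
  rw [Finset.sum_eq_single l (fun l' _ hl => (h2 ψ hψ).2 l' hl) (by simp), (h2 ψ hψ).1]
  simp

theorem brs_off (h : BrsX J K x N u U) {φ : Form X 2} (hφ : SuppIn φ Kᶜ) (l : Fin N) :
    brX (u l) φ = 0 := brX_zero fun z hz => SuppIn_zero hφ fun e => e (h.mem l z (b12 hz))

theorem preconn_cyc (hl : ∀ x ∈ K, ∃ (N : ℕ) (u : Fin N → ℂ → X) (U : Set X), BrsX J K x N u U)
    (h : IsPreconnected {x | x ∈ K ∧ RegPt J K x}) : IsPreconnected K := by
  refine h.subset_closure (fun x hx => hx.1) fun x hx => ?_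
  obtain ⟨N, u, U, hb⟩ := hl x hx
  obtain ⟨r, hr, hr1, h1⟩ := hb.in_nhds (hb.opn.mem_nhds hb.memU)
  refine closure_mono ?_ (hb.mem_closure ⟨0, hb.posN⟩ hr)
  rintro _ ⟨z, ⟨hz, h0⟩, rfl⟩
  have h2 := b12 (ball_subset_ball hr1 hz)
  exact ⟨hb.mem _ z h2, hb.regPt h2 h0 (h1 _ z hz)⟩

variable (hJ : ∀ x v, J x (J x v) = -v)
include hJ

/-- two branch structures define the same current on the overlap -/
theorem overlap (hK : IsClosed K) (h : BrsX J K x N u U) (h' : BrsX J K x' N' u' U')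
    {φ : Form X 2} (hφ : Cont φ) (hs : SuppIn φ (U ∩ U')) :
    ∑ l, brX (u l) φ = ∑ l, brX (u' l) φ := by
  refine lin_ext' (lin_brs h) (lin_brs h') hφ hs fun y hy => ?_
  by_cases hyK : y ∈ K
  · obtain ⟨M, v, V, hv, e⟩ := at_pt h hy.1 hyK
    obtain ⟨M', v', V', hv', e'⟩ := at_pt h' hy.2 hyK
    obtain ⟨L, W, ho, hyW, hW, -, e2⟩ := repar_brX hJ hv hv'
    refine ⟨W, ho.mem_nhds hyW, fun ψ _ hψ => ?_⟩
    have h1 := SuppIn_mono hψ inter_subset_left
    show ∑ l, brX (u l) ψ = ∑ l, brX (u' l) ψ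
    rw [e ψ (SuppIn_mono h1 (hW.trans inter_subset_left)),
      e' ψ (SuppIn_mono h1 (hW.trans inter_subset_right)), ← L.sum_comp]
    exact Finset.sum_congr rfl fun l _ => e2 ψ h1 l
  · refine ⟨Kᶜ, hK.isOpen_compl.mem_nhds hyK, fun ψ _ hψ => ?_⟩
    have h1 := SuppIn_mono hψ inter_subset_left
    show ∑ l, brX (u l) ψ = ∑ l, brX (u' l) ψ
    simp only [brs_off h h1, brs_off h' h1, Finset.sum_const_zero]

/-- every branch structure computes the current -/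
theorem Cyc.comp (hc : Cyc J K T) (h : BrsX J K x N u U) : Comp T u U := fun φ hφ hs => by
  refine lin_ext' hc.lin (lin_brs h) hφ hs fun y hy => ?_
  by_cases hyK : y ∈ K
  · obtain ⟨M, v, V, hv, e⟩ := hc.loc y hyK
    exact ⟨V, hv.opn.mem_nhds hv.memU, fun ψ h1 h2 => (e ψ h1
      (SuppIn_mono h2 inter_subset_left)).trans (overlap hJ hc.cpt.isClosed hv h h1 h2)⟩
  · refine ⟨Kᶜ, hc.cpt.isClosed.isOpen_compl.mem_nhds hyK, fun ψ h1 hψ => ?_⟩
    have h2 := SuppIn_mono hψ inter_subset_left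
    show T ψ = ∑ l, brX (u l) ψ
    simp only [brs_off h h2, hc.off ψ h1 h2, Finset.sum_const_zero]

theorem Cyc.uniq (hc : Cyc J K T) (hc' : Cyc J K T') {φ : Form X 2} (hφ : Cont φ) :
    T φ = T' φ := by
  refine lin_ext hc.lin hc'.lin hφ fun y => ?_
  by_cases hyK : y ∈ K
  · obtain ⟨M, v, V, hv, e⟩ := hc.loc y hyK
    refine ⟨V, hv.opn.mem_nhds hv.memU, fun χ a _ c => ?_⟩
    rw [e _ (cont_fsmul a.continuous hφ) (suppIn_fsmul c φ),
      hc'.comp hJ hv _ (cont_fsmul a.continuous hφ) (suppIn_fsmul c φ)]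
  · refine ⟨Kᶜ, hc.cpt.isClosed.isOpen_compl.mem_nhds hyK, fun χ a _ c => ?_⟩
    rw [hc.off _ (cont_fsmul a.continuous hφ) (suppIn_fsmul c φ),
      hc'.off _ (cont_fsmul a.continuous hφ) (suppIn_fsmul c φ)]

/-- the current of integration over a compact curve exists -/
theorem exists_cyc (hK : IsCompact K)
    (hl : ∀ x ∈ K, ∃ (N : ℕ) (u : Fin N → ℂ → X) (U : Set X), BrsX J K x N u U) :
    ∃ T, Cyc J K T := by
  have h1 : ∀ x, ∃ V ∈ 𝓝 x, ∃ S : Form X 2 → ℝ, LinC S ∧ (∀ φ, SuppIn φ Kᶜ → S φ = 0) ∧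
      ∀ (y : X) (M : ℕ) (v : Fin M → ℂ → X) (W : Set X), BrsX J K y M v W → ∀ φ, Cont φ →
        SuppIn φ (V ∩ W) → S φ = ∑ l, brX (v l) φ := fun x => by
    by_cases hx : x ∈ K
    · obtain ⟨N, u, U, h⟩ := hl x hx
      exact ⟨U, h.opn.mem_nhds h.memU, _, lin_brs h, fun φ hφ => Finset.sum_eq_zero
        fun l _ => brs_off h hφ l, fun y M v W hv φ h1 h2 => overlap hJ hK.isClosed h hv h1 h2⟩
    · exact ⟨Kᶜ, hK.isClosed.isOpen_compl.mem_nhds hx, _, lin_const, fun _ _ => rfl,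
        fun y M v W hv φ _ h2 => (Finset.sum_eq_zero fun l _ =>
          brs_off hv (SuppIn_mono h2 inter_subset_left) l).symm⟩
  choose V hV S hS h0 h1 using h1
  obtain ⟨s, χ, c1, -, c2, c3⟩ := exists_pu V hV
  refine ⟨fun φ => ∑ x ∈ s, S x fun y => χ x y • φ y, hK, ⟨fun φ ψ hφ hψ => ?_, fun r φ hφ => ?_⟩,
    fun φ _ hφ => Finset.sum_eq_zero fun x _ => h0 x _
      (SuppIn_mono (suppIn_fsmul' (c2 x) hφ) inter_subset_right), fun y hy => ?_⟩
  · rw [← Finset.sum_add_distrib]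
    refine Finset.sum_congr rfl fun x _ => ?_
    rw [← (hS x).add _ _ (cont_fsmul (c1 x).continuous hφ) (cont_fsmul (c1 x).continuous hψ)]
    simp only [smul_add]
  · rw [Finset.mul_sum]
    refine Finset.sum_congr rfl fun x _ => ?_
    rw [← (hS x).smul _ _ (cont_fsmul (c1 x).continuous hφ)]
    simp only [smul_comm r]
  · obtain ⟨M, v, W, hv⟩ := hl y hy
    refine ⟨M, v, W, hv, fun φ hφ hs => ?_⟩
    refine Eq.trans ?_ (lin_pu (lin_brs hv) (fun i _ => (c1 i).continuous) c3 hφ).symm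
    exact Finset.sum_congr rfl fun x _ => h1 x y M v W hv _ (cont_fsmul (c1 x).continuous hφ)
      (suppIn_fsmul' (c2 x) hs)

end Vale.Agent.P247C
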