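import Vale.Agent.P247C.T2
import Vale.Agent.P247.H74.WWIND.Wind
import Vale.Agent.P116.FK.Pom

/-!
# P247, block C: the winding number as an integral
-/

set_option linter.all false

open scoped ContDiff Topology
open Set MeasureTheory Filter Metric

noncomputable section

namespace Vale.Agent.P247C

open Vale.Agent.P247.H74 (HasWinding)
open Vale.Agent.P247.H74.WWIND

/-- the one-form `Im (df / f)` -/
def af (f : ℂ → ℂ) (a z : ℂ) : ℝ := ((f z)⁻¹ * fderiv ℝ f z a).im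

theorem af_mul_exp {f h g : ℂ → ℂ} {w : ℂ} (e : f =ᶠ[𝓝 w] fun y => h y * Complex.exp (g y))
    (hh : DifferentiableAt ℝ h w) (hg : DifferentiableAt ℝ g w) (h0 : h w ≠ 0) (a : ℂ) :
    af f a w = af h a w + fderiv ℝ (fun y => (g y).im) w a := by
  have h1 := hh.hasFDerivAt.mul hg.hasFDerivAt.cexp
  have h2 := (Complex.imCLM.hasFDerivAt.comp w hg.hasFDerivAt).fderiv
  have h3 : fderiv ℝ (fun y => (g y).im) w a = (fderiv ℝ g w a).im := DFunLike.congr_fun h2 a
  unfold af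
  rw [e.fderiv_eq, e.eq_of_nhds, h3, ← Complex.add_im]
  have h4 : fderiv ℝ (fun y => h y * Complex.exp (g y)) w a =
      h w * (Complex.exp (g w) * fderiv ℝ g w a) + Complex.exp (g w) * fderiv ℝ h w a :=
    DFunLike.congr_fun h1.fderiv a
  rw [h4]
  congr 1
  have := Complex.exp_ne_zero (g w)
  field_simp
  ring

theorem cd_log {f : ℂ → ℂ} {z : ℂ} (hf : ContDiffAt ℝ ∞ f z) (h0 : f z ≠ 0) :
    ContDiffAt ℝ ∞ (fun w => Complex.log (f w / f z)) z := by
  have h1 : ContDiffAt ℝ ∞ Complex.log (f z / f z) :=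
    (Complex.contDiffAt_log (by rw [div_self h0]; exact Complex.one_mem_slitPlane)).restrict_scalars ℝ
  exact ContDiffAt.comp z (g := Complex.log) (f := fun w => f w / f z) h1 (hf.div_const _)

theorem ev_diff {F : Type} [NormedAddCommGroup F] [NormedSpace ℝ F] {f : ℂ → F} {z : ℂ}
    (hf : ContDiffAt ℝ ∞ f z) : ∀ᶠ w in 𝓝 z, DifferentiableAt ℝ f w :=
  ((hf.of_le (by simp : (1 : WithTop ℕ∞) ≤ ∞)).eventually (by simp)).mono fun _ h =>
    h.differentiableAt (by simp)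

theorem curl_af {f : ℂ → ℂ} {z : ℂ} (hf : ContDiffAt ℝ ∞ f z) (h0 : f z ≠ 0) :
    curl (af f) z = 0 := by
  have hg := cd_log hf h0
  rw [← curl_grad (Complex.imCLM.contDiff.contDiffAt.comp z hg)]
  refine curl_congr fun a => ?_
  filter_upwards [ev_diff hg, (hf.continuousAt.eventually_ne h0).eventually_nhds] with w h1 h2
  have h3 : f =ᶠ[𝓝 w] fun y => (fun _ => f z) y * Complex.exp (Complex.log (f y / f z)) := by
    filter_upwards [h2] with y hy
    rw [Complex.exp_log (div_ne_zero hy h0), mul_div_cancel₀ _ h0]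
  rw [af_mul_exp h3 (differentiableAt_const _) h1 h0]
  simp [af]
  rfl

theorem cd_af {f : ℂ → ℂ} {z : ℂ} (hf : ContDiffAt ℝ ∞ f z) (h0 : f z ≠ 0) (a : ℂ) :
    ContDiffAt ℝ ∞ (af f a) z :=
  Complex.imCLM.contDiff.contDiffAt.comp z ((hf.inv h0).mul
    ((hf.fderiv_right (m := ∞) (by simp)).clm_apply contDiffAt_const))

theorem af_zpow (m : ℤ) {w : ℂ} (hw : w ≠ 0) (a : ℂ) :
    af (fun y => y ^ m) a w = m * af (fun y => y) a w := by
  have h1 := (hasF_mulC (hasDerivAt_zpow m w (Or.inl hw))).fderiv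
  unfold af
  rw [h1, mulC_apply, fderiv_fun_id, ContinuousLinearMap.id_apply, zpow_sub_one₀ hw]
  have h2 : (w ^ m)⁻¹ * (a * (m * (w ^ m * w⁻¹))) = (m : ℝ) * (w⁻¹ * a) := by
    have := zpow_ne_zero m hw
    push_cast
    field_simp
  rw [h2, Complex.im_ofReal_mul]

/-- a continuous logarithm of a smooth function is smooth -/
theorem cd_of_exp {f g : ℂ → ℂ} {z : ℂ} (hf : ContDiffAt ℝ ∞ f z) (hg : ContinuousAt g z)
    (e : ∀ᶠ w in 𝓝 z, f w = Complex.exp (g w)) : ContDiffAt ℝ ∞ g z := by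
  have h0 : f z ≠ 0 := by rw [e.self_of_nhds]; exact Complex.exp_ne_zero _
  refine ((contDiffAt_const (c := g z)).add (cd_log hf h0)).congr_of_eventuallyEq ?_
  filter_upwards [e, hg.eventually (ball_mem_nhds _ Real.pi_pos)] with w h1 h2
  have h3 : |(g w - g z).im| < Real.pi :=
    (Complex.abs_im_le_norm _).trans_lt (by rwa [← dist_eq_norm])
  rw [h1, e.self_of_nhds, ← Complex.exp_sub, Complex.log_exp (abs_lt.1 h3).1 (abs_lt.1 h3).2.le,
    add_sub_cancel]

theorem exists_log_annulus {f : ℂ → ℂ} {r ρ : ℝ} {m : ℤ} (h1 : 0 < r) (h12 : r ≤ ρ)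
    (hf : ContinuousOn f (closedBall 0 ρ \ ball 0 r)) (h0 : ∀ z ∈ closedBall 0 ρ \ ball 0 r, f z ≠ 0)
    (hw : HasWinding f 0 ρ m) : ∃ g : ℂ → ℂ, (∀ z, z ≠ 0 → ContinuousAt g z) ∧
      ∀ z ∈ closedBall (0 : ℂ) ρ \ ball 0 r, f z = z ^ m * Complex.exp (g z) := by
  set P : ℂ → ℂ := fun w => (max r (min ρ (Real.exp w.re)) : ℝ) *
    Complex.exp (w.im * Complex.I) with hP
  have hPc : Continuous P := by
    have : Continuous fun w : ℂ => max r (min ρ (Real.exp w.re)) := by fun_prop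
    have := Complex.continuous_ofReal.comp this
    simp only [Function.comp_def] at this
    fun_prop
  have hPm : ∀ w, P w ∈ closedBall (0 : ℂ) ρ \ ball 0 r := by
    intro w
    have h3 : dist (P w) 0 = max r (min ρ (Real.exp w.re)) := by
      rw [dist_zero_right, hP]
      simp only [norm_mul, Complex.norm_real, Complex.norm_exp_ofReal_mul_I, mul_one]
      exact abs_of_nonneg (le_max_of_le_left h1.le)
    refine ⟨?_, ?_⟩
    · rw [mem_closedBall, h3]
      exact max_le h12 (min_le_left _ _)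
    · rw [mem_ball, h3, not_lt]
      exact le_max_left _ _
  obtain ⟨G, hG, hG1⟩ := exists_log (F := fun w => f (P w))
    (hf.comp_continuous hPc hPm) (fun w => h0 _ (hPm w))
  obtain ⟨k, hk⟩ := exists_period hG hG1 (by
    intro w
    have e2 : Complex.exp (((w + tpi).im : ℝ) * Complex.I) = Complex.exp (w.im * Complex.I) := by
      have e1 : (w + tpi).im = w.im + 2 * Real.pi := by simp [tpi]
      rw [e1]
      push_cast
      rw [add_mul, Complex.exp_add, Complex.exp_two_pi_mul_I, mul_one]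
    have e3 : (w + tpi).re = w.re := by simp [tpi]
    simp only [hP, e2, e3])
  have key : ∀ z ∈ closedBall (0 : ℂ) ρ \ ball 0 r, f z = Complex.exp (G (Complex.log z)) := by
    intro z hz
    have h3 : r ≤ ‖z‖ := not_lt.1 fun h => hz.2 (mem_ball_zero_iff.2 h)
    have h4 : ‖z‖ ≤ ρ := mem_closedBall_zero_iff.1 hz.1
    have h5 : Real.exp (Complex.log z).re = ‖z‖ := by
      rw [Complex.log_re, Real.exp_log (h1.trans_le h3)]
    rw [← hG1]
    congr 1
    simp only [hP]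
    rw [h5, min_eq_right h4, max_eq_right h3]
    simpa using sphere_eq (c := 0) (z := z) (h1.trans_le h3) (by simp)
  have hρ := h1.trans_le h12
  have hmk : m = k := W1 f 0 ρ m k hρ hw (hasWinding_of_log hρ hG hk fun z hz => by
    rw [sub_zero]
    exact key z ⟨sphere_subset_closedBall hz, fun h => by
      rw [mem_ball_zero_iff, mem_sphere_zero_iff_norm.1 hz] at h; linarith⟩)
  subst hmk
  refine ⟨fun z => (fun w => G w - m * w) (Complex.log z), fun z hz => continuousAt_comp_log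
    (h := fun w => G w - m * w) (by fun_prop) (fun w => by simp only [hk]; ring) hz, fun z hz => ?_⟩
  have h6 : z ≠ 0 := fun e => hz.2 (e ▸ mem_ball_self h1)
  rw [key z hz, ← exp_log_zpow h6, ← Complex.exp_add]
  congr 1
  ring

theorem integrableOn_curl {P : ℂ → ℂ → ℝ} {Ω C : Set ℂ} (hΩ : IsOpen Ω) (hC : IsCompact C)
    (hP : ∀ a, ContDiffOn ℝ ∞ (P a) Ω) (h0 : ∀ a, ∀ z ∈ Ω, z ∉ C → P a z = 0) (h1 : C ⊆ Ω) :
    IntegrableOn (curl P) Ω := by
  have h2 : ∀ a b, ContinuousOn (fun z => fderiv ℝ (P a) z b) C := fun a b z hz =>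
    ((((hP a).contDiffAt (hΩ.mem_nhds (h1 hz))).fderiv_right (m := ∞)
      (by simp)).continuousAt.clm_apply continuousAt_const).continuousWithinAt
  refine (((h2 _ _).sub (h2 _ _)).integrableOn_compact hC).of_forall_diff_eq_zero
    hΩ.measurableSet fun z hz => ?_
  have h3 : ∀ a, P a =ᶠ[𝓝 z] fun _ => 0 := fun a => by
    filter_upwards [hΩ.mem_nhds hz.1, hC.isClosed.isOpen_compl.mem_nhds hz.2] with w h4 h5
    exact h0 a w h4 h5
  simp [(h3 _).fderiv_eq]

theorem curl_eta {κ : ℂ → ℝ} (hκ : ContDiff ℝ ∞ κ) (h1 : ∀ᶠ w in 𝓝 0, κ w = 1) (z : ℂ) :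
    curl (fun a w => (1 - κ w) * af (fun y => y) a w) z =
      - (z⁻¹ * P116.FK.db (fun w => (κ w : ℂ)) z).re := by
  have h2 : ∀ b, fderiv ℝ (fun w => (κ w : ℂ)) z b = (fderiv ℝ κ z b : ℝ) := fun b =>
    DFunLike.congr_fun (Complex.ofRealCLM.hasFDerivAt.comp z
      (hκ.differentiable (by simp) z).hasFDerivAt).fderiv b
  by_cases hz : z = 0
  · subst hz
    rw [curl_congr (Q := fun _ _ => 0) fun a => h1.mono fun w hw => by simp [hw]]
    simp [curl]
  rw [curl_mul (f := fun w => 1 - κ w) (P := af fun y => y)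
    ((differentiableAt_const _).sub (hκ.differentiable (by simp) z))
    fun a => (cd_af contDiffAt_id hz a).differentiableAt (by simp)]
  have h3 : curl (af fun y => y) z = 0 := curl_af contDiffAt_id hz
  rw [h3, fderiv_const_sub, P116.FK.db, h2, h2]
  simp [af]
  ring

theorem int_eta {κ : ℂ → ℝ} (hκ : ContDiff ℝ ∞ κ) (hs : HasCompactSupport κ)
    (h1 : ∀ᶠ w in 𝓝 0, κ w = 1) :
    Integrable (curl fun a w => (1 - κ w) * af (fun y => y) a w) ∧
      ∫ z, curl (fun a w => (1 - κ w) * af (fun y => y) a w) z = 2 * Real.pi := by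
  have h2 := P116.FK.pompeiu (ψ := fun w => (κ w : ℂ))
    (Complex.ofRealCLM.contDiff.comp (hκ.of_le (by simp))) (hs.comp_left Complex.ofReal_zero)
  rw [h1.self_of_nhds] at h2
  have h3 : Integrable fun z : ℂ => z⁻¹ * P116.FK.db (fun w => (κ w : ℂ)) z :=
    Integrable.of_integral_ne_zero (by rw [h2]; simp [Real.pi_ne_zero])
  rw [funext (curl_eta hκ h1)]
  refine ⟨h3.re.neg, ?_⟩
  have h4 := integral_re h3
  rw [h2] at h4
  rw [integral_neg]
  simp only [RCLike.re_to_complex] at h4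
  rw [h4]
  simp

/-- the winding number is the integral of `d Q` if `Q = Im (df / f)` near the circle -/
theorem int_curl_wind {Q : ℂ → ℂ → ℝ} {f : ℂ → ℂ} {ρ : ℝ} {m : ℤ} (hρ : 0 < ρ)
    (hQ : ∀ a, ContDiffOn ℝ ∞ (Q a) (ball 0 ρ)) {O : Set ℂ} (hO : IsOpen O) (hs : sphere 0 ρ ⊆ O)
    (hf : ContDiffOn ℝ ∞ f O) (h0 : ∀ z ∈ O, f z ≠ 0) (he : ∀ a, ∀ z ∈ O, Q a z = af f a z)
    (hw : HasWinding f 0 ρ m) : ∫ z in ball (0 : ℂ) ρ, curl Q z = 2 * Real.pi * m := by
  obtain ⟨r, hr, hrρ, hA⟩ : ∃ r, 0 < r ∧ r < ρ ∧ closedBall (0 : ℂ) ρ \ ball 0 r ⊆ O := by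
    obtain ⟨r, h1, h2⟩ := exists_pos_lt_subset_ball hρ
      (isClosed_closedBall.sdiff hO : IsClosed (closedBall (0 : ℂ) ρ \ O)) fun z hz =>
        mem_ball_zero_iff.2 (lt_of_le_of_ne (mem_closedBall_zero_iff.1 hz.1)
          fun e => hz.2 (hs (mem_sphere_zero_iff_norm.2 e)))
    exact ⟨r, h1.1, h1.2, fun z hz => by_contra fun h => hz.2 (h2 ⟨hz.1, h⟩)⟩
  obtain ⟨g, hg, hfg⟩ := exists_log_annulus hr hrρ.le (hf.continuousOn.mono hA)
    (fun z hz => h0 z (hA hz)) hw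
  set κ : ContDiffBump (0 : ℂ) := ⟨(2 * r + ρ) / 3, (r + 2 * ρ) / 3, by linarith, by linarith⟩
  have hκ1 : ∀ z : ℂ, ‖z‖ ≤ r → ∀ᶠ w in 𝓝 z, κ w = 1 := fun z hz =>
    κ.eventuallyEq_one_of_mem_ball (mem_ball_zero_iff.2 (by show _ < (2 * r + ρ) / 3; linarith))
  have hκd : ContDiff ℝ ∞ fun w => 1 - κ w := contDiff_const.sub κ.contDiff
  have hAo : ∀ z ∈ ball (0 : ℂ) ρ, r < ‖z‖ → closedBall (0 : ℂ) ρ \ ball 0 r ∈ 𝓝 z := fun z h1 h2 =>
    mem_of_superset ((isOpen_ball.sdiff isClosed_closedBall).mem_nhds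
      ⟨h1, fun h => h2.not_ge (mem_closedBall_zero_iff.1 h)⟩)
      (diff_subset_diff ball_subset_closedBall ball_subset_closedBall)
  have hne : ∀ z : ℂ, r < ‖z‖ → z ≠ 0 := fun z h e => by rw [e, norm_zero] at h; linarith
  have hzp : ∀ z : ℂ, z ≠ 0 → ContDiffAt ℝ ∞ (fun y : ℂ => y ^ m) z := fun z hz =>
    (((analyticAt_id (𝕜 := ℂ)).zpow (n := m) hz).contDiffAt (n := ∞)).restrict_scalars ℝ
  have hgd : ∀ z ∈ ball (0 : ℂ) ρ, r < ‖z‖ → ContDiffAt ℝ ∞ g z := fun z h1 h2 => by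
    refine cd_of_exp (f := fun y => f y * (y ^ m)⁻¹) ((hf.contDiffAt (hO.mem_nhds
      (hA (mem_of_mem_nhds (hAo z h1 h2))))).mul ((hzp z (hne z h2)).inv
        (zpow_ne_zero _ (hne z h2)))) (hg z (hne z h2)) ?_
    filter_upwards [hAo z h1 h2, isOpen_ne.mem_nhds (hne z h2)] with y h3 h4
    rw [hfg y h3, mul_comm, ← mul_assoc, inv_mul_cancel₀ (zpow_ne_zero _ h4), one_mul]
  have cut : ∀ F : ℂ → ℝ, (∀ z ∈ ball (0 : ℂ) ρ, r < ‖z‖ → ContDiffAt ℝ ∞ F z) →
      ∀ z ∈ ball (0 : ℂ) ρ, ContDiffAt ℝ ∞ (fun w => (1 - κ w) * F w) z := fun F hF z hz => by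
    rcases le_or_gt ‖z‖ r with h | h
    · exact (contDiffAt_const (c := 0)).congr_of_eventuallyEq
        ((hκ1 z h).mono fun w hw => by simp [hw])
    · exact hκd.contDiffAt.mul (hF z hz h)
  set G : ℂ → ℝ := fun w => (1 - κ w) * (g w).im with hGdef
  set E : ℂ → ℂ → ℝ := fun a w => (1 - κ w) * af (fun y => y) a w with hE
  have hG : ∀ z ∈ ball (0 : ℂ) ρ, ContDiffAt ℝ ∞ G z := cut _ fun z h1 h2 =>
    Complex.imCLM.contDiff.contDiffAt.comp z (hgd z h1 h2)
  have hG' : ∀ a, ∀ z ∈ ball (0 : ℂ) ρ, ContDiffAt ℝ ∞ (fun w => fderiv ℝ G w a) z := fun a z hz =>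
    ((hG z hz).fderiv_right (m := ∞) (by simp)).clm_apply contDiffAt_const
  have hEd : ∀ a, ∀ z ∈ ball (0 : ℂ) ρ, ContDiffAt ℝ ∞ (E a) z := fun a => cut _ fun z _ h2 =>
    cd_af contDiffAt_id (hne z h2) a
  set R : ℂ → ℂ → ℝ := fun a w => Q a w - m * E a w - fderiv ℝ G w a with hR
  have hRd : ∀ a, ContDiffOn ℝ ∞ (R a) (ball 0 ρ) := fun a z hz =>
    ((hQ a z hz).sub (contDiffAt_const.mul (hEd a z hz)).contDiffWithinAt).sub
      (hG' a z hz).contDiffWithinAt
  have hC : closedBall (0 : ℂ) κ.rOut ⊆ ball 0 ρ :=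
    closedBall_subset_ball (by show (r + 2 * ρ) / 3 < ρ; linarith)
  have hκ0 : ∀ z, z ∉ closedBall (0 : ℂ) κ.rOut → ∀ᶠ w in 𝓝 z, κ w = 0 := fun z hz =>
    notMem_tsupport_iff_eventuallyEq.1 (by rwa [κ.tsupport_eq])
  have hR0 : ∀ a, ∀ z ∈ ball (0 : ℂ) ρ, z ∉ closedBall (0 : ℂ) κ.rOut → R a z = 0 := by
    intro a z hz hz'
    have h2 : r < ‖z‖ := by
      have h3 : (r + 2 * ρ) / 3 < ‖z‖ := not_le.1 fun h => hz' (mem_closedBall_zero_iff.2 h)
      linarith
    have h3 : G =ᶠ[𝓝 z] fun w => (g w).im := (hκ0 z hz').mono fun w hw => by simp [hGdef, hw]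
    simp only [hR, hE]
    rw [he a z (hA (mem_of_mem_nhds (hAo z hz h2))), af_mul_exp (h := fun y => y ^ m) (g := g)
      (mem_of_superset (hAo z hz h2) hfg) ((hzp z (hne z h2)).differentiableAt (by simp))
      ((hgd z hz h2).differentiableAt (by simp)) (zpow_ne_zero _ (hne z h2)),
      af_zpow m (hne z h2), h3.fderiv_eq, (hκ0 z hz').self_of_nhds]
    ring
  obtain ⟨i1, i2⟩ := int_eta κ.contDiff κ.hasCompactSupport (hκ1 0 (by simp [hr.le]))
  have e1 : ∀ z ∈ ball (0 : ℂ) ρ, curl Q z = curl R z + m * curl E z := fun z hz => by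
    have d1 := fun a => ((hRd a).contDiffAt (isOpen_ball.mem_nhds hz)).differentiableAt (by simp)
    have d2 := fun a => (hEd a z hz).differentiableAt (by simp)
    have d3 := fun a => (hG' a z hz).differentiableAt (by simp)
    have e : Q = fun a w => (R a w + (fun _ => (m : ℝ)) w * E a w) + fderiv ℝ G w a := by
      funext a w; simp only [hR]; ring
    rw [e, curl_add (P := fun a w => R a w + (fun _ => (m : ℝ)) w * E a w)
      (fun a => (d1 a).add ((d2 a).const_mul _)) d3, curl_grad (hG z hz),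
      curl_add (Q := fun a w => (fun _ => (m : ℝ)) w * E a w) d1 fun a => (d2 a).const_mul _,
      curl_mul (differentiableAt_const _) d2]
    simp
  rw [setIntegral_congr_fun measurableSet_ball e1, integral_add (integrableOn_curl isOpen_ball
    (isCompact_closedBall _ _) hRd hR0 hC) (i1.const_mul _).integrableOn,
    int_curl_zero isOpen_ball (isCompact_closedBall _ _) hRd hR0 measurableSet_ball hC Subset.rfl,
    integral_const_mul, setIntegral_eq_integral_of_forall_compl_eq_zero, i2]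
  · ring
  · intro z hz
    have h2 : z ≠ 0 := fun e => hz (e ▸ mem_ball_self hρ)
    rw [curl_congr (Q := af fun y => y) fun a => (hκ0 z fun h => hz (hC h)).mono
      fun w hw => by simp [hE, hw]]
    exact curl_af contDiffAt_id h2

end Vale.Agent.P247C
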