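import Vale.Agent.P247C.T6
import Vale.Agent.P247C.Wl

/-!
# P247, block C: the connection form of a section without zeros
-/

set_option linter.all false

open scoped Manifold ContDiff Topology
open Set MeasureTheory Filter Metric

noncomputable section

namespace Vale.Agent.P247C

open Vale.Agent.P247.SCY Vale.Agent.P247.SCY.HS Vale.Agent.P247X

variable {X : Type} [TopologicalSpace X] [ChartedSpace HS.E4 X]

/-- the differential of a complex function as a map on the model space -/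
def dC (s : X → ℂ) (x : X) : HS.E4 →L[ℝ] ℂ := mfderiv (𝓡 4) 𝓘(ℝ, ℂ) s x

/-- linear forms as one-forms -/
def oneL : (HS.E4 →L[ℝ] ℝ) ≃ₗᵢ[ℝ] (HS.E4 [⋀^Fin 1]→L[ℝ] ℝ) :=
  ContinuousAlternatingMap.ofSubsingletonLIE (0 : Fin 1)

/-- the one-form `Im (ds / s)` -/
def thX (s : X → ℂ) : Form X 1 := fun x => oneL (Complex.imCLM.comp ((s x)⁻¹ • dC s x))

theorem thX_apply (s : X → ℂ) (x : X) (v : TangentSpace (𝓡 4) x) :
    thX s x ![v] = ((s x)⁻¹ * dfc s x v).im := rfl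

theorem form1_ext {η η' : Form X 1} {x : X} (h : ∀ v, η x ![v] = η' x ![v]) : η x = η' x := by
  ext v
  have e : v = ![v 0] := by funext i; fin_cases i; rfl
  rw [e]
  exact h _

theorem pull1_thX {s : X → ℂ} {u : ℂ → X} {z : ℂ} (hs : MDifferentiableAt (𝓡 4) 𝓘(ℝ, ℂ) s (u z))
    (hu : MDifferentiableAt 𝓘(ℝ, ℂ) (𝓡 4) u z) (a : ℂ) :
    pull1 (thX s) u a z = af (fun w => s (u w)) a z := by
  have h := mfderiv_comp z hs hu
  rw [mfderiv_eq_fderiv] at h
  have h1 : fderiv ℝ (fun w => s (u w)) z a = dfc s (u z) (dm u z a) := DFunLike.congr_fun h a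
  unfold af
  rw [h1]
  rfl

theorem thX_mul {g s t : X → ℂ} {x : X} (e : t =ᶠ[𝓝 x] fun y => g y * s y)
    (hg : MDifferentiableAt (𝓡 4) 𝓘(ℝ, ℂ) g x) (hs : MDifferentiableAt (𝓡 4) 𝓘(ℝ, ℂ) s x)
    (g0 : g x ≠ 0) (s0 : s x ≠ 0) (v : TangentSpace (𝓡 4) x) :
    thX t x ![v] = thX g x ![v] + thX s x ![v] := by
  have h1 : dfc t x v = g x * dfc s x v + s x * dfc g x v :=
    (DFunLike.congr_fun e.mfderiv_eq v).trans
      (DFunLike.congr_fun (hg.hasMFDerivAt.mul hs.hasMFDerivAt).mfderiv v)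
  rw [thX_apply, thX_apply, thX_apply, h1, e.eq_of_nhds, ← Complex.add_im]
  congr 1
  field_simp
  ring

variable [IsManifold (𝓡 4) ∞ X] {k : ℕ}

theorem smoothOn_thX {s : X → ℂ} {V : Set X} (hV : IsOpen V)
    (hs : ContMDiffOn (𝓡 4) 𝓘(ℝ, ℂ) ∞ s V) (h0 : ∀ x ∈ V, s x ≠ 0) : SmoothOn V (thX s) := by
  intro c hc y hy
  have ho := (c.symm.isOpen_inter_preimage hV).mem_nhds hy
  have h1 : ContDiffAt ℝ ∞ (fun y => s (c.symm y)) y :=
    ((hs.contMDiffAt (hV.mem_nhds hy.2)).comp y (cmd_symm hc hy.1)).contDiffAt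
  have h2 : ContDiffAt ℝ ∞ (fun y => oneL (Complex.imCLM.comp ((s (c.symm y))⁻¹ •
      fderiv ℝ (fun y => s (c.symm y)) y))) y :=
    oneL.contDiff.contDiffAt.comp y (contDiffAt_const.clm_comp
      ((h1.inv (h0 _ hy.2)).smul (h1.fderiv_right (m := ∞) (by simp))))
  refine (h2.congr_of_eventuallyEq ?_).contDiffWithinAt
  filter_upwards [ho] with y' hy'
  have h := mfderiv_comp y' ((hs.contMDiffAt (hV.mem_nhds hy'.2)).mdifferentiableAt (by simp))
    (P204.Mfd.mdiff_symm hc hy'.1)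
  rw [mfderiv_eq_fderiv] at h
  ext v
  have h3 : fderiv ℝ (fun y => s (c.symm y)) y' (v 0) =
      dC s (c.symm y') (mfderiv (𝓡 4) (𝓡 4) c.symm y' (v 0)) := DFunLike.congr_fun h (v 0)
  show ((s (c.symm y'))⁻¹ * dC s (c.symm y') (mfderiv (𝓡 4) (𝓡 4) c.symm y' (v 0))).im =
    ((s (c.symm y'))⁻¹ * fderiv ℝ (fun y => s (c.symm y)) y' (v 0)).im
  rw [h3]

theorem smoothOn_mono {η : Form X k} {U V : Set X} (h : SmoothOn U η) (hVU : V ⊆ U) :
    SmoothOn V η := fun c hc => (h c hc).mono (inter_subset_inter_right _ (preimage_mono hVU))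

theorem smoothOn_sub {η η' : Form X k} {U : Set X} (h : SmoothOn U η) (h' : SmoothOn U η') :
    SmoothOn U fun x => η x - η' x := fun c hc => by
  have e : loc c (fun x => η x - η' x) = fun y => loc c η y - loc c η' y := by
    funext y; ext v; rfl
  rw [e]
  exact (h c hc).sub (h' c hc)

theorem smoothOn_of_loc {η : Form X k} {W : Set X} (h : ∀ x ∈ W, ∃ (V : Set X) (η' : Form X k),
    IsOpen V ∧ x ∈ V ∧ SmoothOn V η' ∧ ∀ y ∈ V, η y = η' y) : SmoothOn W η := by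
  intro c hc y hy
  obtain ⟨V, η', h1, h2, h3, h4⟩ := h _ hy.2
  have ho := (c.symm.isOpen_inter_preimage h1).mem_nhds ⟨hy.1, h2⟩
  refine (((h3 c hc).contDiffAt ho).congr_of_eventuallyEq ?_).contDiffWithinAt
  filter_upwards [ho] with y' hy'
  unfold loc
  rw [h4 _ hy'.2]

/-- a smooth section without zeros on the open set `W` -/
structure SecOn (L : LB X) (W : Set X) (σ : Fin L.n → X → ℂ) : Prop where
  opn : IsOpen W
  smooth : ∀ i, ContMDiffOn (𝓡 4) 𝓘(ℝ, ℂ) ∞ (σ i) (W ∩ L.U i)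
  ne : ∀ i, ∀ x ∈ W ∩ L.U i, σ i x ≠ 0
  tr : ∀ i j, ∀ x ∈ W ∩ L.U i ∩ L.U j, σ i x = L.g i j x * σ j x

/-- the connection form in the trivialisation given by the section -/
def conn (L : LB X) (σ : Fin L.n → X → ℂ) : Form X 1 := fun x =>
  thX (σ (L.cov x).choose) x - L.A (L.cov x).choose x

variable {L : LB X} {W : Set X} {σ : Fin L.n → X → ℂ} (h : SecOn L W σ)
include h

theorem SecOn.md (i : Fin L.n) {x : X} (hx : x ∈ W ∩ L.U i) :
    MDifferentiableAt (𝓡 4) 𝓘(ℝ, ℂ) (σ i) x :=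
  ((h.smooth i).contMDiffAt ((h.opn.inter (L.opn i)).mem_nhds hx)).mdifferentiableAt (by simp)

theorem conn_eq {j : Fin L.n} {x : X} (hx : x ∈ W ∩ L.U j) :
    conn L σ x = thX (σ j) x - L.A j x := by
  have hi := (L.cov x).choose_spec
  set i := (L.cov x).choose
  refine form1_ext (η := conn L σ) (η' := fun x => thX (σ j) x - L.A j x) fun v => ?_
  have hn := L.g_norm i j x ⟨hi, hx.2⟩
  have g0 : L.g i j x ≠ 0 := fun e => by rw [e, norm_zero] at hn; exact zero_ne_one hn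
  have h1 := thX_mul (t := σ i) (g := L.g i j) (s := σ j) (by
    filter_upwards [((h.opn.inter (L.opn i)).inter (L.opn j)).mem_nhds ⟨⟨hx.1, hi⟩, hx.2⟩] with y hy
    exact h.tr i j y hy) (((L.g_smooth i j).contMDiffAt (((L.opn i).inter (L.opn j)).mem_nhds
      ⟨hi, hx.2⟩)).mdifferentiableAt (by simp)) (h.md j hx) g0 (h.ne j x hx) v
  have h2 := L.A_tr i j x ⟨hi, hx.2⟩ v
  rw [← Complex.inv_eq_conj hn, ← thX_apply] at h2
  show thX (σ i) x ![v] - L.A i x ![v] = thX (σ j) x ![v] - L.A j x ![v]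
  linarith

theorem smoothOn_conn : SmoothOn W (conn L σ) := smoothOn_of_loc fun x hx => by
  obtain ⟨j, hj⟩ := L.cov x
  exact ⟨W ∩ L.U j, _, h.opn.inter (L.opn j), ⟨hx, hj⟩, smoothOn_sub (smoothOn_thX
    (h.opn.inter (L.opn j)) (h.smooth j) (h.ne j)) (smoothOn_mono (L.A_smooth j)
      inter_subset_right), fun y hy => conn_eq h hy⟩

variable {ψ : X → ℝ} (hψ : ContMDiff (𝓡 4) 𝓘(ℝ, ℝ) ∞ ψ) (hs : tsupport ψ ⊆ W) {u : ℂ → X}
  {Ω : Set ℂ} (hΩ : IsOpen Ω) (hu : ContMDiffOn 𝓘(ℝ, ℂ) (𝓡 4) ∞ u Ω)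
include hψ hs

theorem smooth_beta : Smooth fun x => ψ x • conn L σ x :=
  smooth_cut hψ h.opn (smoothOn_conn h) hs

include hΩ hu

theorem cd_Q {j : Fin L.n} {z : ℂ} (hz : z ∈ Ω) (hj : u z ∈ L.U j) (a : ℂ) : ContDiffAt ℝ ∞
    (fun w => pull1 (L.A j) u a w + pull1 (fun x => ψ x • conn L σ x) u a w) z :=
  (cd_pull1 (L.opn j) (L.A_smooth j) hΩ hu hz hj a).add
    (cd_pull1 isOpen_univ (smoothOn_univ.2 (smooth_beta h hψ hs)) hΩ hu hz trivial a)

theorem pull2_Phi {j : Fin L.n} {z : ℂ} (hz : z ∈ Ω) (hj : u z ∈ L.U j) :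
    pull2 (fun x => (2 * Real.pi) • L.F x + dX (fun x => ψ x • conn L σ x) x) u z =
      curl (fun a w => pull1 (L.A j) u a w + pull1 (fun x => ψ x • conn L σ x) u a w) z := by
  have hb := smoothOn_univ.2 (smooth_beta h hψ hs)
  rw [curl_add (fun a => (cd_pull1 (L.opn j) (L.A_smooth j) hΩ hu hz hj a).differentiableAt
    (by simp)) fun a => (cd_pull1 isOpen_univ hb hΩ hu hz trivial a).differentiableAt (by simp),
    ← pull2_DOn (L.opn j) (L.A_smooth j) (L.dA j) hΩ hu hz hj,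
    ← pull2_dX isOpen_univ hb hΩ hu hz trivial]
  rfl

omit hψ hs in
theorem Q_eq {j : Fin L.n} {z : ℂ} (hz : z ∈ Ω) (hj : u z ∈ W ∩ L.U j) (h1 : ψ (u z) = 1)
    (a : ℂ) : pull1 (L.A j) u a z + pull1 (fun x => ψ x • conn L σ x) u a z =
      af (fun w => σ j (u w)) a z := by
  rw [← pull1_thX (h.md j hj) ((hu.contMDiffAt (hΩ.mem_nhds hz)).mdifferentiableAt (by simp))]
  unfold pull1
  beta_reduce
  rw [h1, one_smul, conn_eq h hj]
  exact add_sub_cancel _ _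

theorem pull2_Phi_zero {z : ℂ} (hz : z ∈ Ω) (h1 : ∀ᶠ y in 𝓝 (u z), ψ y = 1) :
    pull2 (fun x => (2 * Real.pi) • L.F x + dX (fun x => ψ x • conn L σ x) x) u z = 0 := by
  obtain ⟨j, hj⟩ := L.cov (u z)
  have hW : u z ∈ W := hs (subset_tsupport _ (by
    rw [Function.mem_support, h1.self_of_nhds]; exact one_ne_zero))
  have hc := hu.contMDiffAt (hΩ.mem_nhds hz)
  have ho := (h.opn.inter (L.opn j)).mem_nhds ⟨hW, hj⟩
  rw [pull2_Phi h hψ hs hΩ hu hz hj, ← curl_af (f := fun w => σ j (u w))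
    (((h.smooth j).contMDiffAt ho).comp z hc).contDiffAt (h.ne j _ ⟨hW, hj⟩)]
  refine curl_congr fun a => ?_
  filter_upwards [hΩ.mem_nhds hz, hc.continuousAt.eventually ho, hc.continuousAt.eventually h1]
    with w a1 a2 a3
  exact Q_eq h hΩ hu a1 a2 a3 a

end Vale.Agent.P247C
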