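import Vale.Agent.P247C.RTPl

/-!
# P247, block C: meromorphic vector fields on Riemann surfaces
-/

set_option linter.all false

open scoped Topology Manifold ContDiff
open Set Filter Metric

noncomputable section

namespace Vale.Agent.P247C.RT

open Vale.Agent.P247.H74 (HasWinding)

theorem wind_of {e g : ℂ → ℂ} {k : ℤ} (hg : AnalyticAt ℂ g 0) (h0 : g 0 ≠ 0)
    (he : ∀ᶠ z in 𝓝[≠] (0 : ℂ), e z = z ^ k * g z) :
    (∀ᶠ z in 𝓝[≠] (0 : ℂ), ContinuousAt e z ∧ e z ≠ 0) ∧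
      ∀ᶠ ρ in 𝓝[>] (0 : ℝ), HasWinding e 0 ρ k := by
  have h1 : ∀ᶠ z in 𝓝 (0 : ℂ), g z / g 0 ∈ Complex.slitPlane :=
    (hg.continuousAt.div_const _).eventually (Complex.isOpen_slitPlane.mem_nhds (by simp [h0]))
  have h2 : ∀ᶠ z in 𝓝 (0 : ℂ), z ≠ 0 → e z = z ^ k * g z := eventually_nhdsWithin_iff.1 he
  obtain ⟨r, hr, hb⟩ := Metric.eventually_nhds_iff_ball.1
    ((h1.and h2).and (hg.eventually_analyticAt.and (hg.continuousAt.eventually_ne h0)))
  constructor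
  · filter_upwards [mem_nhdsWithin_of_mem_nhds (ball_mem_nhds (0 : ℂ) hr), self_mem_nhdsWithin]
      with z hz hz0
    have hz0' : z ≠ 0 := hz0
    refine ⟨((continuousAt_zpow₀ z k (Or.inl hz0')).mul (hb z hz).2.1.continuousAt).congr ?_, ?_⟩
    · filter_upwards [isOpen_ball.mem_nhds hz, isOpen_ne.mem_nhds hz0'] with t a b
      exact ((hb t a).1.2 b).symm
    · rw [(hb z hz).1.2 hz0']
      exact mul_ne_zero (zpow_ne_zero _ hz0') (hb z hz).2.2
  · filter_upwards [Ioo_mem_nhdsGT hr] with ρ hρ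
    have hs : ∀ z ∈ sphere (0 : ℂ) ρ, z ∈ ball (0 : ℂ) r ∧ z ≠ 0 := fun z hz =>
      ⟨sphere_subset_ball hρ.2 hz, ne_of_mem_sphere hz hρ.1.ne'⟩
    refine ⟨fun z => Complex.log (g 0) + Complex.log (g z / g 0), fun z hz => ?_, fun z hz => ?_⟩
    · exact (continuousAt_const.add (((hb z (hs z hz).1).2.1.continuousAt.div_const _).clog
        (hb z (hs z hz).1).1.1)).continuousWithinAt
    · rw [(hb z (hs z hz).1).1.2 (hs z hz).2, sub_zero, Complex.exp_add, Complex.exp_log h0,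
        Complex.exp_log (div_ne_zero (hb z (hs z hz).1).2.2 h0), mul_div_cancel₀ _ h0]

variable {M : Type} [TopologicalSpace M] [ChartedSpace ℂ M] [IsManifold 𝓘(ℂ) 1 M]

theorem ev_dM {σ : ℂ → M} {z : ℂ} (h : HolAt σ z) (hd : dM σ z ≠ 0) :
    ∀ᶠ t in 𝓝 z, dM σ t ≠ 0 := by
  set φ := chartAt ℂ (σ z) with hφ
  have hev : ∀ᶠ y in 𝓝 (σ z), MDifferentiableAt 𝓘(ℂ) 𝓘(ℂ) φ y := by
    filter_upwards [φ.open_source.mem_nhds (mem_chart_source ℂ _)] with y hy
    exact (mdifferentiable_chart _).mdifferentiableAt hy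
  have a : AnalyticAt ℂ (φ ∘ σ) z := an_of_hol h hev
  have hd2 : deriv (φ ∘ σ) z ≠ 0 := by
    rw [← d1_deriv, d1_comp hev.self_of_nhds h.self, d1_chart, one_mul]; exact hd
  filter_upwards [a.deriv.continuousAt.eventually_ne hd2, h, h.self.continuousAt.eventually hev]
    with t b c d
  rw [← d1_deriv, d1_comp d c] at b
  exact right_ne_zero_of_mul b

theorem map_hol {σ : ℂ → M} {z : ℂ} (h : HolAt σ z) (hd : dM σ z ≠ 0) :
    map σ (𝓝 z) = 𝓝 (σ z) := by
  refine le_antisymm h.self.continuousAt ?_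
  set φ := chartAt ℂ (σ z) with hφ
  have hm : σ z ∈ φ.source := mem_chart_source ℂ _
  obtain ⟨ζ, a, b, c⟩ := fac (holAt_chart (σ z) (φ.map_source hm)) h (φ.left_inv hm) hd
  rw [← φ.symm_map_nhds_eq hm, map_congr c, ← map_map]
  have := a.continuousAt
  rw [ContinuousAt, b] at this
  exact map_mono this

theorem exists_plot (m : M) : ∃ σ : ℂ → M, σ 0 = m ∧ HolAt σ 0 ∧ dM σ 0 ≠ 0 := by
  set φ := chartAt ℂ m with hφ
  have hm : m ∈ φ.source := mem_chart_source ℂ _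
  have h1 : HolAt φ.symm ((fun z => φ m + z) 0) := by
    simpa using holAt_chart m (φ.map_source hm)
  refine ⟨φ.symm ∘ fun z => φ m + z, by simp [φ.left_inv hm], h1.comp (by fun_prop), ?_⟩
  rw [dM_comp h1.self (by fun_prop), add_zero, dM_eq, d1_chart_symm]
  simp

/-- the vector field `τ` has order `- o` in the plot `σ` -/
def Ord (τ : M → ℂ) (o : ℤ) (σ : ℂ → M) (reg : Prop) : Prop :=
  ∃ g : ℂ → ℂ, AnalyticAt ℂ g 0 ∧ g 0 ≠ 0 ∧
    (∀ᶠ z in 𝓝[≠] (0 : ℂ), τ (σ z) / dM σ z = z ^ (-o) * g z) ∧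
    (reg → τ (σ 0) / dM σ 0 = g 0)

theorem Ord.change {τ : M → ℂ} {o : ℤ} {σ σ' : ℂ → M} {reg : Prop} (H : Ord τ o σ' reg)
    (ho : reg → o = 0) (h : HolAt σ 0) (hd : dM σ 0 ≠ 0) (h' : HolAt σ' 0) (hd' : dM σ' 0 ≠ 0)
    (he : σ 0 = σ' 0) : Ord τ o σ reg := by
  obtain ⟨g, g1, g2, g3, g4⟩ := H
  obtain ⟨ζ, a, b, c⟩ := fac h h' he hd'
  have ht : Tendsto ζ (𝓝 0) (𝓝 0) := by
    have := a.continuousAt
    rwa [ContinuousAt, b] at this
  have hdM : ∀ᶠ z in 𝓝 (0 : ℂ), dM σ z = dM σ' (ζ z) * deriv ζ z := by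
    filter_upwards [c.eventually_nhds, ht.eventually h', a.eventually_analyticAt] with z a1 a2 a3
    rw [dM_congr a1, dM_comp a2 a3.differentiableAt]
  have hζ : deriv ζ 0 ≠ 0 := by
    rw [hdM.self_of_nhds] at hd
    exact right_ne_zero_of_mul hd
  obtain ⟨p, hp⟩ := a
  have hs : AnalyticAt ℂ (dslope ζ 0) 0 := ⟨_, hp.has_fpower_series_dslope_fslope⟩
  have a : AnalyticAt ℂ ζ 0 := ⟨p, hp⟩
  have hs0 : dslope ζ 0 0 ≠ 0 := by rwa [dslope_same]
  have hζs : ∀ z, ζ z = z * dslope ζ 0 z := fun z => by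
    have := sub_smul_dslope ζ 0 z
    rw [b, sub_zero, sub_zero, smul_eq_mul] at this
    exact this.symm
  have ht' : Tendsto ζ (𝓝[≠] 0) (𝓝[≠] 0) := by
    refine tendsto_nhdsWithin_iff.2 ⟨ht.mono_left nhdsWithin_le_nhds, ?_⟩
    filter_upwards [mem_nhdsWithin_of_mem_nhds (hs.continuousAt.eventually_ne hs0),
      self_mem_nhdsWithin] with z a1 a2
    rw [mem_compl_singleton_iff, hζs]
    exact mul_ne_zero a2 a1
  refine ⟨fun z => dslope ζ 0 z ^ (-o) * g (ζ z) / deriv ζ z,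
    ((hs.zpow hs0).mul (g1.comp_of_eq a b)).div a.deriv hζ, ?_, ?_, fun hr => ?_⟩
  · simp only [b]
    exact div_ne_zero (mul_ne_zero (zpow_ne_zero _ hs0) g2) hζ
  · filter_upwards [ht'.eventually g3, mem_nhdsWithin_of_mem_nhds hdM,
      mem_nhdsWithin_of_mem_nhds c] with z a1 a2 a3
    rw [a2, a3, Function.comp_apply, ← div_div, a1]
    conv_lhs => rw [hζs z, mul_zpow, ← hζs z]
    ring
  · simp only [b, ho hr, neg_zero, zpow_zero, one_mul]
    rw [hdM.self_of_nhds, b, he, ← div_div, g4 hr]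

/-- meromorphic vector fields, holomorphic and without zeros outside `Z` -/
structure MVF (τ : M → ℂ) (ord : M → ℤ) (Z : Set M) : Prop where
  fin : Z.Finite
  ord0 : ∀ m, m ∉ Z → ord m = 0
  loc : ∀ σ : ℂ → M, HolAt σ 0 → dM σ 0 ≠ 0 → Ord τ (ord (σ 0)) σ (σ 0 ∉ Z)

theorem mvf_of {τ : M → ℂ} {ord : M → ℤ} {Z : Set M} (fin : Z.Finite)
    (ord0 : ∀ m, m ∉ Z → ord m = 0) (h : ∀ m, ∃ σ : ℂ → M, σ 0 = m ∧ HolAt σ 0 ∧ dM σ 0 ≠ 0 ∧
      Ord τ (ord m) σ (m ∉ Z)) : MVF τ ord Z := ⟨fin, ord0, fun σ a b => by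
  obtain ⟨σ', c, d, e, f⟩ := h (σ 0)
  exact f.change (ord0 _) a b d e c.symm⟩

/-- the vector field dual to a holomorphic form -/
theorem mvf_form [CompactSpace M] [ConnectedSpace M] {θ : M → ℂ} (hθ : HolForm θ)
    (hne : ∃ m, θ m ≠ 0) : ∃ ord : M → ℤ, MVF (fun m => (θ m)⁻¹) ord {m | θ m = 0} ∧
      (∀ m, 0 ≤ ord m) ∧ ∀ m, θ m = 0 → 0 < ord m := by
  choose σ h0 h1 h2 using exists_plot (M := M)
  have hmap : ∀ m, map (σ m) (𝓝 0) = 𝓝 m := fun m => by rw [map_hol (h1 m) (h2 m), h0]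
  have hiso : ∀ m, (¬ ∀ᶠ y in 𝓝 m, θ y = 0) → (¬ ∀ᶠ z in 𝓝 (0 : ℂ), pbk θ (σ m) z = 0) ∧
      ∀ᶠ y in 𝓝 m, y ≠ m → θ y ≠ 0 := by
    intro m hm
    have a : ¬ ∀ᶠ z in 𝓝 (0 : ℂ), pbk θ (σ m) z = 0 := by
      intro h
      apply hm
      rw [← hmap, eventually_map]
      filter_upwards [h, ev_dM (h1 m) (h2 m)] with z a b
      exact (mul_eq_zero.1 a).resolve_right b
    refine ⟨a, ?_⟩
    have b := (hθ _ _ (h1 m)).eventually_eq_zero_or_eventually_ne_zero.resolve_left a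
    rw [← hmap, eventually_map]
    filter_upwards [eventually_nhdsWithin_iff.1 b] with z c d
    exact left_ne_zero_of_mul (c fun e => d (by rw [show z = 0 from e, h0]))
  have hall : ∀ m, ¬ ∀ᶠ y in 𝓝 m, θ y = 0 := by
    have hc : IsClopen {m | ∀ᶠ y in 𝓝 m, θ y = 0} := by
      refine ⟨?_, isOpen_setOf_eventually_nhds⟩
      rw [← isOpen_compl_iff, isOpen_iff_mem_nhds]
      intro m hm
      filter_upwards [(hiso m hm).2] with y hy hy'
      by_cases e : y = m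
      · exact hm (e ▸ hy')
      · exact hy e (hy' : ∀ᶠ t in 𝓝 y, θ t = 0).self_of_nhds
    obtain ⟨m₀, hm₀⟩ := hne
    have := (isClopen_iff.1 hc).resolve_right fun h =>
      hm₀ (show ∀ᶠ y in 𝓝 m₀, θ y = 0 from (h ▸ mem_univ m₀ : m₀ ∈ _)).self_of_nhds
    intro m hm
    exact (this ▸ hm : m ∈ (∅ : Set M))
  have hn : ∀ m, ∃ (n : ℕ) (g : ℂ → ℂ), AnalyticAt ℂ g 0 ∧ g 0 ≠ 0 ∧
      ∀ᶠ z in 𝓝 (0 : ℂ), pbk θ (σ m) z = (z - 0) ^ n • g z := fun m =>
    (hθ _ _ (h1 m)).exists_eventuallyEq_pow_smul_nonzero_iff.2 (hiso m (hall m)).1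
  choose n g g1 g2 g3 using hn
  have hn0 : ∀ m, θ m = 0 ↔ n m ≠ 0 := by
    intro m
    have a := (g3 m).self_of_nhds
    rw [pbk, h0, sub_zero, smul_eq_mul] at a
    constructor
    · intro b c
      rw [b, c, zero_mul, pow_zero, one_mul] at a
      exact g2 m a.symm
    · intro c
      rw [zero_pow c, zero_mul] at a
      exact (mul_eq_zero.1 a).resolve_right (h2 m)
  refine ⟨fun m => n m, mvf_of ?_ (fun m hm => ?_) fun m => ⟨σ m, h0 m, h1 m, h2 m,
    fun z => (g m z)⁻¹, (g1 m).inv (g2 m), inv_ne_zero (g2 m), ?_, fun hm => ?_⟩,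
    fun m => by positivity, fun m hm => Int.natCast_pos.2 (Nat.pos_of_ne_zero ((hn0 m).1 hm))⟩
  · have key : (univ ∩ {m | θ m = 0}).Finite := by
      refine isCompact_univ.induction_on (p := fun S => (S ∩ {m | θ m = 0}).Finite) (by simp)
        (fun S S' a b => b.subset (inter_subset_inter_left _ a))
        (fun S S' a b => by rw [union_inter_distrib_right]; exact a.union b) fun m _ =>
        ⟨_, mem_nhdsWithin_of_mem_nhds (hiso m (hall m)).2, (finite_singleton m).subset ?_⟩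
      rintro y ⟨a, b⟩
      by_contra c
      exact a c b
    rwa [univ_inter] at key
  · have := (hn0 m).not.1 hm
    simp only [ne_eq, not_not] at this
    simp [this]
  · filter_upwards [mem_nhdsWithin_of_mem_nhds (g3 m)] with z a
    rw [div_eq_mul_inv, ← mul_inv]
    change (pbk θ (σ m) z)⁻¹ = _
    rw [a, sub_zero, smul_eq_mul, mul_inv, zpow_neg, zpow_natCast]
  · have a := (g3 m).self_of_nhds
    have b := (hn0 m).not.1 hm
    simp only [ne_eq, not_not] at b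
    rw [div_eq_mul_inv, ← mul_inv]
    change (pbk θ (σ m) 0)⁻¹ = _
    rw [a, b]; simp

open Classical in
/-- the vector field `∂ / ∂ z` of the sphere -/
theorem mvf_sphere {u v : ℂ → M} (h : IsP1 u v) :
    ∃ τ : M → ℂ, MVF τ (fun m => if m = v 0 then -2 else 0) {v 0} := by
  have hu : ∀ z, HolAt u z := fun z => Eventually.of_forall h.hu
  refine ⟨fun m => dM u (Function.invFun u m), mvf_of (finite_singleton _)
    (fun m hm => if_neg hm) fun m => ?_⟩
  have hl : ∀ z, Function.invFun u (u z) = z := Function.leftInverse_invFun h.inj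
  rcases h.surj m with rfl | ⟨z₀, rfl⟩
  · refine ⟨v, rfl, Eventually.of_forall h.hv, h.dv 0, fun _ => -1, analyticAt_const, by simp, ?_,
      fun hm => absurd rfl hm⟩
    filter_upwards [self_mem_nhdsWithin] with z hz
    have hz' : z ≠ 0 := hz
    have e : v =ᶠ[𝓝 z] u ∘ fun t => t⁻¹ := by
      filter_upwards [isOpen_ne.mem_nhds hz'] with t ht using h.glue t ht
    rw [dM_congr e, dM_comp (h.hu _) (differentiableAt_inv hz'), h.glue z hz', hl, deriv_inv,
      if_pos rfl]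
    have := h.du z⁻¹
    rw [neg_neg, zpow_ofNat]
    generalize dM u z⁻¹ = a at this
    field_simp
  · have hne : u z₀ ≠ v 0 := fun e => h.inf ⟨z₀, e⟩
    have key : ∀ z, dM u (Function.invFun u ((u ∘ fun t => z₀ + t) z)) /
        dM (u ∘ fun t => z₀ + t) z = 1 := by
      intro z
      rw [dM_comp (h.hu _) (by fun_prop), Function.comp_apply, hl]
      simp [h.du]
    refine ⟨u ∘ fun t => z₀ + t, by simp, (hu _).comp (by fun_prop), ?_, fun _ => 1,
      analyticAt_const, one_ne_zero, Eventually.of_forall fun z => ?_, fun _ => key 0⟩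
    · rw [dM_comp (h.hu _) (by fun_prop)]
      simp [h.du]
    · rw [if_neg hne]
      simpa using key z

end Vale.Agent.P247C.RT
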